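import Vale.Agent.P236K.Cert.Mrg
import Vale.Agent.P236K.Cert.Cok
import Vale.Agent.P236K.Cert.D96
import Vale.Agent.P236K.Cert.LayD

/-!
# P236K / K53 / N0 : stored values of degree 0 (generated)
-/

noncomputable section

namespace Vale.Agent.P236K.Cert.K53

/-- values -/
noncomputable def t0_0 : BT := (.n .l (nat_lit 0) (nat_lit 0) .l)

/-- values by weight -/
noncomputable def tw0 : ℕ → BT := nthB [t0_0, .l, .l, .l, .l, .l, .l, .l, .l, .l, .l, .l, .l, .l, .l, .l, .l, .l, .l, .l, .l, .l, .l, .l, .l, .l, .l, .l, .l, .l, .l, .l, .l, .l, .l, .l, .l, .l, .l, .l, .l, .l, .l, .l, .l, .l, .l, .l, .l, .l, .l, .l, .l, .l, .l, .l, .l, .l, .l, .l, .l, .l, .l, .l, .l, .l, .l, .l, .l, .l, .l, .l, .l, .l, .l, .l, .l, .l, .l, .l, .l, .l, .l, .l, .l, .l, .l, .l, .l, .l]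

/-- decompression -/
noncomputable def un0 : ℕ → ℕ := unp7 3

/-- the nodes -/
noncomputable def Q0 : NP := Pl.D96.np 0 ly1 tw0 un0

end Vale.Agent.P236K.Cert.K53
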