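import Vale.Agent.P236K.Cert.Fast
import Vale.Agent.P236K.K53.N0
import Vale.Agent.P236K.K53.N1

/-!
# P236K / K53 / R0_1 : rows of degree 0 (generated)
-/

noncomputable section

namespace Vale.Agent.P236K.Cert.K53

/-- rows -/
noncomputable def r0_1 : List ℕ := [55, 56, 57, 58, 59, 60, 61, 179, 180, 181, 182, 183, 184, 185, 303, 304, 305, 306, 307, 308, 309, 427, 428, 429, 430, 431, 432, 433, 551, 552, 553, 554, 555, 556, 557, 675, 676, 677, 678, 679, 680, 681, 799, 800, 801, 802, 803, 804, 805, 923, 924, 925, 926, 927, 928, 929, 1047, 1048, 1049, 1050, 1051, 1052, 1053, 1171, 1172, 1173, 1174, 1175, 1176, 1177, 1295, 1296, 1297, 1298, 1299, 1300, 1301, 1419, 1420, 1421, 1422, 1423, 1424, 1425, 1543, 1544, 1545, 1546, 1547, 1548, 1549, 1667, 1668, 1669, 1670, 1671, 1672, 1673, 1792, 1793, 1794, 1795, 1796, 1797, 1920, 1921, 16426, 16427, 16428, 16429, 16430, 16431, 16432, 16550, 16551, 16552, 16553, 16554, 16555, 16556, 16674, 16675, 16676, 16677, 16678, 16679, 16680, 16798, 16799, 16800, 16801, 16802,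 16803, 16804, 16922, 16923, 16924, 16925, 16926, 16927, 16928, 17046, 17047, 17048, 17049, 17050, 17051, 17052, 17170, 17171, 17172, 17173, 17174, 17175, 17176, 17294, 17295, 17296, 17297, 17298, 17299, 17300, 17418, 17419, 17420, 17421, 17422, 17423, 17424, 17542, 17543, 17544, 17545, 17546, 17547, 17548, 17666, 17667, 17668, 17669, 17670, 17671, 17672, 17792, 17793, 17794, 17795, 17796, 17920, 32797, 32798, 32799, 32800, 32801, 32802, 32803, 32921, 32922, 32924, 32925, 32926, 32927, 33044, 33045, 33046, 33047, 33048, 33049, 33050, 33168, 33169, 33170, 33171, 33172, 33173, 33174, 33175, 33292, 33293, 33294, 33295, 33296, 33297, 33298, 33299, 33416, 33417, 33420, 33421, 33422, 33423, 33540, 33541, 33542, 33543, 33544, 33545, 33546, 33664, 33665, 33666, 33667, 33668, 33669, 33670, 33792, 33793, 33794, 49167, 49168, 49169, 49170, 49171, 49172, 49173, 49291, 49292, 49293, 49294, 49295, 49296, 49297, 49415, 49416, 49417, 49418, 49419, 49420, 49421, 49539, 49540, 49541, 49542, 49543, 49544, 49545, 49664,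 49665, 49666, 49667, 49668, 49669, 49792, 49793, 65538, 65539, 65540, 65541, 65542, 65543, 65544, 65664, 65665, 65666, 65667, 65668, 65792]

theorem c0_1 : rowsF (par Q0 Q1 fm3 zr fe1 zr) r0_1 = true := by decide +kernel


end Vale.Agent.P236K.Cert.K53
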