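import Vale.Agent.P236K.Cert.Fast
import Vale.Agent.P236K.K53.N0
import Vale.Agent.P236K.K53.N1

/-!
# P236K / K53 / R0_2 : rows of degree 0 (generated)
-/

noncomputable section

namespace Vale.Agent.P236K.Cert.K53

/-- rows -/
noncomputable def r0_2 : List ℕ := [62, 63, 64, 65, 66, 186, 187, 188, 189, 190, 310, 311, 312, 313, 314, 434, 435, 436, 437, 438, 558, 559, 560, 561, 562, 682, 683, 684, 685, 686, 806, 807, 808, 809, 810, 930, 931, 932, 933, 934, 1054, 1055, 1056, 1057, 1058, 1178, 1179, 1180, 1181, 1182, 1302, 1303, 1304, 1305, 1306, 1426, 1427, 1428, 1429, 1430, 1550, 1551, 1552, 1553, 1554, 1674, 1675, 1676, 1677, 1678, 1798, 1799, 1800, 1801, 1802, 1922, 1923, 1924, 1925, 1926, 2048, 2049, 2050, 16433, 16434, 16435, 16436, 16437, 16557, 16558, 16559, 16560, 16561, 16681, 16682, 16683, 16684, 16685, 16805, 16806, 16807, 16808, 16809, 16929, 16930, 16931, 16932, 16933, 17053, 17054, 17055, 17056, 17057, 17177, 17178, 17179, 17180, 17181, 17301, 17302, 17303, 17304, 17305, 17425, 17426, 17427,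 17428, 17549, 17550, 17551, 17552, 17673, 17674, 17675, 17676, 17797, 17798, 17799, 17800, 17921, 17922, 17923, 17924, 18048, 32804, 32805, 32806, 32807, 32928, 32929, 32930, 32931, 33054, 33055, 33176, 33177, 33178, 33179, 33300, 33301, 33302, 33303, 33424, 33425, 33426, 33427, 33547, 33548, 33549, 33550, 33551, 33671, 33672, 33674, 33675, 33795, 33796, 33797, 33798, 33799, 33920, 33921, 33922, 33923, 49174, 49175, 49176, 49177, 49178, 49298, 49299, 49300, 49301, 49302, 49422, 49423, 49424, 49425, 49426, 49546, 49547, 49548, 49549, 49550, 49670, 49671, 49672, 49673, 49674, 49794, 49795, 49796, 49797, 49798, 49920, 49921, 49922, 65546, 65547, 65548, 65549, 65669, 65670, 65671, 65672, 65673, 65793, 65794, 65795, 65796, 65797, 65920, 65921, 81920]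

theorem c0_2 : rowsF (par Q0 Q1 fm3 zr fe1 zr) r0_2 = true := by decide +kernel


end Vale.Agent.P236K.Cert.K53
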