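import Vale.Agent.P236K.Cert.Fast
import Vale.Agent.P236K.K53.N0
import Vale.Agent.P236K.K53.N1

/-!
# P236K / K53 / R0_3 : rows of degree 0 (generated)
-/

noncomputable section

namespace Vale.Agent.P236K.Cert.K53

/-- rows -/
noncomputable def r0_3 : List ℕ := [67, 68, 69, 191, 192, 193, 315, 316, 317, 439, 440, 441, 563, 564, 565, 687, 688, 689, 811, 812, 813, 935, 936, 937, 1059, 1060, 1061, 1183, 1184, 1185, 1307, 1308, 1309, 1431, 1432, 1433, 1555, 1556, 1557, 1679, 1680, 1681, 1803, 1804, 1805, 1927, 1928, 1929, 2051, 2052, 2053, 2176, 2177, 16438, 16439, 16440, 16562, 16563, 16564, 16686, 16687, 16688, 16810, 16811, 16812, 16934, 16935, 16936, 17058, 17059, 17060, 17182, 17183, 17184, 17306, 17307, 17308, 17429, 17430, 17431, 17432, 17553, 17554, 17555, 17556, 17677, 17678, 17679, 17680, 17801, 17802, 17803, 17804, 17925, 17926, 17927, 17928, 18049, 18050, 18052, 18176, 32808, 32809, 32810, 32811, 32932, 32933, 32934, 32935, 33056, 33057, 33058, 33059, 33180, 33181, 33182, 33183, 33304, 33305, 33306,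 33307, 33428, 33429, 33430, 33431, 33552, 33553, 33554, 33555, 33676, 33677, 33678, 33800, 33924, 33925, 33926, 33927, 34048, 34049, 34050, 49179, 49180, 49181, 49182, 49303, 49304, 49305, 49306, 49427, 49428, 49429, 49430, 49551, 49552, 49553, 49554, 49675, 49676, 49677, 49678, 49799, 49800, 49801, 49802, 49923, 49924, 49925, 49926, 50048, 50049, 50050, 65550, 65551, 65552, 65553, 65674, 65675, 65676, 65798, 65799, 65800, 65922, 65923, 65924, 66048, 81921, 81922, 81923]

theorem c0_3 : rowsF (par Q0 Q1 fm3 zr fe1 zr) r0_3 = true := by decide +kernel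


end Vale.Agent.P236K.Cert.K53
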