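import Vale.Agent.P236K.Cert.Fast
import Vale.Agent.P236K.K53.N0
import Vale.Agent.P236K.K53.N1

/-!
# P236K / K53 / R0_4 : rows of degree 0 (generated)
-/

noncomputable section

namespace Vale.Agent.P236K.Cert.K53

/-- rows -/
noncomputable def r0_4 : List ℕ := [70, 71, 72, 194, 195, 196, 318, 319, 320, 442, 443, 444, 566, 567, 568, 690, 691, 692, 814, 815, 816, 938, 939, 940, 1062, 1063, 1064, 1186, 1187, 1188, 1310, 1311, 1312, 1434, 1435, 1436, 1558, 1559, 1560, 1682, 1683, 1684, 1806, 1807, 1808, 1930, 1931, 1932, 2054, 2055, 2056, 2178, 2179, 2180, 2304, 16441, 16442, 16443, 16565, 16566, 16567, 16689, 16690, 16691, 16813, 16814, 16815, 16937, 16938, 16939, 17061, 17062, 17063, 17185, 17186, 17187, 17309, 17310, 17311, 17433, 17434, 17435, 17557, 17558, 17559, 17681, 17682, 17683, 17805, 17806, 17807, 17929, 17930, 17931, 18053, 18054, 18055, 18177, 18178, 32812, 32813, 32814, 32936, 32937, 32938, 33060, 33061, 33062, 33184, 33185, 33186, 33308, 33309, 33310, 33432, 33433, 33434, 33556, 33557, 33558,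 33680, 33681, 33682, 33804, 33805, 33806, 33928, 34052, 34053, 34176, 34177, 49183, 49184, 49307, 49308, 49431, 49432, 49555, 49556, 49679, 49680, 49803, 49804, 49927, 49928, 50051, 50052, 50176, 65554, 65555, 65677, 65678, 65679, 65801, 65802, 65803, 65925, 65926, 65927, 66049, 66050, 81924, 81925, 81926, 82048, 82049, 82050]

theorem c0_4 : rowsF (par Q0 Q1 fm3 zr fe1 zr) r0_4 = true := by decide +kernel


end Vale.Agent.P236K.Cert.K53
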