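import Vale.Agent.P236K.Cert.Fast
import Vale.Agent.P236K.K53.N0
import Vale.Agent.P236K.K53.N1

/-!
# P236K / K53 / R0_5 : rows of degree 0 (generated)
-/

noncomputable section

namespace Vale.Agent.P236K.Cert.K53

/-- rows -/
noncomputable def r0_5 : List ℕ := [73, 74, 75, 76, 77, 78, 79, 80, 81, 82, 83, 84, 85, 86, 87, 197, 198, 199, 200, 201, 202, 203, 204, 205, 206, 321, 322, 323, 324, 325, 328, 329, 330, 445, 446, 447, 448, 449, 450, 451, 452, 453, 454, 455, 456, 457, 459, 569, 570, 571, 572, 575, 693, 694, 695, 696, 697, 817, 818, 819, 820, 821, 822, 823, 824, 825, 826, 827, 828, 829, 830, 831, 941, 942, 943, 944, 947, 950, 1065, 1066, 1067, 1068, 1069, 1189, 1190, 1191, 1192, 1193, 1194, 1195, 1196, 1197, 1198, 1199, 1200, 1201, 1313, 1314, 1315, 1316, 1317, 1318, 1319, 1320, 1321, 1322, 1437, 1438, 1439, 1440, 1444, 1445, 1446, 1561, 1562, 1563, 1564, 1565, 1566, 1567, 1568, 1569, 1570, 1571, 1572, 1573, 1685, 1686, 1687, 1688, 1691, 1809, 1810, 1811, 1812, 1933, 1934, 1935, 1936,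 1937, 1938, 1939, 1940, 1941, 1942, 2057, 2058, 2059, 2060, 2181, 2182, 2183, 2184, 2305, 2306, 2307, 2308, 2309, 2310, 2311, 2312, 2313, 2314, 2316, 2432, 2433, 2434, 2436, 2437, 2438, 2560, 2561, 2562, 2688, 16444, 16445, 16446, 16447, 16568, 16569, 16570, 16571, 16572, 16692, 16816, 16817, 16818, 16819, 16940, 16941, 16942, 16943, 16944, 17064, 17065, 17066, 17067, 17188, 17189, 17190, 17191, 17312, 17313, 17314, 17315, 17316, 17436, 17437, 17439, 17560, 17563, 17684, 17685, 17808, 17932, 18056, 18057, 18180, 18304, 32816, 33187, 33188, 33189, 33191, 33311, 33312, 33313, 33435, 33436, 33437, 33560, 33563, 33930, 33932, 34054, 34178, 34304, 49185, 49186, 49187, 49188, 49189, 49190, 49191, 49192, 49193, 49194, 49195, 49196, 49197, 49198, 49200, 49309, 49310, 49311, 49312, 49313, 49316, 49433, 49434, 49435, 49436, 49437, 49438, 49557, 49558, 49559, 49560, 49561, 49562, 49563, 49564, 49565, 49566, 49567, 49568, 49569, 49570, 49571, 49572, 49681, 49682, 49683, 49684, 49685, 49688, 49691,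 49805, 49806, 49807, 49808, 49809, 49810, 49929, 49930, 49931, 49932, 49933, 49934, 49935, 49936, 49937, 49938, 49939, 49940, 49941, 50053, 50054, 50055, 50056, 50057, 50060, 50177, 50178, 50180, 50304, 50305, 50306, 50307, 50308, 50309, 50310, 50311, 50312, 50313, 50314, 50432, 65556, 65557, 65558, 65559, 65560, 65680, 65681, 65682, 65683, 65684, 65685, 65804, 65805, 65806, 65807, 65808, 65928, 65929, 65930, 65931, 65932, 66052, 66053, 66054, 66055, 66056, 66057, 66176, 66177, 66178, 66180, 66304, 81927, 81928, 81930, 81932, 82052, 82053, 82054, 82176, 82177, 82178, 82304, 98304, 98305, 98306, 98307, 98308, 98309, 98310, 98311, 98312, 98313, 98432]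

theorem c0_5 : rowsF (par Q0 Q1 fm3 zr fe1 zr) r0_5 = true := by decide +kernel


end Vale.Agent.P236K.Cert.K53
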