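import Vale.Agent.P236K.Cert.LevF
import Vale.Agent.P236K.Cert.FastEq
import Vale.Agent.P236K.K53.R0_0
import Vale.Agent.P236K.K53.R0_1
import Vale.Agent.P236K.K53.R0_2
import Vale.Agent.P236K.K53.R0_3
import Vale.Agent.P236K.K53.R0_4
import Vale.Agent.P236K.K53.R0_5

/-!
# P236K / K53 / S0 : the step from degree 0 (generated)
-/

noncomputable section

namespace Vale.Agent.P236K.Cert.K53

/-- rows -/
noncomputable def rows0 : List ℕ := (mrg (mrg r0_0 (mrg r0_1 r0_2)) (mrg r0_3 (mrg r0_4 r0_5)))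

theorem lv0 : levF Q0 Q1 ly0.gl rows0 = true := by decide +kernel

theorem stp0 : Stp Q0 Q1 ly0.gl :=
  Stp.ofF (rows := rows0) (RowsAll.mrg (RowsAll.mrg (RowsAll.ofF c0_0) (RowsAll.mrg (RowsAll.ofF c0_1) (RowsAll.ofF c0_2))) (RowsAll.mrg (RowsAll.ofF c0_3) (RowsAll.mrg (RowsAll.ofF c0_4) (RowsAll.ofF c0_5)))) lv0

end Vale.Agent.P236K.Cert.K53
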