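import Vale.Agent.P236K.Cert.Fast
import Vale.Agent.P236K.K53.N1
import Vale.Agent.P236K.K53.N2

/-!
# P236K / K53 / R1_1 : rows of degree 1 (generated)
-/

noncomputable section

namespace Vale.Agent.P236K.Cert.K53

/-- rows -/
noncomputable def r1_1 : List ℕ := [268435511, 268435512, 268435513, 268435514, 268435515, 268435516, 268435517, 268435635, 268435636, 268435637, 268435638, 268435639, 268435640, 268435641, 268435759, 268435760, 268435761, 268435762, 268435763, 268435764, 268435765, 268435883, 268435884, 268435885, 268435886, 268435887, 268435888, 268435889, 268436007, 268436008, 268436009, 268436010, 268436011, 268436012, 268436013, 268436131, 268436132, 268436133, 268436134, 268436135, 268436136, 268436137, 268436255, 268436256, 268436257, 268436258, 268436259, 268436260, 268436261, 268436379, 268436380, 268436381, 268436382, 268436383, 268436384, 268436385, 268436503, 268436504, 268436505, 268436506, 268436507, 268436508, 268436509, 268436627, 268436628, 268436629, 268436630, 268436631, 268436632, 268436633, 268436751, 268436752, 268436753, 268436754, 268436755, 268436756, 268436757, 268436875, 268436876, 268436877, 268436878, 268436879, 268436880, 268436881, 268436999, 268437000, 268437001, 268437002, 268437003, 268437004, 268437005, 268437124, 268437125,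 268437126, 268437127, 268437128, 268437129, 268437250, 268437251, 268437252, 268437253, 268451882, 268451883, 268451884, 268451885, 268451886, 268451887, 268451888, 268452006, 268452007, 268452008, 268452009, 268452010, 268452011, 268452012, 268452130, 268452131, 268452132, 268452133, 268452134, 268452135, 268452136, 268452254, 268452255, 268452256, 268452257, 268452258, 268452259, 268452260, 268452378, 268452379, 268452380, 268452381, 268452382, 268452383, 268452384, 268452502, 268452503, 268452504, 268452505, 268452506, 268452507, 268452508, 268452626, 268452627, 268452628, 268452629, 268452630, 268452631, 268452632, 268452750, 268452751, 268452752, 268452753, 268452754, 268452755, 268452756, 268452873, 268452874, 268452875, 268452876, 268452877, 268452878, 268452879, 268452880, 268452997, 268452998, 268452999, 268453000, 268453001, 268453002, 268453003, 268453122, 268453124, 268453125, 268453126, 268453127, 268453250, 268453251, 268468252, 268468253, 268468254, 268468255, 268468256, 268468257, 268468258, 268468376, 268468377, 268468378, 268468379, 268468380, 268468381, 268468382, 268468500, 268468501, 268468502, 268468503, 268468504, 268468505, 268468506, 268468624, 268468625, 268468626, 268468627, 268468628, 268468629, 268468630, 268468748, 268468749, 268468750,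 268468751, 268468752, 268468753, 268468754, 268468872, 268468873, 268468874, 268468875, 268468876, 268468877, 268468878, 268468996, 268468997, 268468998, 268468999, 268469000, 268469001, 268469002, 268469122, 268469124, 268469125, 268469126, 268469250, 268484623, 268484624, 268484625, 268484626, 268484627, 268484628, 268484629, 268484747, 268484748, 268484749, 268484750, 268484751, 268484752, 268484753, 268484871, 268484872, 268484873, 268484874, 268484875, 268484876, 268484877, 268484996, 268484997, 268484998, 268484999, 268485000, 268485001, 268485122, 268485124, 268485125, 268501000]

theorem c1_1 : rowsF (par Q1 Q2 fm3 zr fe1 zr) r1_1 = true := by decide +kernel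


end Vale.Agent.P236K.Cert.K53
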