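import Vale.Agent.P236K.Cert.Fast
import Vale.Agent.P236K.K53.N1
import Vale.Agent.P236K.K53.N2

/-!
# P236K / K53 / R1_10 : rows of degree 1 (generated)
-/

noncomputable section

namespace Vale.Agent.P236K.Cert.K53

/-- rows -/
noncomputable def r1_10 : List ℕ := [536870981, 536870982, 536870983, 536870984, 536871105, 536871106, 536871107, 536871108, 536871229, 536871230, 536871231, 536871232, 536871353, 536871354, 536871355, 536871356, 536871477, 536871478, 536871479, 536871480, 536871601, 536871602, 536871603, 536871604, 536871725, 536871726, 536871727, 536871728, 536871849, 536871850, 536871851, 536871852, 536871973, 536871974, 536871975, 536871976, 536872097, 536872098, 536872099, 536872100, 536872221, 536872222, 536872223, 536872224, 536872345, 536872346, 536872347, 536872348, 536872469, 536872470, 536872471, 536872472, 536872593, 536872594, 536872595, 536872596, 536872717, 536872718, 536872719, 536872720, 536872841, 536872842, 536872843, 536872844, 536872966, 536872967, 536872968, 536887352, 536887353, 536887354, 536887355, 536887476, 536887477, 536887478, 536887479, 536887600, 536887601, 536887602, 536887603, 536887724, 536887725, 536887726, 536887727, 536887848, 536887849, 536887850, 536887851, 536887972, 536887973, 536887974, 536887975,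 536888096, 536888097, 536888098, 536888099, 536888220, 536888221, 536888222, 536888223, 536888344, 536888345, 536888346, 536888468, 536888469, 536888470, 536888592, 536888593, 536888594, 536888595, 536888716, 536888717, 536888718, 536888840, 536888842, 536903723, 536903724, 536903725, 536903726, 536903846, 536903847, 536903848, 536903849, 536903850, 536903970, 536903971, 536903972, 536904094, 536904095, 536904096, 536904097, 536904098, 536904218, 536904219, 536904220, 536904342, 536904343, 536904467, 536904590, 536904591, 536904714, 536904715, 536904838, 536904839, 536904840, 536920093, 536920094, 536920095, 536920096, 536920217, 536920218, 536920219, 536920220, 536920341, 536920342, 536920343, 536920344, 536920465, 536920466, 536920467, 536920468, 536920589, 536920590, 536920591, 536920592, 536920713, 536920714, 536920715, 536920716, 536920838, 536920839, 536920840, 536936464, 536936465, 536936467, 536936588, 536936589, 536936590, 536936591, 536936712, 536936713, 536936714, 536936715, 536936838, 536936839, 536952838]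

theorem c1_10 : rowsF (par Q1 Q2 fm3 zr fe1 zr) r1_10 = true := by decide +kernel


end Vale.Agent.P236K.Cert.K53
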