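import Vale.Agent.P236K.Cert.Fast
import Vale.Agent.P236K.K53.N1
import Vale.Agent.P236K.K53.N2

/-!
# P236K / K53 / R1_12 : rows of degree 1 (generated)
-/

noncomputable section

namespace Vale.Agent.P236K.Cert.K53

/-- rows -/
noncomputable def r1_12 : List ℕ := [805306425, 805306426, 805306427, 805306428, 805306429, 805306430, 805306431, 805306432, 805306433, 805306434, 805306435, 805306549, 805306550, 805306551, 805306552, 805306553, 805306554, 805306555, 805306556, 805306557, 805306558, 805306559, 805306673, 805306674, 805306675, 805306676, 805306677, 805306678, 805306679, 805306680, 805306681, 805306682, 805306683, 805306797, 805306798, 805306799, 805306800, 805306801, 805306802, 805306803, 805306804, 805306805, 805306806, 805306807, 805306921, 805306922, 805306923, 805306924, 805306925, 805306926, 805306927, 805306928, 805306929, 805306930, 805306931, 805307045, 805307046, 805307047, 805307048, 805307049, 805307050, 805307051, 805307052, 805307053, 805307054, 805307055, 805307169, 805307170, 805307171, 805307172, 805307173, 805307174, 805307175, 805307176, 805307177, 805307178, 805307179, 805307293, 805307294, 805307295, 805307296, 805307297, 805307298, 805307299, 805307300, 805307301, 805307302, 805307303, 805307417, 805307418, 805307419, 805307420, 805307421,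 805307422, 805307423, 805307424, 805307425, 805307426, 805307427, 805307541, 805307542, 805307543, 805307544, 805307545, 805307546, 805307548, 805307549, 805307550, 805307551, 805307666, 805307667, 805307668, 805307669, 805307670, 805307671, 805307672, 805307673, 805307674, 805307675, 805307794, 805307795, 805307796, 805307797, 805307798, 805307799, 805307922, 805307923, 805322796, 805322797, 805322798, 805322799, 805322800, 805322801, 805322802, 805322803, 805322804, 805322805, 805322806, 805322920, 805322921, 805322922, 805322923, 805322924, 805322925, 805322926, 805322927, 805322928, 805322929, 805322930, 805323044, 805323045, 805323046, 805323047, 805323048, 805323049, 805323050, 805323051, 805323052, 805323053, 805323054, 805323168, 805323169, 805323170, 805323171, 805323172, 805323173, 805323174, 805323175, 805323176, 805323177, 805323178, 805323292, 805323293, 805323294, 805323295, 805323296, 805323297, 805323298, 805323299, 805323300, 805323301, 805323302, 805323416, 805323417, 805323418, 805323419, 805323420, 805323421, 805323422, 805323423, 805323424, 805323425, 805323426, 805323540, 805323541, 805323542, 805323543, 805323544, 805323545, 805323546, 805323547, 805323548, 805323549, 805323550, 805323666, 805323667, 805323668, 805323669, 805323670, 805323671,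 805323672, 805323673, 805323674, 805323794, 805323795, 805323796, 805323797, 805323922, 805339167, 805339168, 805339169, 805339170, 805339171, 805339172, 805339173, 805339174, 805339175, 805339176, 805339177, 805339291, 805339292, 805339293, 805339294, 805339295, 805339296, 805339297, 805339298, 805339299, 805339300, 805339301, 805339415, 805339416, 805339417, 805339418, 805339419, 805339420, 805339421, 805339422, 805339423, 805339424, 805339425, 805339538, 805339539, 805339540, 805339541, 805339542, 805339543, 805339544, 805339545, 805339546, 805339547, 805339548, 805339549, 805339666, 805339667, 805339668, 805339669, 805339670, 805339671, 805339672, 805339673, 805339794, 805355538, 805355539, 805355540, 805355541, 805355542, 805355543, 805355544, 805355545, 805355546, 805355666, 805355667, 805355668, 805355669, 805355670, 805355671, 805355794, 805355795]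

theorem c1_12 : rowsF (par Q1 Q2 fm3 zr fe1 zr) r1_12 = true := by decide +kernel


end Vale.Agent.P236K.Cert.K53
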