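import Vale.Agent.P236K.Cert.Fast
import Vale.Agent.P236K.K53.N1
import Vale.Agent.P236K.K53.N2

/-!
# P236K / K53 / R1_13 : rows of degree 1 (generated)
-/

noncomputable section

namespace Vale.Agent.P236K.Cert.K53

/-- rows -/
noncomputable def r1_13 : List ℕ := [805306436, 805306437, 805306438, 805306439, 805306440, 805306441, 805306442, 805306443, 805306444, 805306445, 805306446, 805306560, 805306561, 805306562, 805306563, 805306564, 805306565, 805306566, 805306567, 805306568, 805306684, 805306685, 805306686, 805306687, 805306688, 805306689, 805306690, 805306691, 805306692, 805306808, 805306809, 805306810, 805306811, 805306812, 805306813, 805306814, 805306815, 805306816, 805306817, 805306818, 805306932, 805306933, 805306934, 805306935, 805306936, 805306937, 805306938, 805306939, 805306940, 805306941, 805307056, 805307057, 805307058, 805307059, 805307060, 805307061, 805307062, 805307063, 805307064, 805307065, 805307180, 805307181, 805307182, 805307183, 805307184, 805307185, 805307186, 805307187, 805307188, 805307189, 805307190, 805307304, 805307305, 805307306, 805307307, 805307308, 805307309, 805307310, 805307311, 805307312, 805307428, 805307431, 805307432, 805307433, 805307434, 805307552, 805307553, 805307554, 805307555, 805307556, 805307557,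 805307558, 805307559, 805307560, 805307561, 805307562, 805307676, 805307677, 805307678, 805307679, 805307680, 805307681, 805307682, 805307683, 805307800, 805307801, 805307802, 805307803, 805307804, 805307805, 805307806, 805307807, 805307808, 805307924, 805307925, 805307926, 805307927, 805307928, 805307929, 805307930, 805307931, 805307932, 805307933, 805307934, 805308050, 805308051, 805308052, 805308053, 805308054, 805308055, 805308178, 805322807, 805322808, 805322931, 805323055, 805323056, 805323179, 805323303, 805323427, 805323428, 805323551, 805323675, 805339178, 805339303, 805339550, 805339675, 805339797, 805339922, 805355548, 805355549, 805355551, 805355552, 805355553, 805355554, 805355555, 805355556, 805355557, 805355558, 805355559, 805355672, 805355673, 805355674, 805355675, 805355676, 805355677, 805355678, 805355679, 805355680, 805355681, 805355682, 805355796, 805355797, 805355803, 805355804, 805355805, 805355806, 805355922, 805355923, 805355924, 805355925, 805355926, 805355927, 805355928, 805355929, 805355930, 805355931, 805356050, 805356051, 805356052, 805356053, 1073741878, 1073741879, 1073741880, 1073741881, 1073741882, 1073741883, 1073741884]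

theorem c1_13 : rowsF (par Q1 Q2 fm3 zr fe1 zr) r1_13 = true := by decide +kernel


end Vale.Agent.P236K.Cert.K53
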