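import Vale.Agent.P236K.Cert.Fast
import Vale.Agent.P236K.K53.N1
import Vale.Agent.P236K.K53.N2

/-!
# P236K / K53 / R1_2 : rows of degree 1 (generated)
-/

noncomputable section

namespace Vale.Agent.P236K.Cert.K53

/-- rows -/
noncomputable def r1_2 : List ℕ := [268435518, 268435519, 268435520, 268435521, 268435642, 268435643, 268435644, 268435645, 268435766, 268435767, 268435768, 268435769, 268435890, 268435891, 268435892, 268435893, 268436014, 268436015, 268436016, 268436017, 268436138, 268436139, 268436140, 268436141, 268436262, 268436263, 268436264, 268436265, 268436386, 268436387, 268436388, 268436389, 268436510, 268436511, 268436512, 268436513, 268436634, 268436635, 268436636, 268436637, 268436758, 268436759, 268436760, 268436761, 268436882, 268436883, 268436884, 268436885, 268437006, 268437007, 268437008, 268437009, 268437130, 268437131, 268437132, 268437133, 268437254, 268437255, 268437256, 268437257, 268437378, 268437380, 268437381, 268451889, 268451890, 268451891, 268451892, 268452013, 268452014, 268452015, 268452016, 268452137, 268452138, 268452139, 268452140, 268452261, 268452262, 268452263, 268452264, 268452385, 268452386, 268452387, 268452388, 268452509, 268452510, 268452511, 268452512, 268452633, 268452634, 268452635, 268452636,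 268452757, 268452758, 268452759, 268452760, 268452881, 268452882, 268452883, 268452884, 268453004, 268453005, 268453006, 268453007, 268453008, 268453128, 268453129, 268453130, 268453131, 268453132, 268453252, 268453253, 268453254, 268453255, 268453256, 268468259, 268468260, 268468261, 268468262, 268468263, 268468383, 268468384, 268468385, 268468386, 268468387, 268468507, 268468508, 268468509, 268468510, 268468511, 268468631, 268468632, 268468633, 268468634, 268468635, 268468755, 268468756, 268468757, 268468758, 268468759, 268468879, 268468880, 268468881, 268468882, 268468883, 268469003, 268469004, 268469005, 268469006, 268469127, 268469128, 268469129, 268469130, 268469251, 268469252, 268469253, 268469254, 268484630, 268484631, 268484632, 268484633, 268484754, 268484755, 268484756, 268484757, 268484878, 268484879, 268484880, 268484881, 268485002, 268485003, 268485004, 268485005, 268485126, 268485127, 268485128, 268485129, 268485250, 268485251, 268485252, 268485253, 268501002, 268501003, 268501004, 268501125, 268501126, 268501127, 268501250, 268501251]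

theorem c1_2 : rowsF (par Q1 Q2 fm3 zr fe1 zr) r1_2 = true := by decide +kernel


end Vale.Agent.P236K.Cert.K53
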