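import Vale.Agent.P236K.Cert.Fast
import Vale.Agent.P236K.K53.N1
import Vale.Agent.P236K.K53.N2

/-!
# P236K / K53 / R1_3 : rows of degree 1 (generated)
-/

noncomputable section

namespace Vale.Agent.P236K.Cert.K53

/-- rows -/
noncomputable def r1_3 : List ℕ := [268435522, 268435523, 268435524, 268435525, 268435646, 268435647, 268435648, 268435649, 268435770, 268435771, 268435772, 268435773, 268435894, 268435895, 268435896, 268435897, 268436018, 268436019, 268436020, 268436021, 268436142, 268436143, 268436144, 268436145, 268436266, 268436267, 268436268, 268436269, 268436390, 268436391, 268436392, 268436393, 268436514, 268436515, 268436516, 268436517, 268436638, 268436639, 268436640, 268436641, 268436762, 268436763, 268436764, 268436765, 268436886, 268436887, 268436888, 268436889, 268437010, 268437011, 268437012, 268437013, 268437134, 268437135, 268437136, 268437137, 268437258, 268437259, 268437260, 268437261, 268437382, 268437383, 268437384, 268437385, 268437506, 268437508, 268437509, 268451893, 268451894, 268451895, 268451896, 268452017, 268452018, 268452019, 268452020, 268452141, 268452142, 268452143, 268452144, 268452265, 268452266, 268452267, 268452268, 268452389, 268452390, 268452391, 268452392, 268452513, 268452514, 268452515, 268452516,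 268452637, 268452638, 268452639, 268452640, 268452761, 268452762, 268452763, 268452764, 268452885, 268452886, 268452887, 268453009, 268453010, 268453011, 268453133, 268453134, 268453135, 268453257, 268453258, 268453259, 268468264, 268468265, 268468266, 268468388, 268468389, 268468390, 268468512, 268468513, 268468514, 268468636, 268468637, 268468638, 268468760, 268468761, 268468762, 268468884, 268468885, 268468886, 268469007, 268469008, 268469009, 268469010, 268469131, 268469132, 268469133, 268469134, 268469255, 268469256, 268469257, 268469258, 268484634, 268484635, 268484636, 268484637, 268484758, 268484759, 268484760, 268484761, 268484882, 268484883, 268484884, 268484885, 268485006, 268485007, 268485008, 268485009, 268485130, 268485131, 268485132, 268485133, 268485254, 268485255, 268485256, 268485257, 268485378, 268485380, 268485381, 268501005, 268501006, 268501007, 268501008, 268501129, 268501130, 268501131, 268501132]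

theorem c1_3 : rowsF (par Q1 Q2 fm3 zr fe1 zr) r1_3 = true := by decide +kernel


end Vale.Agent.P236K.Cert.K53
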