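import Vale.Agent.P236K.Cert.Fast
import Vale.Agent.P236K.K53.N1
import Vale.Agent.P236K.K53.N2

/-!
# P236K / K53 / R1_4 : rows of degree 1 (generated)
-/

noncomputable section

namespace Vale.Agent.P236K.Cert.K53

/-- rows -/
noncomputable def r1_4 : List ℕ := [268435526, 268435527, 268435528, 268435650, 268435651, 268435652, 268435774, 268435775, 268435776, 268435898, 268435899, 268435900, 268436022, 268436023, 268436024, 268436146, 268436147, 268436148, 268436270, 268436271, 268436272, 268436394, 268436395, 268436396, 268436518, 268436519, 268436520, 268436642, 268436643, 268436644, 268436766, 268436767, 268436768, 268436890, 268436891, 268436892, 268437014, 268437015, 268437016, 268437138, 268437139, 268437140, 268437262, 268437263, 268437264, 268437386, 268437387, 268437388, 268437510, 268437511, 268437512, 268437634, 268437635, 268437636, 268451897, 268451898, 268451899, 268452021, 268452022, 268452023, 268452145, 268452146, 268452147, 268452269, 268452270, 268452271, 268452393, 268452394, 268452395, 268452517, 268452518, 268452519, 268452641, 268452642, 268452643, 268452765, 268452766, 268452767, 268452888, 268452889, 268452890, 268452891, 268453012, 268453013, 268453014, 268453015, 268453136, 268453137, 268453138, 268453139, 268453260,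 268453261, 268453262, 268453263, 268453384, 268453385, 268453386, 268453387, 268453509, 268453510, 268453511, 268453634, 268453635, 268468267, 268468268, 268468269, 268468270, 268468391, 268468392, 268468393, 268468394, 268468515, 268468516, 268468517, 268468518, 268468639, 268468640, 268468641, 268468642, 268468764, 268468765, 268468766, 268468887, 268468888, 268469011, 268469012, 268469013, 268469135, 268469136, 268469137, 268469259, 268469260, 268469384, 268469385, 268469509, 268484638, 268484639, 268484640, 268484762, 268484763, 268484764, 268484886, 268484887, 268484888, 268485010, 268485011, 268485012, 268485134, 268485135, 268485136, 268485258, 268485259, 268485260, 268485382, 268485383, 268485384, 268485506, 268501009, 268501010, 268501011, 268501133, 268501134, 268501135, 268501257, 268501258, 268501259]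

theorem c1_4 : rowsF (par Q1 Q2 fm3 zr fe1 zr) r1_4 = true := by decide +kernel


end Vale.Agent.P236K.Cert.K53
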