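import Vale.Agent.P236K.Cert.Fast
import Vale.Agent.P236K.K53.N1
import Vale.Agent.P236K.K53.N2

/-!
# P236K / K53 / R1_5 : rows of degree 1 (generated)
-/

noncomputable section

namespace Vale.Agent.P236K.Cert.K53

/-- rows -/
noncomputable def r1_5 : List ℕ := [268435529, 268435530, 268435531, 268435653, 268435654, 268435655, 268435777, 268435778, 268435779, 268435901, 268435902, 268435903, 268436025, 268436026, 268436027, 268436149, 268436150, 268436151, 268436273, 268436274, 268436275, 268436397, 268436398, 268436399, 268436521, 268436522, 268436523, 268436645, 268436646, 268436647, 268436769, 268436770, 268436771, 268436893, 268436894, 268436895, 268437017, 268437018, 268437019, 268437141, 268437142, 268437143, 268437265, 268437266, 268437267, 268437389, 268437390, 268437391, 268437513, 268437514, 268437515, 268437637, 268437638, 268437639, 268437762, 268451900, 268451901, 268451902, 268452024, 268452025, 268452026, 268452148, 268452149, 268452150, 268452272, 268452273, 268452274, 268452396, 268452397, 268452398, 268452520, 268452521, 268452522, 268452644, 268452645, 268452646, 268452768, 268452769, 268452770, 268452892, 268452893, 268452894, 268453016, 268453140, 268453264, 268453388, 268468271, 268468272, 268468273, 268468395,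 268468397, 268468519, 268468643, 268468644, 268468645, 268468767, 268468768, 268468769, 268468890, 268468891, 268469014, 268469015, 268469138, 268469139, 268469262, 268469263, 268469386, 268469387, 268469510, 268469511, 268469634, 268469635, 268484641, 268484642, 268484643, 268484765, 268484766, 268484767, 268484889, 268484890, 268484891, 268485013, 268485014, 268485015, 268485137, 268485138, 268485139, 268485261, 268485262, 268485263, 268485385, 268485386, 268485387, 268485509, 268485510, 268485511, 268485634, 268485635, 268501012, 268501013, 268501014, 268501136, 268501137, 268501138, 268501260, 268501261, 268501262, 268501384, 268501385, 268501386, 268501509, 268501510, 268501634, 268517384, 268517385, 268517509]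

theorem c1_5 : rowsF (par Q1 Q2 fm3 zr fe1 zr) r1_5 = true := by decide +kernel


end Vale.Agent.P236K.Cert.K53
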