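import Vale.Agent.P236K.Cert.Fast
import Vale.Agent.P236K.K53.N1
import Vale.Agent.P236K.K53.N2

/-!
# P236K / K53 / R1_7 : rows of degree 1 (generated)
-/

noncomputable section

namespace Vale.Agent.P236K.Cert.K53

/-- rows -/
noncomputable def r1_7 : List ℕ := [536870962, 536870963, 536870964, 536870965, 536870966, 536870967, 536870968, 536870969, 536870970, 536870971, 536871086, 536871087, 536871088, 536871089, 536871090, 536871091, 536871092, 536871093, 536871094, 536871095, 536871210, 536871211, 536871212, 536871213, 536871214, 536871215, 536871216, 536871217, 536871218, 536871219, 536871334, 536871335, 536871336, 536871337, 536871338, 536871339, 536871340, 536871341, 536871342, 536871343, 536871458, 536871459, 536871460, 536871461, 536871462, 536871463, 536871464, 536871465, 536871466, 536871467, 536871582, 536871583, 536871584, 536871585, 536871586, 536871587, 536871588, 536871589, 536871590, 536871591, 536871706, 536871707, 536871708, 536871709, 536871710, 536871711, 536871712, 536871713, 536871714, 536871715, 536871830, 536871831, 536871832, 536871833, 536871834, 536871835, 536871836, 536871837, 536871838, 536871839, 536871954, 536871955, 536871956, 536871957, 536871958, 536871959, 536871960, 536871961, 536871962, 536871963, 536872078, 536872079, 536872080,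 536872081, 536872082, 536872083, 536872084, 536872085, 536872086, 536872087, 536872202, 536872203, 536872204, 536872205, 536872206, 536872207, 536872208, 536872209, 536872210, 536872211, 536872326, 536872327, 536872328, 536872329, 536872330, 536872331, 536872332, 536872333, 536872334, 536872335, 536872454, 536872455, 536872456, 536872458, 536872459, 536872582, 536872583, 536887333, 536887334, 536887335, 536887336, 536887337, 536887338, 536887339, 536887340, 536887341, 536887342, 536887457, 536887458, 536887459, 536887460, 536887461, 536887462, 536887463, 536887464, 536887465, 536887466, 536887581, 536887582, 536887583, 536887584, 536887585, 536887586, 536887587, 536887588, 536887589, 536887590, 536887705, 536887706, 536887707, 536887708, 536887709, 536887710, 536887711, 536887712, 536887713, 536887714, 536887829, 536887830, 536887831, 536887832, 536887833, 536887834, 536887835, 536887836, 536887837, 536887838, 536887953, 536887954, 536887955, 536887956, 536887957, 536887958, 536887959, 536887960, 536887961, 536887962, 536888077, 536888078, 536888079, 536888080, 536888081, 536888082, 536888083, 536888084, 536888085, 536888086, 536888201, 536888202, 536888203, 536888204, 536888205, 536888206, 536888207, 536888208, 536888209, 536888210, 536888326, 536888327, 536888328,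 536888329, 536888330, 536888331, 536888332, 536888333, 536888334, 536888454, 536888455, 536888456, 536888458, 536888582, 536903703, 536903704, 536903705, 536903706, 536903708, 536903709, 536903710, 536903711, 536903712, 536903713, 536903827, 536903828, 536903829, 536903830, 536903831, 536903832, 536903833, 536903834, 536903835, 536903836, 536903837, 536903951, 536903952, 536903953, 536903954, 536903955, 536903956, 536903957, 536903958, 536903959, 536903960, 536904075, 536904076, 536904077, 536904078, 536904079, 536904080, 536904081, 536904082, 536904083, 536904084, 536904199, 536904200, 536904201, 536904202, 536904203, 536904204, 536904205, 536904206, 536904207, 536904208, 536904326, 536904327, 536904328, 536904329, 536904330, 536904331, 536904332, 536904454, 536904455, 536904456, 536920075, 536920076, 536920077, 536920078, 536920079, 536920080, 536920081, 536920082, 536920083, 536920198, 536920199, 536920200, 536920201, 536920202, 536920203, 536920204, 536920205, 536920206, 536920207, 536920326, 536920327, 536920328, 536920329, 536920330, 536920331, 536920454, 536920455]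

theorem c1_7 : rowsF (par Q1 Q2 fm3 zr fe1 zr) r1_7 = true := by decide +kernel


end Vale.Agent.P236K.Cert.K53
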