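import Vale.Agent.P236K.Cert.Fast
import Vale.Agent.P236K.K53.N1
import Vale.Agent.P236K.K53.N2

/-!
# P236K / K53 / R1_8 : rows of degree 1 (generated)
-/

noncomputable section

namespace Vale.Agent.P236K.Cert.K53

/-- rows -/
noncomputable def r1_8 : List ℕ := [536870972, 536870973, 536870974, 536870975, 536870976, 536871096, 536871097, 536871098, 536871099, 536871100, 536871220, 536871221, 536871222, 536871223, 536871224, 536871344, 536871345, 536871346, 536871347, 536871348, 536871468, 536871469, 536871470, 536871471, 536871472, 536871592, 536871593, 536871594, 536871595, 536871596, 536871716, 536871717, 536871718, 536871719, 536871720, 536871840, 536871841, 536871842, 536871843, 536871844, 536871964, 536871965, 536871966, 536871967, 536871968, 536872088, 536872089, 536872090, 536872091, 536872092, 536872212, 536872213, 536872214, 536872215, 536872216, 536872336, 536872337, 536872338, 536872339, 536872340, 536872460, 536872461, 536872462, 536872463, 536872464, 536872584, 536872585, 536872586, 536872587, 536872588, 536872710, 536872711, 536872712, 536887343, 536887344, 536887345, 536887346, 536887347, 536887467, 536887468, 536887469, 536887470, 536887471, 536887591, 536887592, 536887593, 536887594, 536887595, 536887715, 536887716, 536887717, 536887718,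 536887719, 536887839, 536887840, 536887841, 536887842, 536887843, 536887963, 536887964, 536887965, 536887966, 536887967, 536888087, 536888088, 536888089, 536888090, 536888091, 536888211, 536888212, 536888213, 536888214, 536888215, 536888335, 536888336, 536888337, 536888338, 536888339, 536888459, 536888460, 536888461, 536888462, 536888463, 536888583, 536888584, 536888585, 536888586, 536888587, 536888710, 536888711, 536903714, 536903715, 536903716, 536903717, 536903718, 536903838, 536903839, 536903840, 536903841, 536903842, 536903961, 536903962, 536903966, 536904085, 536904086, 536904087, 536904088, 536904089, 536904090, 536904209, 536904210, 536904211, 536904212, 536904213, 536904214, 536904333, 536904334, 536904335, 536904336, 536904337, 536904338, 536904457, 536904458, 536904459, 536904460, 536904461, 536904462, 536904582, 536904583, 536904584, 536904585, 536920084, 536920085, 536920086, 536920087, 536920088, 536920208, 536920209, 536920210, 536920211, 536920212, 536920332, 536920333, 536920334, 536920335, 536920336, 536920456, 536920458, 536920459, 536920460, 536920582, 536920583, 536920584, 536936455, 536936456, 536936459, 536936582, 536936583]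

theorem c1_8 : rowsF (par Q1 Q2 fm3 zr fe1 zr) r1_8 = true := by decide +kernel


end Vale.Agent.P236K.Cert.K53
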