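import Vale.Agent.P236K.Cert.Fast
import Vale.Agent.P236K.K53.N1
import Vale.Agent.P236K.K53.N2

/-!
# P236K / K53 / R1_9 : rows of degree 1 (generated)
-/

noncomputable section

namespace Vale.Agent.P236K.Cert.K53

/-- rows -/
noncomputable def r1_9 : List ℕ := [536870977, 536870978, 536870979, 536870980, 536871101, 536871102, 536871103, 536871104, 536871225, 536871226, 536871227, 536871228, 536871349, 536871350, 536871351, 536871352, 536871473, 536871474, 536871475, 536871476, 536871597, 536871598, 536871599, 536871600, 536871721, 536871722, 536871723, 536871724, 536871845, 536871846, 536871847, 536871848, 536871969, 536871970, 536871971, 536871972, 536872093, 536872094, 536872095, 536872096, 536872217, 536872218, 536872219, 536872220, 536872341, 536872342, 536872343, 536872344, 536872465, 536872466, 536872467, 536872468, 536872589, 536872590, 536872591, 536872592, 536872713, 536872714, 536872715, 536872716, 536872838, 536872839, 536872840, 536887348, 536887349, 536887350, 536887351, 536887472, 536887473, 536887474, 536887475, 536887596, 536887597, 536887598, 536887599, 536887720, 536887721, 536887722, 536887723, 536887844, 536887845, 536887846, 536887847, 536887968, 536887969, 536887970, 536887971, 536888092, 536888093, 536888094, 536888095,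 536888216, 536888217, 536888218, 536888219, 536888340, 536888341, 536888342, 536888343, 536888464, 536888465, 536888466, 536888467, 536888588, 536888589, 536888590, 536888591, 536888712, 536888713, 536888714, 536888715, 536888838, 536888839, 536903719, 536903720, 536903721, 536903722, 536903843, 536903844, 536903845, 536903967, 536903968, 536903969, 536904092, 536904093, 536904215, 536904216, 536904217, 536904339, 536904340, 536904341, 536904463, 536904464, 536904465, 536904586, 536904587, 536904588, 536904589, 536904710, 536904711, 536904712, 536904713, 536920089, 536920090, 536920091, 536920092, 536920213, 536920214, 536920215, 536920216, 536920337, 536920338, 536920339, 536920340, 536920461, 536920462, 536920463, 536920464, 536920585, 536920586, 536920587, 536920588, 536920710, 536920711, 536920712, 536936461, 536936462, 536936463, 536936584, 536936585, 536936586, 536936587, 536936710, 536936711]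

theorem c1_9 : rowsF (par Q1 Q2 fm3 zr fe1 zr) r1_9 = true := by decide +kernel


end Vale.Agent.P236K.Cert.K53
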