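import Vale.Agent.P236K.Cert.LevF
import Vale.Agent.P236K.Cert.FastEq
import Vale.Agent.P236K.K53.R1_0
import Vale.Agent.P236K.K53.R1_1
import Vale.Agent.P236K.K53.R1_2
import Vale.Agent.P236K.K53.R1_3
import Vale.Agent.P236K.K53.R1_4
import Vale.Agent.P236K.K53.R1_5
import Vale.Agent.P236K.K53.R1_6
import Vale.Agent.P236K.K53.R1_7
import Vale.Agent.P236K.K53.R1_8
import Vale.Agent.P236K.K53.R1_9
import Vale.Agent.P236K.K53.R1_10
import Vale.Agent.P236K.K53.R1_11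
import Vale.Agent.P236K.K53.R1_12
import Vale.Agent.P236K.K53.R1_13

/-!
# P236K / K53 / S1 : the step from degree 1 (generated)
-/

noncomputable section

namespace Vale.Agent.P236K.Cert.K53

/-- rows -/
noncomputable def rows1 : List ℕ := (mrg (mrg (mrg r1_0 (mrg r1_1 r1_2)) (mrg (mrg r1_3 r1_4) (mrg r1_5 r1_6))) (mrg (mrg r1_7 (mrg r1_8 r1_9)) (mrg (mrg r1_10 r1_11) (mrg r1_12 r1_13))))

theorem lv1 : levF Q1 Q2 ly1.gl rows1 = true := by decide +kernel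

theorem stp1 : Stp Q1 Q2 ly1.gl :=
  Stp.ofF (rows := rows1) (RowsAll.mrg (RowsAll.mrg (RowsAll.mrg (RowsAll.ofF c1_0) (RowsAll.mrg (RowsAll.ofF c1_1) (RowsAll.ofF c1_2))) (RowsAll.mrg (RowsAll.mrg (RowsAll.ofF c1_3) (RowsAll.ofF c1_4)) (RowsAll.mrg (RowsAll.ofF c1_5) (RowsAll.ofF c1_6)))) (RowsAll.mrg (RowsAll.mrg (RowsAll.ofF c1_7) (RowsAll.mrg (RowsAll.ofF c1_8) (RowsAll.ofF c1_9))) (RowsAll.mrg (RowsAll.mrg (RowsAll.ofF c1_10) (RowsAll.ofF c1_11)) (RowsAll.mrg (RowsAll.ofF c1_12) (RowsAll.ofF c1_13))))) lv1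

end Vale.Agent.P236K.Cert.K53
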