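import Vale.Agent.P236K.Cert.LevF
import Vale.Agent.P236K.Cert.FastEq
import Vale.Agent.P236K.K53.R10_0
import Vale.Agent.P236K.K53.R10_1
import Vale.Agent.P236K.K53.R10_2
import Vale.Agent.P236K.K53.R10_3

/-!
# P236K / K53 / S10 : the step from degree 10 (generated)
-/

noncomputable section

namespace Vale.Agent.P236K.Cert.K53

/-- rows -/
noncomputable def rows10 : List ℕ := (mrg (mrg r10_0 r10_1) (mrg r10_2 r10_3))

theorem lv10 : levF Q10 Q11 ly10.gl rows10 = true := by decide +kernel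

theorem stp10 : Stp Q10 Q11 ly10.gl :=
  Stp.ofF (rows := rows10) (RowsAll.mrg (RowsAll.mrg (RowsAll.ofF c10_0) (RowsAll.ofF c10_1)) (RowsAll.mrg (RowsAll.ofF c10_2) (RowsAll.ofF c10_3))) lv10

end Vale.Agent.P236K.Cert.K53
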