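import Vale.Agent.P236K.Cert.LevF
import Vale.Agent.P236K.Cert.FastEq
import Vale.Agent.P236K.K53.R11_0
import Vale.Agent.P236K.K53.R11_1
import Vale.Agent.P236K.K53.R11_2

/-!
# P236K / K53 / S11 : the step from degree 11 (generated)
-/

noncomputable section

namespace Vale.Agent.P236K.Cert.K53

/-- rows -/
noncomputable def rows11 : List ℕ := (mrg r11_0 (mrg r11_1 r11_2))

theorem lv11 : levF Q11 Q12 ly11.gl rows11 = true := by decide +kernel

theorem stp11 : Stp Q11 Q12 ly11.gl :=
  Stp.ofF (rows := rows11) (RowsAll.mrg (RowsAll.ofF c11_0) (RowsAll.mrg (RowsAll.ofF c11_1) (RowsAll.ofF c11_2))) lv11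

end Vale.Agent.P236K.Cert.K53
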