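import Vale.Agent.P236K.Cert.LevF
import Vale.Agent.P236K.Cert.FastEq
import Vale.Agent.P236K.K53.R12_0
import Vale.Agent.P236K.K53.R12_1
import Vale.Agent.P236K.K53.R12_2

/-!
# P236K / K53 / S12 : the step from degree 12 (generated)
-/

noncomputable section

namespace Vale.Agent.P236K.Cert.K53

/-- rows -/
noncomputable def rows12 : List ℕ := (mrg r12_0 (mrg r12_1 r12_2))

theorem lv12 : levF Q12 Q13 ly12.gl rows12 = true := by decide +kernel

theorem stp12 : Stp Q12 Q13 ly12.gl :=
  Stp.ofF (rows := rows12) (RowsAll.mrg (RowsAll.ofF c12_0) (RowsAll.mrg (RowsAll.ofF c12_1) (RowsAll.ofF c12_2))) lv12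

end Vale.Agent.P236K.Cert.K53
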