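import Vale.Agent.P236K.Cert.LevF
import Vale.Agent.P236K.Cert.FastEq
import Vale.Agent.P236K.K53.R13_0
import Vale.Agent.P236K.K53.R13_1

/-!
# P236K / K53 / S13 : the step from degree 13 (generated)
-/

noncomputable section

namespace Vale.Agent.P236K.Cert.K53

/-- rows -/
noncomputable def rows13 : List ℕ := (mrg r13_0 r13_1)

theorem lv13 : levF Q13 Q14 ly13.gl rows13 = true := by decide +kernel

theorem stp13 : Stp Q13 Q14 ly13.gl :=
  Stp.ofF (rows := rows13) (RowsAll.mrg (RowsAll.ofF c13_0) (RowsAll.ofF c13_1)) lv13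

end Vale.Agent.P236K.Cert.K53
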