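import Vale.Agent.P236K.Cert.LevF
import Vale.Agent.P236K.Cert.FastEq
import Vale.Agent.P236K.K53.R15_0

/-!
# P236K / K53 / S15 : the step from degree 15 (generated)
-/

noncomputable section

namespace Vale.Agent.P236K.Cert.K53

/-- rows -/
noncomputable def rows15 : List ℕ := r15_0

theorem lv15 : levF Q15 Q16 ly15.gl rows15 = true := by decide +kernel

theorem stp15 : Stp Q15 Q16 ly15.gl :=
  Stp.ofF (rows := rows15) (RowsAll.ofF c15_0) lv15

end Vale.Agent.P236K.Cert.K53
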