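import Vale.Agent.P236K.Cert.LevF
import Vale.Agent.P236K.Cert.FastEq
import Vale.Agent.P236K.K53.R16_0

/-!
# P236K / K53 / S16 : the step from degree 16 (generated)
-/

noncomputable section

namespace Vale.Agent.P236K.Cert.K53

/-- rows -/
noncomputable def rows16 : List ℕ := r16_0

theorem lv16 : levF Q16 Q17 ly16.gl rows16 = true := by decide +kernel

theorem stp16 : Stp Q16 Q17 ly16.gl :=
  Stp.ofF (rows := rows16) (RowsAll.ofF c16_0) lv16

end Vale.Agent.P236K.Cert.K53
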