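import Vale.Agent.P236K.Cert.LevF
import Vale.Agent.P236K.Cert.FastEq
import Vale.Agent.P236K.K53.R17_0

/-!
# P236K / K53 / S17 : the step from degree 17 (generated)
-/

noncomputable section

namespace Vale.Agent.P236K.Cert.K53

/-- rows -/
noncomputable def rows17 : List ℕ := r17_0

theorem lv17 : levF Q17 Q18 ly17.gl rows17 = true := by decide +kernel

theorem stp17 : Stp Q17 Q18 ly17.gl :=
  Stp.ofF (rows := rows17) (RowsAll.ofF c17_0) lv17

end Vale.Agent.P236K.Cert.K53
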