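import Vale.Agent.P236K.Cert.LevF
import Vale.Agent.P236K.Cert.FastEq
import Vale.Agent.P236K.K53.R18_0

/-!
# P236K / K53 / S18 : the step from degree 18 (generated)
-/

noncomputable section

namespace Vale.Agent.P236K.Cert.K53

/-- rows -/
noncomputable def rows18 : List ℕ := r18_0

theorem lv18 : levF Q18 Q19 ly18.gl rows18 = true := by decide +kernel

theorem stp18 : Stp Q18 Q19 ly18.gl :=
  Stp.ofF (rows := rows18) (RowsAll.ofF c18_0) lv18

end Vale.Agent.P236K.Cert.K53
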