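import Vale.Agent.P236K.Cert.LevF
import Vale.Agent.P236K.Cert.FastEq
import Vale.Agent.P236K.K53.R19_0

/-!
# P236K / K53 / S19 : the step from degree 19 (generated)
-/

noncomputable section

namespace Vale.Agent.P236K.Cert.K53

/-- rows -/
noncomputable def rows19 : List ℕ := r19_0

theorem lv19 : levF Q19 Q20 ly19.gl rows19 = true := by decide +kernel

theorem stp19 : Stp Q19 Q20 ly19.gl :=
  Stp.ofF (rows := rows19) (RowsAll.ofF c19_0) lv19

end Vale.Agent.P236K.Cert.K53
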