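import Vale.Agent.P236K.Cert.Fast
import Vale.Agent.P236K.K53.N2
import Vale.Agent.P236K.K53.N3

/-!
# P236K / K53 / R2_1 : rows of degree 2 (generated)
-/

noncomputable section

namespace Vale.Agent.P236K.Cert.K53

/-- rows -/
noncomputable def r2_1 : List ℕ := [1610612790, 1610612791, 1610612792, 1610612793, 1610612794, 1610612795, 1610612796, 1610612914, 1610612915, 1610612916, 1610612917, 1610612918, 1610612919, 1610612920, 1610613038, 1610613039, 1610613040, 1610613041, 1610613042, 1610613043, 1610613044, 1610613162, 1610613163, 1610613164, 1610613165, 1610613166, 1610613167, 1610613168, 1610613286, 1610613287, 1610613288, 1610613289, 1610613290, 1610613291, 1610613292, 1610613410, 1610613411, 1610613412, 1610613413, 1610613414, 1610613415, 1610613416, 1610613534, 1610613535, 1610613536, 1610613537, 1610613538, 1610613539, 1610613540, 1610613658, 1610613659, 1610613660, 1610613661, 1610613662, 1610613663, 1610613664, 1610613782, 1610613783, 1610613784, 1610613785, 1610613786, 1610613787, 1610613788, 1610613906, 1610613907, 1610613908, 1610613909, 1610613910, 1610613911, 1610613912, 1610614030, 1610614031, 1610614032, 1610614033, 1610614034, 1610614035, 1610614036,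 1610614154, 1610614155, 1610614156, 1610614157, 1610614158, 1610614159, 1610614160, 1610614278, 1610614279, 1610614280, 1610614281, 1610614282, 1610614283, 1610614284, 1610614402, 1610614403, 1610614404, 1610614405, 1610614406, 1610614407, 1610614408, 1610614529, 1610614530, 1610614531, 1610614532, 1610629161, 1610629162, 1610629163, 1610629164, 1610629165, 1610629166, 1610629167, 1610629285, 1610629286, 1610629287, 1610629288, 1610629289, 1610629290, 1610629291, 1610629409, 1610629410, 1610629411, 1610629412, 1610629413, 1610629414, 1610629415, 1610629533, 1610629534, 1610629535, 1610629536, 1610629537, 1610629538, 1610629539, 1610629657, 1610629658, 1610629659, 1610629660, 1610629661, 1610629662, 1610629663, 1610629781, 1610629782, 1610629783, 1610629784, 1610629785, 1610629786, 1610629787, 1610629905, 1610629906, 1610629907, 1610629908, 1610629909, 1610629910, 1610629911, 1610630029, 1610630030, 1610630031, 1610630032, 1610630033, 1610630034, 1610630035, 1610630153, 1610630154, 1610630155, 1610630156, 1610630157, 1610630158, 1610630159, 1610630278, 1610630279, 1610630280, 1610630281, 1610630282, 1610630283, 1610630406, 1610630407, 1610645532, 1610645533, 1610645534,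 1610645535, 1610645536, 1610645537, 1610645538, 1610645656, 1610645657, 1610645658, 1610645659, 1610645660, 1610645661, 1610645662, 1610645780, 1610645781, 1610645782, 1610645783, 1610645784, 1610645785, 1610645786, 1610645903, 1610645904, 1610645905, 1610645906, 1610645907, 1610645908, 1610645909, 1610645910, 1610646027, 1610646028, 1610646029, 1610646030, 1610646031, 1610646032, 1610646033, 1610646034, 1610646151, 1610646152, 1610646153, 1610646154, 1610646155, 1610646156, 1610646157, 1610646158, 1610646278, 1610646279, 1610646280, 1610646281, 1610646282, 1610646406, 1610661902, 1610661903, 1610661904, 1610661905, 1610661906, 1610661907, 1610661908, 1610662026, 1610662027, 1610662028, 1610662029, 1610662030, 1610662031, 1610662032, 1610662150, 1610662151, 1610662152, 1610662153, 1610662154, 1610662155, 1610662156, 1610662274, 1610662275, 1610662276, 1610662277, 1610662278, 1610662279, 1610662280, 1610662401, 1610662402, 1610662403, 1610662404]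

theorem c2_1 : rowsF (par Q2 Q3 fm3 zr fe1 zr) r2_1 = true := by decide +kernel


end Vale.Agent.P236K.Cert.K53
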