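import Vale.Agent.P236K.Cert.Fast
import Vale.Agent.P236K.K53.N2
import Vale.Agent.P236K.K53.N3

/-!
# P236K / K53 / R2_12 : rows of degree 2 (generated)
-/

noncomputable section

namespace Vale.Agent.P236K.Cert.K53

/-- rows -/
noncomputable def r2_12 : List ℕ := [2147483705, 2147483706, 2147483707, 2147483708, 2147483709, 2147483829, 2147483830, 2147483831, 2147483832, 2147483833, 2147483953, 2147483954, 2147483955, 2147483956, 2147483957, 2147484077, 2147484078, 2147484079, 2147484080, 2147484081, 2147484201, 2147484202, 2147484203, 2147484204, 2147484205, 2147484325, 2147484326, 2147484327, 2147484328, 2147484329, 2147484449, 2147484450, 2147484451, 2147484452, 2147484453, 2147484573, 2147484574, 2147484575, 2147484576, 2147484577, 2147484697, 2147484698, 2147484699, 2147484700, 2147484701, 2147484821, 2147484822, 2147484823, 2147484824, 2147484825, 2147484945, 2147484946, 2147484947, 2147484948, 2147484949, 2147485069, 2147485070, 2147485071, 2147485072, 2147485073, 2147485195, 2147485196, 2147485197, 2147485317, 2147485318, 2147485319, 2147485320, 2147485443, 2147485444, 2147485445, 2147500076, 2147500077, 2147500078, 2147500079, 2147500080, 2147500200,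 2147500201, 2147500202, 2147500203, 2147500204, 2147500324, 2147500325, 2147500326, 2147500327, 2147500328, 2147500448, 2147500449, 2147500450, 2147500451, 2147500452, 2147500572, 2147500573, 2147500574, 2147500575, 2147500576, 2147500696, 2147500697, 2147500698, 2147500699, 2147500700, 2147500819, 2147500820, 2147500821, 2147500822, 2147500823, 2147500824, 2147500943, 2147500944, 2147500945, 2147500946, 2147500947, 2147501067, 2147501068, 2147501069, 2147501070, 2147501071, 2147501191, 2147501192, 2147501195, 2147501315, 2147501316, 2147501317, 2147501318, 2147501319, 2147516446, 2147516447, 2147516448, 2147516449, 2147516450, 2147516570, 2147516571, 2147516572, 2147516573, 2147516574, 2147516694, 2147516695, 2147516696, 2147516697, 2147516698, 2147516819, 2147516820, 2147516821, 2147516822, 2147516942, 2147516943, 2147516944, 2147516945, 2147516946, 2147517066, 2147517067, 2147517068, 2147517069, 2147517070, 2147517190, 2147517191, 2147517192, 2147517315, 2147517316, 2147517317, 2147517318, 2147532817, 2147532819, 2147532820, 2147532821, 2147532941, 2147532942, 2147532943, 2147532944, 2147532945, 2147533065, 2147533066, 2147533067, 2147533068, 2147533069,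 2147533189, 2147533190, 2147533191, 2147533192, 2147533315, 2147533316, 2147533317]

theorem c2_12 : rowsF (par Q2 Q3 fm3 zr fe1 zr) r2_12 = true := by decide +kernel


end Vale.Agent.P236K.Cert.K53
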