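import Vale.Agent.P236K.Cert.Fast
import Vale.Agent.P236K.K53.N2
import Vale.Agent.P236K.K53.N3

/-!
# P236K / K53 / R2_13 : rows of degree 2 (generated)
-/

noncomputable section

namespace Vale.Agent.P236K.Cert.K53

/-- rows -/
noncomputable def r2_13 : List ℕ := [2147483710, 2147483711, 2147483712, 2147483834, 2147483835, 2147483836, 2147483958, 2147483959, 2147483960, 2147484082, 2147484083, 2147484084, 2147484206, 2147484207, 2147484208, 2147484330, 2147484331, 2147484332, 2147484454, 2147484455, 2147484456, 2147484578, 2147484579, 2147484580, 2147484702, 2147484703, 2147484704, 2147484826, 2147484827, 2147484828, 2147484950, 2147484951, 2147484952, 2147485074, 2147485075, 2147485076, 2147485198, 2147485199, 2147485200, 2147485323, 2147485324, 2147485446, 2147485447, 2147485448, 2147485571, 2147485572, 2147500081, 2147500082, 2147500083, 2147500205, 2147500206, 2147500207, 2147500329, 2147500330, 2147500331, 2147500453, 2147500454, 2147500455, 2147500577, 2147500578, 2147500579, 2147500701, 2147500702, 2147500703, 2147500825, 2147500826, 2147500827, 2147500948, 2147500949, 2147500950, 2147500951, 2147501072, 2147501073, 2147501074, 2147501075,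 2147501196, 2147501197, 2147501198, 2147501199, 2147501320, 2147501323, 2147501444, 2147501445, 2147501446, 2147516451, 2147516452, 2147516453, 2147516454, 2147516575, 2147516576, 2147516577, 2147516578, 2147516699, 2147516700, 2147516701, 2147516702, 2147516823, 2147516824, 2147516825, 2147516826, 2147516947, 2147516948, 2147516949, 2147517071, 2147517072, 2147517073, 2147517195, 2147517196, 2147517197, 2147517319, 2147517320, 2147517444, 2147517445, 2147532822, 2147532823, 2147532824, 2147532946, 2147532947, 2147532948, 2147533070, 2147533071, 2147533072, 2147533195, 2147533196, 2147533318, 2147533319, 2147533320, 2147533443, 2147533444]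

theorem c2_13 : rowsF (par Q2 Q3 fm3 zr fe1 zr) r2_13 = true := by decide +kernel


end Vale.Agent.P236K.Cert.K53
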