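import Vale.Agent.P236K.Cert.Fast
import Vale.Agent.P236K.K53.N2
import Vale.Agent.P236K.K53.N3

/-!
# P236K / K53 / R2_14 : rows of degree 2 (generated)
-/

noncomputable section

namespace Vale.Agent.P236K.Cert.K53

/-- rows -/
noncomputable def r2_14 : List ℕ := [2147483713, 2147483714, 2147483715, 2147483837, 2147483838, 2147483839, 2147483961, 2147483962, 2147483963, 2147484085, 2147484086, 2147484087, 2147484209, 2147484210, 2147484211, 2147484333, 2147484334, 2147484335, 2147484457, 2147484458, 2147484459, 2147484581, 2147484582, 2147484583, 2147484705, 2147484706, 2147484707, 2147484829, 2147484830, 2147484831, 2147484953, 2147484954, 2147484955, 2147485077, 2147485078, 2147485079, 2147485201, 2147485203, 2147485325, 2147485326, 2147485327, 2147485449, 2147485450, 2147485451, 2147485573, 2147485574, 2147485575, 2147485699, 2147500084, 2147500085, 2147500086, 2147500208, 2147500209, 2147500210, 2147500332, 2147500333, 2147500334, 2147500456, 2147500457, 2147500458, 2147500580, 2147500581, 2147500582, 2147500704, 2147500705, 2147500706, 2147500828, 2147500829, 2147500830, 2147500952, 2147500953, 2147500954, 2147501076, 2147501077, 2147501078,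 2147501200, 2147501201, 2147501324, 2147501325, 2147501449, 2147516455, 2147516456, 2147516457, 2147516579, 2147516580, 2147516581, 2147516703, 2147516704, 2147516705, 2147516827, 2147516828, 2147516829, 2147516950, 2147516951, 2147516952, 2147516953, 2147517074, 2147517075, 2147517076, 2147517198, 2147517199, 2147517200, 2147517323, 2147517324, 2147517446, 2147532825, 2147532826, 2147532827, 2147532949, 2147532950, 2147532951, 2147533073, 2147533074, 2147533075, 2147533197, 2147533198, 2147533199, 2147533323, 2147533445, 2147533446, 2147533447, 2147533571]

theorem c2_14 : rowsF (par Q2 Q3 fm3 zr fe1 zr) r2_14 = true := by decide +kernel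


end Vale.Agent.P236K.Cert.K53
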