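import Vale.Agent.P236K.Cert.Fast
import Vale.Agent.P236K.K53.N2
import Vale.Agent.P236K.K53.N3

/-!
# P236K / K53 / R2_15 : rows of degree 2 (generated)
-/

noncomputable section

namespace Vale.Agent.P236K.Cert.K53

/-- rows -/
noncomputable def r2_15 : List ℕ := [2147483716, 2147483717, 2147483718, 2147483719, 2147483720, 2147483721, 2147483722, 2147483723, 2147483724, 2147483840, 2147483841, 2147483842, 2147483843, 2147483844, 2147483845, 2147483846, 2147483847, 2147483848, 2147483964, 2147483965, 2147483966, 2147483967, 2147483968, 2147483969, 2147483970, 2147483971, 2147483972, 2147484088, 2147484089, 2147484090, 2147484091, 2147484092, 2147484093, 2147484094, 2147484095, 2147484096, 2147484212, 2147484213, 2147484214, 2147484215, 2147484216, 2147484217, 2147484218, 2147484219, 2147484220, 2147484336, 2147484337, 2147484338, 2147484339, 2147484340, 2147484341, 2147484342, 2147484343, 2147484344, 2147484460, 2147484461, 2147484462, 2147484463, 2147484464, 2147484465, 2147484466, 2147484467, 2147484468, 2147484584, 2147484585, 2147484586, 2147484587, 2147484588, 2147484589, 2147484590, 2147484591, 2147484592, 2147484708, 2147484709, 2147484710, 2147484711, 2147484712,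 2147484713, 2147484714, 2147484715, 2147484832, 2147484833, 2147484834, 2147484835, 2147484836, 2147484837, 2147484838, 2147484839, 2147484840, 2147484956, 2147484957, 2147484958, 2147484959, 2147484960, 2147484961, 2147484962, 2147484963, 2147484964, 2147485080, 2147485081, 2147485082, 2147485083, 2147485084, 2147485085, 2147485086, 2147485087, 2147485088, 2147485204, 2147485205, 2147485206, 2147485207, 2147485208, 2147485209, 2147485210, 2147485211, 2147485328, 2147485329, 2147485330, 2147485331, 2147485332, 2147485333, 2147485334, 2147485335, 2147485452, 2147485453, 2147485454, 2147485455, 2147485456, 2147485457, 2147485458, 2147485459, 2147485576, 2147485579, 2147485580, 2147485581, 2147485582, 2147485583, 2147485700, 2147485701, 2147485702, 2147485703, 2147485704, 2147485707, 2147485827, 2147485828, 2147485829, 2147485830, 2147485831, 2147485955, 2147500087, 2147500088, 2147500089, 2147500090, 2147500211, 2147500212, 2147500213, 2147500214, 2147500215, 2147500335, 2147500336, 2147500337, 2147500459, 2147500460, 2147500461, 2147500462, 2147500583, 2147500584, 2147500585, 2147500707, 2147500708, 2147500709, 2147500955, 2147516458, 2147516459, 2147516460, 2147516461,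 2147516582, 2147516583, 2147516584, 2147516708, 2147516830, 2147516954, 2147517077, 2147517201, 2147517202, 2147517325, 2147517449, 2147532828, 2147532829, 2147532830, 2147532831, 2147532832, 2147532833, 2147532834, 2147532835, 2147532836, 2147532952, 2147532953, 2147532954, 2147532955, 2147532956, 2147532957, 2147532958, 2147532959, 2147532960, 2147533076, 2147533077, 2147533078, 2147533079, 2147533080, 2147533081, 2147533082, 2147533083, 2147533200, 2147533201, 2147533203, 2147533204, 2147533205, 2147533206, 2147533207, 2147533208, 2147533324, 2147533325, 2147533326, 2147533327, 2147533328, 2147533329, 2147533330, 2147533331, 2147533332, 2147533448, 2147533449, 2147533450, 2147533451, 2147533452, 2147533453, 2147533455, 2147533456, 2147533572, 2147533573, 2147533574, 2147533575, 2147533576, 2147533579, 2147533580]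

theorem c2_15 : rowsF (par Q2 Q3 fm3 zr fe1 zr) r2_15 = true := by decide +kernel


end Vale.Agent.P236K.Cert.K53
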