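import Vale.Agent.P236K.Cert.Fast
import Vale.Agent.P236K.K53.N2
import Vale.Agent.P236K.K53.N3

/-!
# P236K / K53 / R2_17 : rows of degree 2 (generated)
-/

noncomputable section

namespace Vale.Agent.P236K.Cert.K53

/-- rows -/
noncomputable def r2_17 : List ℕ := [2415919155, 2415919156, 2415919157, 2415919158, 2415919159, 2415919160, 2415919161, 2415919162, 2415919279, 2415919280, 2415919281, 2415919282, 2415919283, 2415919284, 2415919285, 2415919286, 2415919403, 2415919404, 2415919405, 2415919406, 2415919407, 2415919408, 2415919409, 2415919410, 2415919527, 2415919528, 2415919529, 2415919530, 2415919531, 2415919532, 2415919533, 2415919534, 2415919651, 2415919652, 2415919653, 2415919654, 2415919655, 2415919656, 2415919657, 2415919658, 2415919775, 2415919776, 2415919777, 2415919778, 2415919779, 2415919780, 2415919781, 2415919782, 2415919899, 2415919900, 2415919901, 2415919902, 2415919903, 2415919904, 2415919905, 2415919906, 2415920023, 2415920024, 2415920025, 2415920026, 2415920027, 2415920028, 2415920029, 2415920030, 2415920147, 2415920148, 2415920149, 2415920150, 2415920151, 2415920152, 2415920153, 2415920154, 2415920271, 2415920272, 2415920273, 2415920274, 2415920275,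 2415920276, 2415920277, 2415920278, 2415920395, 2415920396, 2415920397, 2415920398, 2415920399, 2415920400, 2415920401, 2415920402, 2415920519, 2415920520, 2415920521, 2415920522, 2415920523, 2415920524, 2415920525, 2415920526, 2415920644, 2415920645, 2415920646, 2415920647, 2415920648, 2415920649, 2415920650, 2415920771, 2415920772, 2415920773, 2415920774, 2415935526, 2415935527, 2415935528, 2415935529, 2415935530, 2415935531, 2415935532, 2415935533, 2415935650, 2415935651, 2415935652, 2415935653, 2415935654, 2415935655, 2415935656, 2415935657, 2415935774, 2415935775, 2415935776, 2415935777, 2415935778, 2415935779, 2415935780, 2415935781, 2415935898, 2415935899, 2415935900, 2415935901, 2415935902, 2415935903, 2415935904, 2415935905, 2415936022, 2415936023, 2415936024, 2415936025, 2415936026, 2415936027, 2415936028, 2415936029, 2415936146, 2415936147, 2415936148, 2415936149, 2415936150, 2415936151, 2415936152, 2415936153, 2415936270, 2415936271, 2415936272, 2415936273, 2415936274, 2415936275, 2415936276, 2415936277, 2415936394, 2415936395, 2415936396, 2415936397, 2415936398, 2415936399, 2415936400, 2415936401, 2415936518, 2415936519, 2415936520, 2415936521, 2415936522,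 2415936523, 2415936524, 2415936644, 2415936645, 2415936646, 2415936647, 2415936648, 2415936771, 2415936772, 2415951897, 2415951898, 2415951899, 2415951900, 2415951901, 2415951902, 2415951903, 2415952021, 2415952022, 2415952023, 2415952024, 2415952025, 2415952026, 2415952027, 2415952145, 2415952146, 2415952147, 2415952148, 2415952149, 2415952150, 2415952151, 2415952269, 2415952270, 2415952271, 2415952272, 2415952273, 2415952274, 2415952275, 2415952393, 2415952394, 2415952395, 2415952396, 2415952397, 2415952398, 2415952399, 2415952516, 2415952517, 2415952518, 2415952519, 2415952520, 2415952522, 2415952523, 2415952644, 2415952645, 2415952646, 2415952647, 2415952771, 2415968267, 2415968268, 2415968269, 2415968270, 2415968271, 2415968272, 2415968273, 2415968274, 2415968391, 2415968392, 2415968393, 2415968394, 2415968395, 2415968396, 2415968397, 2415968398, 2415968515, 2415968516, 2415968517, 2415968518, 2415968519, 2415968520, 2415968521, 2415968522, 2415968644, 2415968645, 2415968646]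

theorem c2_17 : rowsF (par Q2 Q3 fm3 zr fe1 zr) r2_17 = true := by decide +kernel


end Vale.Agent.P236K.Cert.K53
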