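import Vale.Agent.P236K.Cert.Fast
import Vale.Agent.P236K.K53.N2
import Vale.Agent.P236K.K53.N3

/-!
# P236K / K53 / R2_18 : rows of degree 2 (generated)
-/

noncomputable section

namespace Vale.Agent.P236K.Cert.K53

/-- rows -/
noncomputable def r2_18 : List ℕ := [2415919163, 2415919164, 2415919165, 2415919166, 2415919287, 2415919288, 2415919289, 2415919290, 2415919411, 2415919412, 2415919413, 2415919414, 2415919535, 2415919536, 2415919537, 2415919538, 2415919659, 2415919660, 2415919661, 2415919662, 2415919783, 2415919784, 2415919785, 2415919786, 2415919907, 2415919908, 2415919909, 2415919910, 2415920031, 2415920032, 2415920033, 2415920034, 2415920155, 2415920156, 2415920157, 2415920158, 2415920279, 2415920280, 2415920281, 2415920282, 2415920403, 2415920404, 2415920405, 2415920406, 2415920527, 2415920528, 2415920529, 2415920530, 2415920651, 2415920652, 2415920653, 2415920654, 2415920775, 2415920776, 2415920777, 2415920778, 2415920899, 2415920900, 2415920901, 2415920902, 2415935534, 2415935535, 2415935536, 2415935537, 2415935658, 2415935659, 2415935660, 2415935661, 2415935782, 2415935783, 2415935784, 2415935785, 2415935906, 2415935907, 2415935908, 2415935909,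 2415936030, 2415936031, 2415936032, 2415936033, 2415936154, 2415936155, 2415936156, 2415936157, 2415936278, 2415936279, 2415936280, 2415936281, 2415936402, 2415936403, 2415936404, 2415936405, 2415936525, 2415936526, 2415936527, 2415936528, 2415936529, 2415936650, 2415936651, 2415936652, 2415936653, 2415936773, 2415936774, 2415936775, 2415936776, 2415936777, 2415936899, 2415936900, 2415936901, 2415951904, 2415951905, 2415951906, 2415951907, 2415951908, 2415952028, 2415952029, 2415952030, 2415952031, 2415952032, 2415952152, 2415952153, 2415952154, 2415952155, 2415952156, 2415952276, 2415952277, 2415952278, 2415952279, 2415952280, 2415952400, 2415952401, 2415952402, 2415952403, 2415952404, 2415952524, 2415952525, 2415952526, 2415952527, 2415952528, 2415952648, 2415952650, 2415952651, 2415952772, 2415952773, 2415952774, 2415952775, 2415952899, 2415968275, 2415968276, 2415968277, 2415968278, 2415968399, 2415968400, 2415968401, 2415968402, 2415968523, 2415968524, 2415968525, 2415968526, 2415968647, 2415968648, 2415968649, 2415968650, 2415968771, 2415968772, 2415968773, 2415968774]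

theorem c2_18 : rowsF (par Q2 Q3 fm3 zr fe1 zr) r2_18 = true := by decide +kernel


end Vale.Agent.P236K.Cert.K53
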