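import Vale.Agent.P236K.Cert.Fast
import Vale.Agent.P236K.K53.N2
import Vale.Agent.P236K.K53.N3

/-!
# P236K / K53 / R2_19 : rows of degree 2 (generated)
-/

noncomputable section

namespace Vale.Agent.P236K.Cert.K53

/-- rows -/
noncomputable def r2_19 : List ℕ := [2415919167, 2415919168, 2415919169, 2415919170, 2415919291, 2415919292, 2415919293, 2415919294, 2415919415, 2415919416, 2415919417, 2415919418, 2415919539, 2415919540, 2415919541, 2415919542, 2415919663, 2415919664, 2415919665, 2415919666, 2415919787, 2415919788, 2415919789, 2415919790, 2415919911, 2415919912, 2415919913, 2415919914, 2415920035, 2415920036, 2415920037, 2415920038, 2415920159, 2415920160, 2415920161, 2415920162, 2415920283, 2415920284, 2415920285, 2415920286, 2415920407, 2415920408, 2415920409, 2415920410, 2415920531, 2415920532, 2415920533, 2415920534, 2415920655, 2415920656, 2415920657, 2415920658, 2415920779, 2415920780, 2415920781, 2415920782, 2415920903, 2415920904, 2415920906, 2415921028, 2415921029, 2415921030, 2415935538, 2415935539, 2415935540, 2415935541, 2415935662, 2415935663, 2415935664, 2415935665, 2415935786, 2415935787, 2415935788, 2415935789, 2415935910, 2415935911,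 2415935912, 2415935913, 2415936034, 2415936035, 2415936036, 2415936037, 2415936158, 2415936159, 2415936160, 2415936161, 2415936282, 2415936283, 2415936284, 2415936406, 2415936407, 2415936408, 2415936530, 2415936531, 2415936654, 2415936655, 2415936778, 2415936902, 2415951909, 2415951910, 2415951911, 2415952033, 2415952034, 2415952035, 2415952157, 2415952158, 2415952159, 2415952281, 2415952282, 2415952283, 2415952405, 2415952406, 2415952407, 2415952529, 2415952530, 2415952531, 2415952652, 2415952653, 2415952654, 2415952776, 2415952777, 2415952778, 2415952900, 2415952901, 2415952902, 2415968279, 2415968280, 2415968281, 2415968282, 2415968403, 2415968404, 2415968405, 2415968406, 2415968527, 2415968528, 2415968529, 2415968530, 2415968651, 2415968652, 2415968653, 2415968654, 2415968775, 2415968776, 2415968777, 2415968778, 2415968899, 2415968900, 2415968901, 2415968902]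

theorem c2_19 : rowsF (par Q2 Q3 fm3 zr fe1 zr) r2_19 = true := by decide +kernel


end Vale.Agent.P236K.Cert.K53
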