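import Vale.Agent.P236K.Cert.Fast
import Vale.Agent.P236K.K53.N2
import Vale.Agent.P236K.K53.N3

/-!
# P236K / K53 / R2_2 : rows of degree 2 (generated)
-/

noncomputable section

namespace Vale.Agent.P236K.Cert.K53

/-- rows -/
noncomputable def r2_2 : List ℕ := [1610612797, 1610612798, 1610612799, 1610612800, 1610612801, 1610612921, 1610612922, 1610612923, 1610612924, 1610612925, 1610613045, 1610613046, 1610613047, 1610613048, 1610613049, 1610613169, 1610613170, 1610613171, 1610613172, 1610613173, 1610613293, 1610613294, 1610613295, 1610613296, 1610613297, 1610613417, 1610613418, 1610613419, 1610613420, 1610613421, 1610613541, 1610613542, 1610613543, 1610613544, 1610613545, 1610613665, 1610613666, 1610613667, 1610613668, 1610613669, 1610613789, 1610613790, 1610613791, 1610613792, 1610613793, 1610613913, 1610613914, 1610613915, 1610613916, 1610613917, 1610614037, 1610614038, 1610614039, 1610614040, 1610614041, 1610614161, 1610614162, 1610614163, 1610614164, 1610614165, 1610614285, 1610614286, 1610614287, 1610614288, 1610614289, 1610614409, 1610614410, 1610614411, 1610614412, 1610614413, 1610614533, 1610614534, 1610614535, 1610614536, 1610614537, 1610614657,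 1610614658, 1610614659, 1610614660, 1610614661, 1610614785, 1610629168, 1610629169, 1610629170, 1610629171, 1610629172, 1610629292, 1610629293, 1610629294, 1610629295, 1610629296, 1610629416, 1610629417, 1610629418, 1610629419, 1610629420, 1610629540, 1610629541, 1610629542, 1610629543, 1610629544, 1610629664, 1610629665, 1610629666, 1610629667, 1610629668, 1610629788, 1610629789, 1610629790, 1610629791, 1610629792, 1610629912, 1610629913, 1610629914, 1610629915, 1610629916, 1610630036, 1610630037, 1610630038, 1610630039, 1610630040, 1610630160, 1610630161, 1610630162, 1610630163, 1610630164, 1610630284, 1610630285, 1610630286, 1610630287, 1610630288, 1610630408, 1610630409, 1610630410, 1610630411, 1610630412, 1610630535, 1610630536, 1610645539, 1610645540, 1610645541, 1610645542, 1610645543, 1610645663, 1610645664, 1610645665, 1610645666, 1610645667, 1610645787, 1610645788, 1610645789, 1610645790, 1610645791, 1610645911, 1610645912, 1610645913, 1610645914, 1610645915, 1610646035, 1610646036, 1610646037, 1610646038, 1610646039, 1610646159, 1610646160, 1610646161, 1610646162, 1610646163, 1610646283, 1610646284, 1610646285, 1610646286, 1610646287, 1610646407,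 1610646408, 1610646409, 1610646410, 1610646411, 1610661909, 1610661910, 1610661911, 1610661912, 1610661913, 1610662033, 1610662034, 1610662035, 1610662036, 1610662037, 1610662157, 1610662158, 1610662159, 1610662160, 1610662161, 1610662281, 1610662282, 1610662283, 1610662284, 1610662285, 1610662405, 1610662406, 1610662407, 1610662408, 1610662409, 1610662529, 1610662530, 1610662531, 1610662532, 1610662533, 1610662657]

theorem c2_2 : rowsF (par Q2 Q3 fm3 zr fe1 zr) r2_2 = true := by decide +kernel


end Vale.Agent.P236K.Cert.K53
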