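import Vale.Agent.P236K.Cert.Fast
import Vale.Agent.P236K.K53.N2
import Vale.Agent.P236K.K53.N3

/-!
# P236K / K53 / R2_21 : rows of degree 2 (generated)
-/

noncomputable section

namespace Vale.Agent.P236K.Cert.K53

/-- rows -/
noncomputable def r2_21 : List ℕ := [2684354612, 2684354613, 2684354614, 2684354615, 2684354616, 2684354617, 2684354618, 2684354619, 2684354620, 2684354621, 2684354622, 2684354623, 2684354736, 2684354737, 2684354738, 2684354739, 2684354740, 2684354741, 2684354742, 2684354743, 2684354744, 2684354745, 2684354746, 2684354747, 2684354860, 2684354861, 2684354862, 2684354863, 2684354864, 2684354865, 2684354866, 2684354867, 2684354868, 2684354869, 2684354870, 2684354871, 2684354984, 2684354985, 2684354986, 2684354987, 2684354988, 2684354989, 2684354990, 2684354991, 2684354992, 2684354993, 2684354994, 2684354995, 2684355108, 2684355109, 2684355110, 2684355111, 2684355112, 2684355113, 2684355114, 2684355115, 2684355116, 2684355117, 2684355118, 2684355119, 2684355232, 2684355233, 2684355234, 2684355235, 2684355236, 2684355237, 2684355238, 2684355239, 2684355240, 2684355241, 2684355242, 2684355243, 2684355357, 2684355360, 2684355363, 2684355364,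 2684355365, 2684355366, 2684355367, 2684355480, 2684355481, 2684355482, 2684355485, 2684355488, 2684355490, 2684355491, 2684355604, 2684355605, 2684355606, 2684355607, 2684355608, 2684355609, 2684355610, 2684355613, 2684355730, 2684355731, 2684355732, 2684355733, 2684355734, 2684355735, 2684355736, 2684355737, 2684355738, 2684355858, 2684355859, 2684355860, 2684355861, 2684355862, 2684355863, 2684355986, 2684355987, 2684370983, 2684370984, 2684370985, 2684370986, 2684370987, 2684370988, 2684370989, 2684370990, 2684370991, 2684370992, 2684370993, 2684370994, 2684371107, 2684371108, 2684371109, 2684371110, 2684371111, 2684371112, 2684371113, 2684371114, 2684371115, 2684371116, 2684371117, 2684371118, 2684371232, 2684371233, 2684371234, 2684371235, 2684371236, 2684371237, 2684371238, 2684371239, 2684371240, 2684371241, 2684371242, 2684371357, 2684371360, 2684371363, 2684371364, 2684371365, 2684371366, 2684371479, 2684371480, 2684371481, 2684371482, 2684371485, 2684371488, 2684371490, 2684371603, 2684371604, 2684371605, 2684371606, 2684371607, 2684371608, 2684371609, 2684371610, 2684371613, 2684371730, 2684371731, 2684371732, 2684371733, 2684371734, 2684371735, 2684371736,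 2684371737, 2684371738, 2684371858, 2684371859, 2684371860, 2684371861, 2684371862, 2684387354, 2684387357, 2684387360, 2684387363, 2684387364, 2684387477, 2684387478, 2684387479, 2684387480, 2684387481, 2684387482, 2684387485, 2684387488, 2684387602, 2684387603, 2684387604, 2684387605, 2684387606, 2684387607, 2684387608, 2684387609, 2684387610, 2684387730, 2684387731, 2684387732, 2684387733, 2684387734, 2684387735, 2684387736, 2684387858, 2684387859, 2684387860, 2684403730, 2684403731, 2684403732, 2684403733, 2684403734, 2684403735, 2684403858, 2684403859]

theorem c2_21 : rowsF (par Q2 Q3 fm3 zr fe1 zr) r2_21 = true := by decide +kernel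


end Vale.Agent.P236K.Cert.K53
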