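import Vale.Agent.P236K.Cert.Fast
import Vale.Agent.P236K.K53.N2
import Vale.Agent.P236K.K53.N3

/-!
# P236K / K53 / R2_22 : rows of degree 2 (generated)
-/

noncomputable section

namespace Vale.Agent.P236K.Cert.K53

/-- rows -/
noncomputable def r2_22 : List ℕ := [2684354624, 2684354625, 2684354626, 2684354627, 2684354628, 2684354629, 2684354748, 2684354749, 2684354750, 2684354751, 2684354752, 2684354753, 2684354872, 2684354873, 2684354874, 2684354875, 2684354876, 2684354877, 2684354996, 2684354997, 2684354998, 2684354999, 2684355000, 2684355001, 2684355120, 2684355121, 2684355122, 2684355123, 2684355124, 2684355125, 2684355244, 2684355245, 2684355246, 2684355247, 2684355248, 2684355249, 2684355368, 2684355369, 2684355370, 2684355371, 2684355372, 2684355373, 2684355492, 2684355493, 2684355494, 2684355495, 2684355496, 2684355497, 2684355616, 2684355617, 2684355618, 2684355619, 2684355620, 2684355741, 2684355744, 2684355864, 2684355865, 2684355866, 2684355988, 2684355989, 2684355990, 2684355991, 2684355992, 2684356114, 2684356115, 2684356116, 2684370995, 2684370996, 2684370997, 2684370998, 2684370999, 2684371119, 2684371120, 2684371121, 2684371122,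 2684371123, 2684371243, 2684371244, 2684371245, 2684371246, 2684371247, 2684371367, 2684371368, 2684371369, 2684371370, 2684371371, 2684371491, 2684371492, 2684371493, 2684371494, 2684371495, 2684371616, 2684371617, 2684371618, 2684371741, 2684371863, 2684371864, 2684371865, 2684371986, 2684371987, 2684371988, 2684387365, 2684387366, 2684387367, 2684387368, 2684387369, 2684387370, 2684387490, 2684387491, 2684387493, 2684387494, 2684387613, 2684387616, 2684387617, 2684387618, 2684387737, 2684387738, 2684387741, 2684387861, 2684387862, 2684387863, 2684387864, 2684387865, 2684387986, 2684403736, 2684403737, 2684403738, 2684403741, 2684403860, 2684403861, 2684403862, 2684403863, 2684403864, 2684403865, 2684403986, 2684403987, 2684403988, 2684403989]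

theorem c2_22 : rowsF (par Q2 Q3 fm3 zr fe1 zr) r2_22 = true := by decide +kernel


end Vale.Agent.P236K.Cert.K53
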