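import Vale.Agent.P236K.Cert.Fast
import Vale.Agent.P236K.K53.N2
import Vale.Agent.P236K.K53.N3

/-!
# P236K / K53 / R2_28 : rows of degree 2 (generated)
-/

noncomputable section

namespace Vale.Agent.P236K.Cert.K53

/-- rows -/
noncomputable def r2_28 : List ℕ := [3489660981, 3489660982, 3489660983, 3489660984, 3489660985, 3489660986, 3489660987, 3489660988, 3489661105, 3489661106, 3489661107, 3489661108, 3489661109, 3489661110, 3489661111, 3489661229, 3489661230, 3489661231, 3489661232, 3489661233, 3489661234, 3489661235, 3489661353, 3489661354, 3489661355, 3489661356, 3489661357, 3489661358, 3489661359, 3489661360, 3489661477, 3489661478, 3489661479, 3489661480, 3489661481, 3489661482, 3489661483, 3489661601, 3489661602, 3489661603, 3489661604, 3489661605, 3489661606, 3489661607, 3489661725, 3489661726, 3489661727, 3489661728, 3489661729, 3489661730, 3489661731, 3489661732, 3489661849, 3489661850, 3489661851, 3489661852, 3489661853, 3489661854, 3489661973, 3489661974, 3489661975, 3489661976, 3489661977, 3489662097, 3489662098, 3489662099, 3489662100, 3489662101, 3489662102, 3489662103, 3489662104, 3489662220, 3489662221, 3489662222, 3489662223, 3489662224,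 3489662225, 3489662226, 3489662227, 3489662345, 3489662346, 3489662347, 3489662348, 3489662349, 3489662350, 3489662351, 3489662473, 3489662474, 3489662475, 3489662476, 3489677351, 3489710093, 3489710094, 3489710095, 3489710096, 3489710097, 3489710098, 3489710099, 3489710100, 3489710101, 3489710217, 3489710218, 3489710219, 3489710220, 3489710221, 3489710222, 3489710223, 3489710345, 3489710346, 3489710347, 3489710348, 3489710473, 3758096438, 3758096439, 3758096440, 3758096441, 3758096442, 3758096443, 3758096444, 3758096566, 3758096567, 4026531894, 4026531895, 4026531896, 4026531897, 4026531898, 4294967314, 4294967315, 4294967316, 4294967317, 4294967318, 4294967319, 4294967320, 4294967321, 4294967322, 4294967323, 4294967324, 4294967325, 4294967326, 4294967327, 4294967328, 4294967329, 4294967330, 4294967331, 4294967332, 4294967333, 4294967334, 4294967335, 4294967336, 4294967337, 4294967338, 4294967442, 4294967443, 4294967444, 4294967445, 4294967446, 4294967447, 4294967448, 4294967449, 4294967450, 4294967451, 4294967452, 4294967453, 4294967454, 4294967455, 4294967456, 4294967457, 4294967458, 4294967459, 4294967460, 4294967461, 4294967570, 4294967571, 4294967572,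 4294967573, 4294967574, 4294967575, 4294967576, 4294967577, 4294967578, 4294967579, 4294967580, 4294967581, 4294967582, 4294967583, 4294967584, 4294967585, 4294967698, 4294967699, 4294967700, 4294967701, 4294967702, 4294967703, 4294967704, 4294967705, 4294967706, 4294967707, 4294967708, 4294967709, 4294967710, 4294967826, 4294967827, 4294967828, 4294967829, 4294967830, 4294967831, 4294967832, 4294967833, 4294967954, 4294967955, 4294967956, 4294967957, 4294968082, 4294983699, 4294983700, 4294983701]

theorem c2_28 : rowsF (par Q2 Q3 fm3 zr fe1 zr) r2_28 = true := by decide +kernel


end Vale.Agent.P236K.Cert.K53
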