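import Vale.Agent.P236K.Cert.Fast
import Vale.Agent.P236K.K53.N2
import Vale.Agent.P236K.K53.N3

/-!
# P236K / K53 / R2_3 : rows of degree 2 (generated)
-/

noncomputable section

namespace Vale.Agent.P236K.Cert.K53

/-- rows -/
noncomputable def r2_3 : List ℕ := [1610612802, 1610612803, 1610612804, 1610612805, 1610612926, 1610612927, 1610612928, 1610612929, 1610613050, 1610613051, 1610613052, 1610613053, 1610613174, 1610613175, 1610613176, 1610613177, 1610613298, 1610613299, 1610613300, 1610613301, 1610613422, 1610613423, 1610613424, 1610613425, 1610613546, 1610613547, 1610613548, 1610613549, 1610613670, 1610613671, 1610613672, 1610613673, 1610613794, 1610613795, 1610613796, 1610613797, 1610613918, 1610613919, 1610613920, 1610613921, 1610614042, 1610614043, 1610614044, 1610614045, 1610614166, 1610614167, 1610614168, 1610614169, 1610614290, 1610614291, 1610614292, 1610614293, 1610614414, 1610614415, 1610614416, 1610614417, 1610614538, 1610614539, 1610614540, 1610614541, 1610614662, 1610614663, 1610614664, 1610614665, 1610614786, 1610614787, 1610614788, 1610614789, 1610614913, 1610629173, 1610629174, 1610629175, 1610629176, 1610629297, 1610629298, 1610629299,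 1610629300, 1610629421, 1610629422, 1610629423, 1610629545, 1610629546, 1610629547, 1610629669, 1610629670, 1610629671, 1610629793, 1610629794, 1610629795, 1610629917, 1610629918, 1610629919, 1610630041, 1610630042, 1610630043, 1610630165, 1610630166, 1610630167, 1610630289, 1610630290, 1610630291, 1610630413, 1610630414, 1610630415, 1610630537, 1610630539, 1610645544, 1610645545, 1610645546, 1610645668, 1610645669, 1610645670, 1610645792, 1610645793, 1610645794, 1610645916, 1610645917, 1610645918, 1610646040, 1610646041, 1610646042, 1610646164, 1610646165, 1610646166, 1610646288, 1610646289, 1610646290, 1610646412, 1610646413, 1610646414, 1610646535, 1610646536, 1610646537, 1610661914, 1610661915, 1610661916, 1610661917, 1610662038, 1610662039, 1610662040, 1610662041, 1610662162, 1610662163, 1610662164, 1610662165, 1610662286, 1610662287, 1610662288, 1610662289, 1610662410, 1610662411, 1610662412, 1610662413, 1610662534, 1610662535, 1610662536, 1610662537, 1610662658, 1610662659, 1610662660, 1610662661]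

theorem c2_3 : rowsF (par Q2 Q3 fm3 zr fe1 zr) r2_3 = true := by decide +kernel


end Vale.Agent.P236K.Cert.K53
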