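import Vale.Agent.P236K.Cert.Fast
import Vale.Agent.P236K.K53.N2
import Vale.Agent.P236K.K53.N3

/-!
# P236K / K53 / R2_4 : rows of degree 2 (generated)
-/

noncomputable section

namespace Vale.Agent.P236K.Cert.K53

/-- rows -/
noncomputable def r2_4 : List ℕ := [1610612806, 1610612807, 1610612808, 1610612809, 1610612810, 1610612811, 1610612812, 1610612930, 1610612931, 1610612932, 1610612933, 1610612934, 1610612935, 1610612936, 1610613054, 1610613055, 1610613056, 1610613057, 1610613058, 1610613059, 1610613060, 1610613178, 1610613179, 1610613180, 1610613181, 1610613182, 1610613183, 1610613184, 1610613302, 1610613303, 1610613304, 1610613305, 1610613306, 1610613307, 1610613308, 1610613426, 1610613427, 1610613428, 1610613429, 1610613430, 1610613431, 1610613432, 1610613550, 1610613551, 1610613552, 1610613553, 1610613554, 1610613555, 1610613556, 1610613674, 1610613675, 1610613676, 1610613677, 1610613678, 1610613679, 1610613680, 1610613798, 1610613799, 1610613800, 1610613801, 1610613802, 1610613803, 1610613804, 1610613922, 1610613923, 1610613924, 1610613925, 1610613926, 1610613927, 1610614046, 1610614047, 1610614048, 1610614049, 1610614050, 1610614051, 1610614170, 1610614171,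 1610614172, 1610614173, 1610614174, 1610614175, 1610614294, 1610614295, 1610614296, 1610614297, 1610614298, 1610614299, 1610614418, 1610614419, 1610614420, 1610614421, 1610614422, 1610614423, 1610614542, 1610614543, 1610614544, 1610614545, 1610614546, 1610614547, 1610614666, 1610614667, 1610614668, 1610614669, 1610614670, 1610614671, 1610614790, 1610614791, 1610614792, 1610614793, 1610614794, 1610614795, 1610614914, 1610614915, 1610614916, 1610614917, 1610614918, 1610614919, 1610615041, 1610615042, 1610615043, 1610629177, 1610629178, 1610629179, 1610629180, 1610629181, 1610629182, 1610629301, 1610629302, 1610629303, 1610629304, 1610629305, 1610629306, 1610629424, 1610629425, 1610629426, 1610629427, 1610629428, 1610629430, 1610629548, 1610629549, 1610629550, 1610629551, 1610629552, 1610629553, 1610629672, 1610629673, 1610629674, 1610629675, 1610629676, 1610629677, 1610629796, 1610629797, 1610629798, 1610629799, 1610629800, 1610629920, 1610629921, 1610629924, 1610630044, 1610630045, 1610630046, 1610630168, 1610630169, 1610630292, 1610630293, 1610630416, 1610630540, 1610645547, 1610645548, 1610645549, 1610645550, 1610645551, 1610645552, 1610645671, 1610645672, 1610645673,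 1610645674, 1610645675, 1610645795, 1610645796, 1610645919, 1610645920, 1610645921, 1610645924, 1610646044, 1610646167, 1610646168, 1610646291, 1610646292, 1610646293, 1610646415, 1610646416, 1610646539, 1610646540, 1610661918, 1610661919, 1610661920, 1610661921, 1610661922, 1610661923, 1610661924, 1610662042, 1610662043, 1610662044, 1610662045, 1610662046, 1610662047, 1610662048, 1610662166, 1610662167, 1610662168, 1610662169, 1610662170, 1610662171, 1610662172, 1610662290, 1610662291, 1610662292, 1610662293, 1610662294, 1610662295, 1610662296, 1610662414, 1610662415, 1610662416, 1610662417, 1610662418, 1610662419, 1610662420, 1610662538, 1610662539, 1610662540, 1610662541, 1610662542, 1610662543, 1610662544, 1610662662, 1610662663, 1610662664, 1610662665, 1610662666, 1610662667, 1610662668]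

theorem c2_4 : rowsF (par Q2 Q3 fm3 zr fe1 zr) r2_4 = true := by decide +kernel


end Vale.Agent.P236K.Cert.K53
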