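import Vale.Agent.P236K.Cert.Fast
import Vale.Agent.P236K.K53.N2
import Vale.Agent.P236K.K53.N3

/-!
# P236K / K53 / R2_6 : rows of degree 2 (generated)
-/

noncomputable section

namespace Vale.Agent.P236K.Cert.K53

/-- rows -/
noncomputable def r2_6 : List ℕ := [1879048243, 1879048244, 1879048245, 1879048246, 1879048247, 1879048248, 1879048249, 1879048250, 1879048367, 1879048368, 1879048369, 1879048370, 1879048371, 1879048372, 1879048373, 1879048374, 1879048491, 1879048492, 1879048493, 1879048494, 1879048495, 1879048496, 1879048497, 1879048498, 1879048615, 1879048616, 1879048617, 1879048618, 1879048619, 1879048620, 1879048621, 1879048622, 1879048739, 1879048740, 1879048741, 1879048742, 1879048743, 1879048744, 1879048745, 1879048746, 1879048863, 1879048864, 1879048865, 1879048866, 1879048867, 1879048868, 1879048869, 1879048870, 1879048987, 1879048988, 1879048989, 1879048990, 1879048991, 1879048992, 1879048993, 1879048994, 1879049111, 1879049112, 1879049113, 1879049114, 1879049115, 1879049116, 1879049117, 1879049118, 1879049235, 1879049236, 1879049237, 1879049238, 1879049239, 1879049240, 1879049241, 1879049242, 1879049359, 1879049360, 1879049361, 1879049362, 1879049363,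 1879049364, 1879049365, 1879049366, 1879049483, 1879049484, 1879049485, 1879049486, 1879049487, 1879049488, 1879049489, 1879049490, 1879049607, 1879049608, 1879049610, 1879049611, 1879049612, 1879049613, 1879049614, 1879049731, 1879049732, 1879049733, 1879049734, 1879049735, 1879049736, 1879049738, 1879049858, 1879049859, 1879049860, 1879049861, 1879049862, 1879049986, 1879064614, 1879064615, 1879064616, 1879064617, 1879064618, 1879064619, 1879064620, 1879064621, 1879064738, 1879064739, 1879064740, 1879064741, 1879064742, 1879064743, 1879064744, 1879064745, 1879064862, 1879064863, 1879064864, 1879064865, 1879064866, 1879064867, 1879064868, 1879064869, 1879064986, 1879064987, 1879064988, 1879064989, 1879064990, 1879064991, 1879064992, 1879064993, 1879065110, 1879065111, 1879065112, 1879065113, 1879065114, 1879065115, 1879065116, 1879065117, 1879065234, 1879065235, 1879065236, 1879065237, 1879065238, 1879065239, 1879065240, 1879065241, 1879065358, 1879065359, 1879065360, 1879065361, 1879065362, 1879065363, 1879065364, 1879065365, 1879065482, 1879065483, 1879065484, 1879065485, 1879065486, 1879065487, 1879065488, 1879065489, 1879065606, 1879065607, 1879065608, 1879065610,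 1879065611, 1879065612, 1879065613, 1879065734, 1879065735, 1879065736, 1879080985, 1879080986, 1879080987, 1879080988, 1879080989, 1879080990, 1879080991, 1879080992, 1879081109, 1879081110, 1879081111, 1879081112, 1879081113, 1879081114, 1879081115, 1879081116, 1879081233, 1879081234, 1879081235, 1879081236, 1879081237, 1879081238, 1879081239, 1879081240, 1879081357, 1879081358, 1879081359, 1879081360, 1879081361, 1879081362, 1879081363, 1879081364, 1879081482, 1879081483, 1879081484, 1879081485, 1879081486, 1879081487, 1879081488, 1879081604, 1879081605, 1879081606, 1879081607, 1879081608, 1879081610, 1879081611, 1879081734, 1879081735, 1879097355, 1879097356, 1879097357, 1879097358, 1879097359, 1879097360, 1879097361, 1879097362, 1879097479, 1879097480, 1879097482, 1879097483, 1879097484, 1879097485, 1879097486, 1879097603, 1879097604, 1879097605, 1879097606, 1879097607, 1879097608, 1879097610, 1879097730, 1879097731, 1879097732, 1879097733, 1879097734, 1879097858]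

theorem c2_6 : rowsF (par Q2 Q3 fm3 zr fe1 zr) r2_6 = true := by decide +kernel


end Vale.Agent.P236K.Cert.K53
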