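import Vale.Agent.P236K.Cert.Fast
import Vale.Agent.P236K.K53.N2
import Vale.Agent.P236K.K53.N3

/-!
# P236K / K53 / R2_7 : rows of degree 2 (generated)
-/

noncomputable section

namespace Vale.Agent.P236K.Cert.K53

/-- rows -/
noncomputable def r2_7 : List ℕ := [1879048251, 1879048252, 1879048253, 1879048254, 1879048255, 1879048375, 1879048376, 1879048377, 1879048378, 1879048379, 1879048499, 1879048500, 1879048501, 1879048502, 1879048503, 1879048623, 1879048624, 1879048625, 1879048626, 1879048627, 1879048747, 1879048748, 1879048749, 1879048750, 1879048751, 1879048871, 1879048872, 1879048873, 1879048874, 1879048875, 1879048995, 1879048996, 1879048997, 1879048998, 1879048999, 1879049119, 1879049120, 1879049121, 1879049122, 1879049123, 1879049243, 1879049244, 1879049245, 1879049246, 1879049247, 1879049367, 1879049368, 1879049369, 1879049370, 1879049371, 1879049491, 1879049492, 1879049493, 1879049494, 1879049495, 1879049615, 1879049616, 1879049617, 1879049618, 1879049619, 1879049739, 1879049740, 1879049741, 1879049742, 1879049743, 1879049863, 1879049864, 1879049866, 1879049867, 1879049987, 1879049988, 1879049989, 1879049990, 1879049991, 1879050114, 1879050115,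 1879064622, 1879064623, 1879064624, 1879064625, 1879064626, 1879064746, 1879064747, 1879064748, 1879064749, 1879064750, 1879064870, 1879064871, 1879064872, 1879064873, 1879064874, 1879064994, 1879064995, 1879064996, 1879064997, 1879064998, 1879065118, 1879065119, 1879065120, 1879065121, 1879065122, 1879065242, 1879065243, 1879065244, 1879065245, 1879065246, 1879065366, 1879065367, 1879065368, 1879065369, 1879065370, 1879065490, 1879065491, 1879065492, 1879065493, 1879065494, 1879065614, 1879065615, 1879065616, 1879065617, 1879065618, 1879065738, 1879065739, 1879065740, 1879065741, 1879065742, 1879065862, 1879065863, 1879065866, 1879065990, 1879080993, 1879080994, 1879080995, 1879080996, 1879080997, 1879081117, 1879081118, 1879081119, 1879081120, 1879081121, 1879081241, 1879081242, 1879081243, 1879081244, 1879081245, 1879081365, 1879081366, 1879081367, 1879081368, 1879081369, 1879081489, 1879081490, 1879081491, 1879081492, 1879081612, 1879081613, 1879081614, 1879081615, 1879081616, 1879081736, 1879081738, 1879081739, 1879081740, 1879081862, 1879081863, 1879097363, 1879097364, 1879097365, 1879097366, 1879097367, 1879097487, 1879097488, 1879097489, 1879097490,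 1879097491, 1879097611, 1879097612, 1879097613, 1879097614, 1879097615, 1879097735, 1879097736, 1879097738, 1879097739, 1879097859, 1879097860, 1879097861, 1879097862, 1879097863, 1879097986, 1879097987]

theorem c2_7 : rowsF (par Q2 Q3 fm3 zr fe1 zr) r2_7 = true := by decide +kernel


end Vale.Agent.P236K.Cert.K53
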