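import Vale.Agent.P236K.Cert.Fast
import Vale.Agent.P236K.K53.N2
import Vale.Agent.P236K.K53.N3

/-!
# P236K / K53 / R2_8 : rows of degree 2 (generated)
-/

noncomputable section

namespace Vale.Agent.P236K.Cert.K53

/-- rows -/
noncomputable def r2_8 : List ℕ := [1879048256, 1879048257, 1879048258, 1879048380, 1879048381, 1879048382, 1879048504, 1879048505, 1879048506, 1879048628, 1879048629, 1879048630, 1879048752, 1879048753, 1879048754, 1879048876, 1879048877, 1879048878, 1879049000, 1879049001, 1879049002, 1879049124, 1879049125, 1879049126, 1879049248, 1879049249, 1879049250, 1879049372, 1879049373, 1879049374, 1879049496, 1879049497, 1879049498, 1879049620, 1879049621, 1879049622, 1879049744, 1879049745, 1879049746, 1879049868, 1879049869, 1879049870, 1879049992, 1879049994, 1879050116, 1879050117, 1879050118, 1879050242, 1879064627, 1879064628, 1879064629, 1879064751, 1879064752, 1879064753, 1879064875, 1879064876, 1879064877, 1879064999, 1879065000, 1879065001, 1879065123, 1879065124, 1879065125, 1879065247, 1879065248, 1879065249, 1879065371, 1879065372, 1879065373, 1879065495, 1879065496, 1879065497, 1879065619, 1879065620, 1879065621,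 1879065743, 1879065744, 1879065745, 1879065867, 1879065869, 1879065991, 1879080998, 1879080999, 1879081000, 1879081122, 1879081123, 1879081124, 1879081246, 1879081247, 1879081248, 1879081370, 1879081371, 1879081372, 1879081493, 1879081494, 1879081495, 1879081496, 1879081617, 1879081618, 1879081619, 1879081620, 1879081741, 1879081742, 1879081743, 1879081866, 1879081867, 1879081990, 1879081991, 1879097368, 1879097369, 1879097370, 1879097492, 1879097493, 1879097494, 1879097616, 1879097617, 1879097618, 1879097740, 1879097741, 1879097742, 1879097864, 1879097866, 1879097988, 1879097989, 1879097990, 1879098114]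

theorem c2_8 : rowsF (par Q2 Q3 fm3 zr fe1 zr) r2_8 = true := by decide +kernel


end Vale.Agent.P236K.Cert.K53
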