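import Vale.Agent.P236K.Cert.Fast
import Vale.Agent.P236K.K53.N2
import Vale.Agent.P236K.K53.N3

/-!
# P236K / K53 / R2_9 : rows of degree 2 (generated)
-/

noncomputable section

namespace Vale.Agent.P236K.Cert.K53

/-- rows -/
noncomputable def r2_9 : List ℕ := [1879048259, 1879048260, 1879048261, 1879048262, 1879048383, 1879048384, 1879048385, 1879048386, 1879048507, 1879048508, 1879048509, 1879048510, 1879048631, 1879048632, 1879048633, 1879048634, 1879048755, 1879048756, 1879048757, 1879048758, 1879048879, 1879048880, 1879048881, 1879048882, 1879049003, 1879049004, 1879049005, 1879049006, 1879049127, 1879049128, 1879049129, 1879049130, 1879049251, 1879049252, 1879049253, 1879049254, 1879049375, 1879049376, 1879049377, 1879049378, 1879049499, 1879049500, 1879049501, 1879049502, 1879049623, 1879049624, 1879049625, 1879049626, 1879049747, 1879049748, 1879049749, 1879049750, 1879049871, 1879049872, 1879049873, 1879049874, 1879049995, 1879049996, 1879049997, 1879049998, 1879050119, 1879050120, 1879050122, 1879050243, 1879050244, 1879050245, 1879050246, 1879050370, 1879064630, 1879064631, 1879064632, 1879064633, 1879064754, 1879064755, 1879064756, 1879064757,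 1879064878, 1879064879, 1879064880, 1879064881, 1879065002, 1879065003, 1879065004, 1879065126, 1879065127, 1879065128, 1879065250, 1879065251, 1879065252, 1879065374, 1879065375, 1879065376, 1879065498, 1879065499, 1879065500, 1879065622, 1879065623, 1879065624, 1879065746, 1879065747, 1879065870, 1879065871, 1879065994, 1879081001, 1879081002, 1879081003, 1879081125, 1879081126, 1879081127, 1879081249, 1879081250, 1879081373, 1879081374, 1879081375, 1879081497, 1879081498, 1879081499, 1879081621, 1879081622, 1879081744, 1879081745, 1879081746, 1879081747, 1879081869, 1879081870, 1879081871, 1879081994, 1879097371, 1879097372, 1879097373, 1879097374, 1879097495, 1879097496, 1879097497, 1879097498, 1879097619, 1879097620, 1879097621, 1879097622, 1879097743, 1879097744, 1879097745, 1879097746, 1879097867, 1879097868, 1879097869, 1879097870, 1879097991, 1879097992, 1879097994, 1879098115, 1879098116, 1879098117, 1879098118]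

theorem c2_9 : rowsF (par Q2 Q3 fm3 zr fe1 zr) r2_9 = true := by decide +kernel


end Vale.Agent.P236K.Cert.K53
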