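import Vale.Agent.P236K.Cert.LevF
import Vale.Agent.P236K.Cert.FastEq
import Vale.Agent.P236K.K53.R2_0
import Vale.Agent.P236K.K53.R2_1
import Vale.Agent.P236K.K53.R2_2
import Vale.Agent.P236K.K53.R2_3
import Vale.Agent.P236K.K53.R2_4
import Vale.Agent.P236K.K53.R2_5
import Vale.Agent.P236K.K53.R2_6
import Vale.Agent.P236K.K53.R2_7
import Vale.Agent.P236K.K53.R2_8
import Vale.Agent.P236K.K53.R2_9
import Vale.Agent.P236K.K53.R2_10
import Vale.Agent.P236K.K53.R2_11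
import Vale.Agent.P236K.K53.R2_12
import Vale.Agent.P236K.K53.R2_13
import Vale.Agent.P236K.K53.R2_14
import Vale.Agent.P236K.K53.R2_15
import Vale.Agent.P236K.K53.R2_16
import Vale.Agent.P236K.K53.R2_17
import Vale.Agent.P236K.K53.R2_18
import Vale.Agent.P236K.K53.R2_19
import Vale.Agent.P236K.K53.R2_20
import Vale.Agent.P236K.K53.R2_21
import Vale.Agent.P236K.K53.R2_22
import Vale.Agent.P236K.K53.R2_23
import Vale.Agent.P236K.K53.R2_24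
import Vale.Agent.P236K.K53.R2_25
import Vale.Agent.P236K.K53.R2_26
import Vale.Agent.P236K.K53.R2_27
import Vale.Agent.P236K.K53.R2_28

/-!
# P236K / K53 / S2 : the step from degree 2 (generated)
-/

noncomputable section

namespace Vale.Agent.P236K.Cert.K53

/-- rows -/
noncomputable def rows2 : List ℕ := (mrg (mrg (mrg (mrg r2_0 (mrg r2_1 r2_2)) (mrg (mrg r2_3 r2_4) (mrg r2_5 r2_6))) (mrg (mrg r2_7 (mrg r2_8 r2_9)) (mrg (mrg r2_10 r2_11) (mrg r2_12 r2_13)))) (mrg (mrg (mrg r2_14 (mrg r2_15 r2_16)) (mrg (mrg r2_17 r2_18) (mrg r2_19 r2_20))) (mrg (mrg (mrg r2_21 r2_22) (mrg r2_23 r2_24)) (mrg (mrg r2_25 r2_26) (mrg r2_27 r2_28)))))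

theorem lv2 : levF Q2 Q3 ly2.gl rows2 = true := by decide +kernel

theorem stp2 : Stp Q2 Q3 ly2.gl :=
  Stp.ofF (rows := rows2) (RowsAll.mrg (RowsAll.mrg (RowsAll.mrg (RowsAll.mrg (RowsAll.ofF c2_0) (RowsAll.mrg (RowsAll.ofF c2_1) (RowsAll.ofF c2_2))) (RowsAll.mrg (RowsAll.mrg (RowsAll.ofF c2_3) (RowsAll.ofF c2_4)) (RowsAll.mrg (RowsAll.ofF c2_5) (RowsAll.ofF c2_6)))) (RowsAll.mrg (RowsAll.mrg (RowsAll.ofF c2_7) (RowsAll.mrg (RowsAll.ofF c2_8) (RowsAll.ofF c2_9))) (RowsAll.mrg (RowsAll.mrg (RowsAll.ofF c2_10) (RowsAll.ofF c2_11)) (RowsAll.mrg (RowsAll.ofF c2_12) (RowsAll.ofF c2_13))))) (RowsAll.mrg (RowsAll.mrg (RowsAll.mrg (RowsAll.ofF c2_14) (RowsAll.mrg (RowsAll.ofF c2_15) (RowsAll.ofF c2_16))) (RowsAll.mrg (RowsAll.mrg (RowsAll.ofF c2_17) (RowsAll.ofF c2_18)) (RowsAll.mrg (RowsAll.ofF c2_19) (RowsAll.ofF c2_20)))) (RowsAll.mrg (RowsAll.mrg (RowsAll.mrg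 (RowsAll.ofF c2_21) (RowsAll.ofF c2_22)) (RowsAll.mrg (RowsAll.ofF c2_23) (RowsAll.ofF c2_24))) (RowsAll.mrg (RowsAll.mrg (RowsAll.ofF c2_25) (RowsAll.ofF c2_26)) (RowsAll.mrg (RowsAll.ofF c2_27) (RowsAll.ofF c2_28)))))) lv2

end Vale.Agent.P236K.Cert.K53
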