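import Vale.Agent.P236K.Cert.LevF
import Vale.Agent.P236K.Cert.FastEq
import Vale.Agent.P236K.K53.R20_0

/-!
# P236K / K53 / S20 : the step from degree 20 (generated)
-/

noncomputable section

namespace Vale.Agent.P236K.Cert.K53

/-- rows -/
noncomputable def rows20 : List ℕ := r20_0

theorem lv20 : levF Q20 Q21 ly20.gl rows20 = true := by decide +kernel

theorem stp20 : Stp Q20 Q21 ly20.gl :=
  Stp.ofF (rows := rows20) (RowsAll.ofF c20_0) lv20

end Vale.Agent.P236K.Cert.K53
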