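import Vale.Agent.P236K.Cert.LevF
import Vale.Agent.P236K.Cert.FastEq
import Vale.Agent.P236K.K53.R21_0

/-!
# P236K / K53 / S21 : the step from degree 21 (generated)
-/

noncomputable section

namespace Vale.Agent.P236K.Cert.K53

/-- rows -/
noncomputable def rows21 : List ℕ := r21_0

theorem lv21 : levF Q21 Q22 ly21.gl rows21 = true := by decide +kernel

theorem stp21 : Stp Q21 Q22 ly21.gl :=
  Stp.ofF (rows := rows21) (RowsAll.ofF c21_0) lv21

end Vale.Agent.P236K.Cert.K53
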