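import Vale.Agent.P236K.Cert.LevF
import Vale.Agent.P236K.Cert.FastEq
import Vale.Agent.P236K.K53.R22_0

/-!
# P236K / K53 / S22 : the step from degree 22 (generated)
-/

noncomputable section

namespace Vale.Agent.P236K.Cert.K53

/-- rows -/
noncomputable def rows22 : List ℕ := r22_0

theorem lv22 : levF Q22 Q23 ly22.gl rows22 = true := by decide +kernel

theorem stp22 : Stp Q22 Q23 ly22.gl :=
  Stp.ofF (rows := rows22) (RowsAll.ofF c22_0) lv22

end Vale.Agent.P236K.Cert.K53
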