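import Vale.Agent.P236K.Cert.Fast
import Vale.Agent.P236K.K53.N3
import Vale.Agent.P236K.K53.N4

/-!
# P236K / K53 / R3_1 : rows of degree 3 (generated)
-/

noncomputable section

namespace Vale.Agent.P236K.Cert.K53

/-- rows -/
noncomputable def r3_1 : List ℕ := [5905580089, 5905580090, 5905580091, 5905580092, 5905580093, 5905580213, 5905580214, 5905580215, 5905580216, 5905580217, 5905580337, 5905580338, 5905580339, 5905580340, 5905580341, 5905580461, 5905580462, 5905580463, 5905580464, 5905580465, 5905580585, 5905580586, 5905580587, 5905580588, 5905580589, 5905580709, 5905580710, 5905580711, 5905580712, 5905580713, 5905580833, 5905580834, 5905580835, 5905580836, 5905580837, 5905580957, 5905580958, 5905580959, 5905580960, 5905580961, 5905581081, 5905581082, 5905581083, 5905581084, 5905581085, 5905581205, 5905581206, 5905581207, 5905581208, 5905581209, 5905581329, 5905581330, 5905581331, 5905581332, 5905581333, 5905581453, 5905581454, 5905581455, 5905581456, 5905581457, 5905581578, 5905581579, 5905581580, 5905581581, 5905581701, 5905581702, 5905581703, 5905581704, 5905581826, 5905581828, 5905581829, 5905596460, 5905596461, 5905596462, 5905596463, 5905596464,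 5905596584, 5905596585, 5905596586, 5905596587, 5905596588, 5905596708, 5905596709, 5905596710, 5905596711, 5905596712, 5905596832, 5905596833, 5905596834, 5905596835, 5905596836, 5905596956, 5905596957, 5905596958, 5905596959, 5905596960, 5905597080, 5905597081, 5905597082, 5905597083, 5905597084, 5905597204, 5905597205, 5905597206, 5905597207, 5905597208, 5905597328, 5905597329, 5905597330, 5905597331, 5905597332, 5905597452, 5905597453, 5905597454, 5905597455, 5905597456, 5905612830, 5905612831, 5905612832, 5905612833, 5905612834, 5905612835, 5905612954, 5905612955, 5905612956, 5905612957, 5905612958, 5905612959, 5905613078, 5905613079, 5905613080, 5905613081, 5905613082, 5905613083, 5905613202, 5905613203, 5905613204, 5905613205, 5905613206, 5905613207, 5905613326, 5905613327, 5905613328, 5905613329, 5905613330, 5905613331, 5905613450, 5905613451, 5905613452, 5905613453, 5905613454, 5905613455, 5905629201, 5905629202, 5905629203, 5905629204, 5905629205, 5905629325, 5905629326, 5905629327, 5905629328, 5905629329, 5905629450, 5905629451, 5905629452, 5905629453, 5905629573, 5905629574, 5905629575, 5905629576, 5905629698, 5905629700, 5905629701]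

theorem c3_1 : rowsF (par Q3 Q4 fm3 zr fe1 zr) r3_1 = true := by decide +kernel


end Vale.Agent.P236K.Cert.K53
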