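import Vale.Agent.P236K.Cert.Fast
import Vale.Agent.P236K.K53.N3
import Vale.Agent.P236K.K53.N4

/-!
# P236K / K53 / R3_11 : rows of degree 3 (generated)
-/

noncomputable section

namespace Vale.Agent.P236K.Cert.K53

/-- rows -/
noncomputable def r3_11 : List ℕ := [6442450987, 6442450988, 6442450989, 6442450990, 6442450991, 6442450992, 6442450993, 6442450994, 6442450995, 6442450996, 6442450997, 6442450998, 6442451111, 6442451112, 6442451113, 6442451114, 6442451115, 6442451116, 6442451117, 6442451118, 6442451119, 6442451120, 6442451121, 6442451122, 6442451235, 6442451236, 6442451237, 6442451238, 6442451239, 6442451240, 6442451241, 6442451242, 6442451243, 6442451244, 6442451245, 6442451246, 6442451359, 6442451360, 6442451361, 6442451362, 6442451363, 6442451364, 6442451365, 6442451366, 6442451367, 6442451368, 6442451369, 6442451370, 6442451483, 6442451484, 6442451485, 6442451486, 6442451487, 6442451488, 6442451489, 6442451490, 6442451491, 6442451492, 6442451493, 6442451494, 6442451607, 6442451608, 6442451609, 6442451610, 6442451611, 6442451612, 6442451613, 6442451614, 6442451615, 6442451616, 6442451617, 6442451618, 6442451732, 6442451734, 6442451735, 6442451736,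 6442451737, 6442451738, 6442451739, 6442451740, 6442451741, 6442451742, 6442451855, 6442451856, 6442451857, 6442451860, 6442451862, 6442451863, 6442451864, 6442451865, 6442451866, 6442451983, 6442451984, 6442451985, 6442451988, 6442451989, 6442451990, 6442452103, 6442452104, 6442452111, 6442452112, 6442452113, 6442452231, 6442452232, 6442452359, 6442452360, 6442467358, 6442467359, 6442467360, 6442467361, 6442467362, 6442467363, 6442467364, 6442467365, 6442467366, 6442467367, 6442467368, 6442467369, 6442467482, 6442467483, 6442467484, 6442467485, 6442467486, 6442467487, 6442467488, 6442467489, 6442467490, 6442467491, 6442467492, 6442467493, 6442467606, 6442467607, 6442467608, 6442467609, 6442467610, 6442467611, 6442467612, 6442467613, 6442467614, 6442467615, 6442467616, 6442467617, 6442467729, 6442467732, 6442467734, 6442467735, 6442467736, 6442467737, 6442467738, 6442467739, 6442467740, 6442467741, 6442467855, 6442467856, 6442467857, 6442467860, 6442467862, 6442467863, 6442467864, 6442467865, 6442467983, 6442467984, 6442467985, 6442467988, 6442467989, 6442468103, 6442468104, 6442468111, 6442468112, 6442468113, 6442468231, 6442468232, 6442468359, 6442468360,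 6442483728, 6442483729, 6442483732, 6442483734, 6442483735, 6442483736, 6442483737, 6442483738, 6442483739, 6442483740, 6442483855, 6442483856, 6442483857, 6442483860, 6442483862, 6442483863, 6442483864, 6442483976, 6442483983, 6442483984, 6442483985, 6442483988, 6442484103, 6442484104, 6442484111, 6442484112, 6442484231, 6442484232, 6442484359, 6442484360, 6442500103, 6442500104, 6442500231, 6442500232]

theorem c3_11 : rowsF (par Q3 Q4 fm3 zr fe1 zr) r3_11 = true := by decide +kernel


end Vale.Agent.P236K.Cert.K53
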