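import Vale.Agent.P236K.Cert.Fast
import Vale.Agent.P236K.K53.N3
import Vale.Agent.P236K.K53.N4

/-!
# P236K / K53 / R3_12 : rows of degree 3 (generated)
-/

noncomputable section

namespace Vale.Agent.P236K.Cert.K53

/-- rows -/
noncomputable def r3_12 : List ℕ := [6442450999, 6442451000, 6442451001, 6442451002, 6442451003, 6442451004, 6442451123, 6442451124, 6442451125, 6442451126, 6442451127, 6442451128, 6442451247, 6442451248, 6442451249, 6442451250, 6442451251, 6442451252, 6442451371, 6442451372, 6442451373, 6442451374, 6442451375, 6442451376, 6442451495, 6442451496, 6442451497, 6442451498, 6442451499, 6442451500, 6442451619, 6442451620, 6442451621, 6442451622, 6442451623, 6442451624, 6442451743, 6442451744, 6442451745, 6442451746, 6442451747, 6442451748, 6442451867, 6442451868, 6442451869, 6442451870, 6442451871, 6442451872, 6442451991, 6442451992, 6442451993, 6442451994, 6442451995, 6442451996, 6442452116, 6442452118, 6442452119, 6442452120, 6442452239, 6442452240, 6442452241, 6442452244, 6442452367, 6442452368, 6442452487, 6442452488, 6442452615, 6442452616, 6442467370, 6442467371, 6442467372, 6442467373, 6442467374, 6442467375, 6442467494,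 6442467495, 6442467496, 6442467497, 6442467498, 6442467499, 6442467618, 6442467619, 6442467620, 6442467621, 6442467622, 6442467623, 6442467742, 6442467743, 6442467744, 6442467745, 6442467746, 6442467747, 6442467866, 6442467867, 6442467868, 6442467869, 6442467870, 6442467871, 6442467990, 6442467991, 6442467992, 6442467993, 6442467994, 6442467995, 6442468116, 6442468118, 6442468119, 6442468239, 6442468240, 6442468241, 6442468367, 6442483741, 6442483742, 6442483743, 6442483744, 6442483745, 6442483865, 6442483866, 6442483867, 6442483868, 6442483869, 6442483989, 6442483990, 6442483991, 6442483992, 6442483993, 6442484113, 6442484116, 6442484239, 6442484240, 6442484241, 6442500111, 6442500112, 6442500113, 6442500116, 6442500239, 6442500240, 6442500359, 6442500360, 6442500487, 6442500488]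

theorem c3_12 : rowsF (par Q3 Q4 fm3 zr fe1 zr) r3_12 = true := by decide +kernel


end Vale.Agent.P236K.Cert.K53
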