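import Vale.Agent.P236K.Cert.Fast
import Vale.Agent.P236K.K53.N3
import Vale.Agent.P236K.K53.N4

/-!
# P236K / K53 / R3_13 : rows of degree 3 (generated)
-/

noncomputable section

namespace Vale.Agent.P236K.Cert.K53

/-- rows -/
noncomputable def r3_13 : List ℕ := [6442451005, 6442451006, 6442451007, 6442451129, 6442451130, 6442451131, 6442451253, 6442451254, 6442451255, 6442451377, 6442451378, 6442451379, 6442451501, 6442451502, 6442451503, 6442451625, 6442451626, 6442451627, 6442451749, 6442451750, 6442451751, 6442451873, 6442451874, 6442451875, 6442451997, 6442451998, 6442451999, 6442452121, 6442452122, 6442452123, 6442452246, 6442452247, 6442452369, 6442452495, 6442452743, 6442467376, 6442467377, 6442467378, 6442467500, 6442467501, 6442467502, 6442467624, 6442467625, 6442467626, 6442467748, 6442467749, 6442467750, 6442467872, 6442467873, 6442467874, 6442467996, 6442467997, 6442467998, 6442468120, 6442468121, 6442468122, 6442468244, 6442468368, 6442468369, 6442483746, 6442483747, 6442483748, 6442483870, 6442483871, 6442483872, 6442483994, 6442483995, 6442483996, 6442484118, 6442484119, 6442484120, 6442484244, 6442484367, 6442484368,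 6442500118, 6442500119, 6442500241, 6442500367, 6442500615]

theorem c3_13 : rowsF (par Q3 Q4 fm3 zr fe1 zr) r3_13 = true := by decide +kernel


end Vale.Agent.P236K.Cert.K53
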