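import Vale.Agent.P236K.Cert.Fast
import Vale.Agent.P236K.K53.N3
import Vale.Agent.P236K.K53.N4

/-!
# P236K / K53 / R3_14 : rows of degree 3 (generated)
-/

noncomputable section

namespace Vale.Agent.P236K.Cert.K53

/-- rows -/
noncomputable def r3_14 : List ℕ := [6442451008, 6442451009, 6442451132, 6442451133, 6442451256, 6442451257, 6442451380, 6442451381, 6442451504, 6442451505, 6442451628, 6442451629, 6442451752, 6442451753, 6442451876, 6442451877, 6442452000, 6442452001, 6442452124, 6442452125, 6442452248, 6442452249, 6442452372, 6442452373, 6442452496, 6442452497, 6442452744, 6442467379, 6442467380, 6442467503, 6442467504, 6442467627, 6442467628, 6442467751, 6442467752, 6442467875, 6442467876, 6442467999, 6442468000, 6442468123, 6442468124, 6442468246, 6442468247, 6442468248, 6442468372, 6442483749, 6442483750, 6442483873, 6442483874, 6442483997, 6442483998, 6442484121, 6442484122, 6442484246, 6442484369, 6442500120, 6442500121, 6442500244, 6442500368, 6442500369, 6442500616]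

theorem c3_14 : rowsF (par Q3 Q4 fm3 zr fe1 zr) r3_14 = true := by decide +kernel


end Vale.Agent.P236K.Cert.K53
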