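import Vale.Agent.P236K.Cert.Fast
import Vale.Agent.P236K.K53.N3
import Vale.Agent.P236K.K53.N4

/-!
# P236K / K53 / R3_15 : rows of degree 3 (generated)
-/

noncomputable section

namespace Vale.Agent.P236K.Cert.K53

/-- rows -/
noncomputable def r3_15 : List ℕ := [6442451010, 6442451011, 6442451134, 6442451135, 6442451258, 6442451259, 6442451382, 6442451383, 6442451506, 6442451507, 6442451630, 6442451631, 6442451754, 6442451755, 6442451878, 6442451879, 6442452002, 6442452003, 6442452126, 6442452127, 6442452250, 6442452251, 6442452374, 6442452375, 6442452623, 6442452871, 6442467381, 6442467382, 6442467505, 6442467506, 6442467629, 6442467630, 6442467753, 6442467754, 6442467877, 6442467878, 6442468001, 6442468002, 6442468125, 6442468126, 6442468249, 6442468250, 6442468373, 6442483751, 6442483752, 6442483875, 6442483876, 6442484000, 6442484124, 6442484247, 6442484248, 6442484372, 6442500122, 6442500123, 6442500246, 6442500247, 6442500495, 6442500743]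

theorem c3_15 : rowsF (par Q3 Q4 fm3 zr fe1 zr) r3_15 = true := by decide +kernel


end Vale.Agent.P236K.Cert.K53
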