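import Vale.Agent.P236K.Cert.Fast
import Vale.Agent.P236K.K53.N3
import Vale.Agent.P236K.K53.N4

/-!
# P236K / K53 / R3_16 : rows of degree 3 (generated)
-/

noncomputable section

namespace Vale.Agent.P236K.Cert.K53

/-- rows -/
noncomputable def r3_16 : List ℕ := [6442451012, 6442451013, 6442451014, 6442451136, 6442451137, 6442451138, 6442451260, 6442451261, 6442451262, 6442451384, 6442451385, 6442451386, 6442451508, 6442451509, 6442451510, 6442451632, 6442451633, 6442451634, 6442451756, 6442451757, 6442451758, 6442451880, 6442451881, 6442451882, 6442452004, 6442452005, 6442452006, 6442452128, 6442452129, 6442452130, 6442452252, 6442452253, 6442452254, 6442452376, 6442452377, 6442452378, 6442452500, 6442452502, 6442452624, 6442452625, 6442452872, 6442467383, 6442467384, 6442467385, 6442467507, 6442467631, 6442467755, 6442467879, 6442468127, 6442468374, 6442483753, 6442483754, 6442483877, 6442483878, 6442484001, 6442484125, 6442484126, 6442484249, 6442484373, 6442500124, 6442500125, 6442500126, 6442500127, 6442500248, 6442500249, 6442500250, 6442500251, 6442500372, 6442500373, 6442500374, 6442500375, 6442500496, 6442500497, 6442500744]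

theorem c3_16 : rowsF (par Q3 Q4 fm3 zr fe1 zr) r3_16 = true := by decide +kernel


end Vale.Agent.P236K.Cert.K53
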