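import Vale.Agent.P236K.Cert.Fast
import Vale.Agent.P236K.K53.N3
import Vale.Agent.P236K.K53.N4

/-!
# P236K / K53 / R3_17 : rows of degree 3 (generated)
-/

noncomputable section

namespace Vale.Agent.P236K.Cert.K53

/-- rows -/
noncomputable def r3_17 : List ℕ := [6442451015, 6442451016, 6442451017, 6442451018, 6442451019, 6442451020, 6442451021, 6442451022, 6442451139, 6442451140, 6442451141, 6442451142, 6442451143, 6442451144, 6442451145, 6442451146, 6442451263, 6442451264, 6442451265, 6442451266, 6442451267, 6442451268, 6442451269, 6442451270, 6442451387, 6442451388, 6442451389, 6442451390, 6442451391, 6442451392, 6442451393, 6442451394, 6442451511, 6442451512, 6442451513, 6442451514, 6442451515, 6442451516, 6442451517, 6442451518, 6442451635, 6442451636, 6442451637, 6442451638, 6442451639, 6442451640, 6442451641, 6442451642, 6442451759, 6442451760, 6442451761, 6442451762, 6442451763, 6442451764, 6442451765, 6442451766, 6442451883, 6442451884, 6442451885, 6442451886, 6442451887, 6442451888, 6442451889, 6442451890, 6442452007, 6442452008, 6442452009, 6442452010, 6442452011, 6442452131, 6442452132, 6442452133, 6442452134, 6442452135, 6442452136, 6442452137,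 6442452138, 6442452255, 6442452256, 6442452257, 6442452258, 6442452259, 6442452260, 6442452261, 6442452262, 6442452379, 6442452380, 6442452381, 6442452382, 6442452384, 6442452385, 6442452503, 6442452504, 6442452505, 6442452506, 6442452507, 6442452508, 6442452509, 6442452510, 6442452628, 6442452630, 6442452631, 6442452632, 6442452633, 6442452751, 6442452752, 6442452753, 6442452756, 6442452757, 6442452879, 6442452880, 6442452999, 6442453000, 6442453127, 6442500128, 6442500129, 6442500130, 6442500131, 6442500132, 6442500133, 6442500134, 6442500135, 6442500252, 6442500253, 6442500254, 6442500255, 6442500256, 6442500257, 6442500258, 6442500259, 6442500376, 6442500377, 6442500378, 6442500379, 6442500380, 6442500381, 6442500500, 6442500502, 6442500503, 6442500504, 6442500505, 6442500506, 6442500507, 6442500623, 6442500624, 6442500625, 6442500628, 6442500630, 6442500631, 6442500751, 6442500752, 6442500871, 6442500872]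

theorem c3_17 : rowsF (par Q3 Q4 fm3 zr fe1 zr) r3_17 = true := by decide +kernel


end Vale.Agent.P236K.Cert.K53
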