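import Vale.Agent.P236K.Cert.Fast
import Vale.Agent.P236K.K53.N3
import Vale.Agent.P236K.K53.N4

/-!
# P236K / K53 / R3_18 : rows of degree 3 (generated)
-/

noncomputable section

namespace Vale.Agent.P236K.Cert.K53

/-- rows -/
noncomputable def r3_18 : List ℕ := [6442451023, 6442451025, 6442451147, 6442451395, 6442451519, 6442451767, 6442500508, 6442500879, 6710886407, 6710886408, 6710886415, 6710886416, 6710886417, 6710886424, 6710886425, 6710886426, 6710886427, 6710886428, 6710886429, 6710886430, 6710886431, 6710886432, 6710886433, 6710886434, 6710886435, 6710886436, 6710886437, 6710886438, 6710886439, 6710886440, 6710886441, 6710886442, 6710886443, 6710886444, 6710886445, 6710886446, 6710886447, 6710886448, 6710886449, 6710886450, 6710886451, 6710886452, 6710886535, 6710886536, 6710886543, 6710886544, 6710886545, 6710886552, 6710886553, 6710886554, 6710886555, 6710886556, 6710886557, 6710886558, 6710886559, 6710886560, 6710886561, 6710886562, 6710886563, 6710886564, 6710886565, 6710886566, 6710886567, 6710886568, 6710886569, 6710886570, 6710886571, 6710886572, 6710886573, 6710886574, 6710886575, 6710886576, 6710886662, 6710886663, 6710886664, 6710886671, 6710886672,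 6710886673, 6710886680, 6710886681, 6710886682, 6710886683, 6710886684, 6710886685, 6710886686, 6710886687, 6710886688, 6710886689, 6710886690, 6710886691, 6710886692, 6710886693, 6710886694, 6710886695, 6710886696, 6710886697, 6710886698, 6710886699, 6710886700, 6710886791, 6710886792, 6710886799, 6710886800, 6710886801, 6710886808, 6710886809, 6710886810, 6710886811, 6710886812, 6710886813, 6710886814, 6710886815, 6710886816, 6710886817, 6710886818, 6710886819, 6710886820, 6710886821, 6710886822, 6710886823, 6710886824, 6710886919, 6710886920, 6710886927, 6710886928, 6710886929, 6710886936, 6710886937, 6710886938, 6710886939, 6710886940, 6710886941, 6710886942, 6710886943, 6710886944, 6710886945, 6710886946, 6710886947, 6710886948, 6710887046, 6710887047, 6710887048, 6710887055, 6710887056, 6710887057, 6710887064, 6710887065, 6710887066, 6710887067, 6710887068, 6710887069, 6710887070, 6710887071, 6710887072, 6710887175, 6710887176, 6710887183, 6710887184, 6710887185, 6710887192, 6710887193, 6710887194, 6710887195, 6710887196, 6710887303, 6710887304, 6710887311, 6710887312, 6710887313, 6710887320, 6710887430, 6710887431, 6710887432, 6710887439, 6710887440, 6710887441,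 6710887559, 6710887560, 6710887567, 6710887568, 6710887687, 6710887688, 6710887814, 6710887815, 6710887816, 6710902791, 6710902792, 6710902799, 6710902800, 6710902801, 6710902808, 6710902809, 6710902810, 6710902811, 6710902812, 6710902813, 6710902814, 6710902815, 6710902816, 6710902817, 6710902818, 6710902819, 6710902820, 6710902821, 6710902822, 6710902823, 6710902919, 6710902920, 6710902927, 6710902928, 6710902929, 6710902936, 6710902937, 6710902938, 6710902939, 6710902940, 6710902941, 6710902942, 6710902943, 6710902944, 6710902945, 6710902946, 6710902947, 6710903046, 6710903047, 6710903048, 6710903055, 6710903056, 6710903057, 6710903064, 6710903065, 6710903066, 6710903067, 6710903068, 6710903069, 6710903070, 6710903071, 6710903175, 6710903176, 6710903183, 6710903184, 6710903185, 6710903192, 6710903193, 6710903194, 6710903195, 6710903303, 6710903304, 6710903311, 6710903312, 6710903313, 6710903430, 6710903431, 6710903432, 6710903439, 6710903440, 6710903441, 6710903559, 6710903560, 6710903567, 6710903687, 6710903688, 6710903814, 6710903815, 6710919175, 6710919176, 6710919183, 6710919184, 6710919185, 6710919192, 6710919193, 6710919194, 6710919303, 6710919304, 6710919311,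 6710919312, 6710919313, 6710919430, 6710919431, 6710919432, 6710919439, 6710919440, 6710919441, 6710919559, 6710919560, 6710919687, 6710919688, 6710935559, 6710935560, 6710935687, 6710935688]

theorem c3_18 : rowsF (par Q3 Q4 fm3 zr fe1 zr) r3_18 = true := by decide +kernel


end Vale.Agent.P236K.Cert.K53
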