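import Vale.Agent.P236K.Cert.Fast
import Vale.Agent.P236K.K53.N3
import Vale.Agent.P236K.K53.N4

/-!
# P236K / K53 / R3_19 : rows of degree 3 (generated)
-/

noncomputable section

namespace Vale.Agent.P236K.Cert.K53

/-- rows -/
noncomputable def r3_19 : List ℕ := [6710886453, 6710886454, 6710886455, 6710886456, 6710886457, 6710886458, 6710886577, 6710886578, 6710886579, 6710886580, 6710886581, 6710886582, 6710886701, 6710886702, 6710886703, 6710886704, 6710886705, 6710886706, 6710886825, 6710886826, 6710886827, 6710886828, 6710886829, 6710886830, 6710886949, 6710886950, 6710886951, 6710886952, 6710886953, 6710886954, 6710887073, 6710887074, 6710887075, 6710887076, 6710887077, 6710887078, 6710887197, 6710887198, 6710887199, 6710887200, 6710887201, 6710887202, 6710887321, 6710887322, 6710887323, 6710887324, 6710887325, 6710887326, 6710887448, 6710887449, 6710887450, 6710887569, 6710887695, 6710887696, 6710887697, 6710887943, 6710887944, 6710902824, 6710902825, 6710902826, 6710902827, 6710902828, 6710902829, 6710902948, 6710902949, 6710902950, 6710902951, 6710902952, 6710902953, 6710903072, 6710903073, 6710903074, 6710903075, 6710903076, 6710903077,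 6710903196, 6710903197, 6710903198, 6710903199, 6710903200, 6710903201, 6710903320, 6710903321, 6710903322, 6710903323, 6710903324, 6710903325, 6710903448, 6710903449, 6710903568, 6710903569, 6710903695, 6710903696, 6710903816, 6710919195, 6710919196, 6710919197, 6710919198, 6710919199, 6710919320, 6710919321, 6710919322, 6710919323, 6710919567, 6710919568, 6710919569, 6710919695, 6710919814, 6710919815, 6710919816, 6710935567, 6710935568, 6710935569, 6710935814, 6710935815, 6710935816]

theorem c3_19 : rowsF (par Q3 Q4 fm3 zr fe1 zr) r3_19 = true := by decide +kernel


end Vale.Agent.P236K.Cert.K53
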