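import Vale.Agent.P236K.Cert.Fast
import Vale.Agent.P236K.K53.N3
import Vale.Agent.P236K.K53.N4

/-!
# P236K / K53 / R3_2 : rows of degree 3 (generated)
-/

noncomputable section

namespace Vale.Agent.P236K.Cert.K53

/-- rows -/
noncomputable def r3_2 : List ℕ := [5905580094, 5905580095, 5905580096, 5905580097, 5905580098, 5905580218, 5905580219, 5905580220, 5905580221, 5905580222, 5905580342, 5905580343, 5905580344, 5905580345, 5905580346, 5905580466, 5905580467, 5905580468, 5905580469, 5905580470, 5905580590, 5905580591, 5905580592, 5905580593, 5905580594, 5905580714, 5905580715, 5905580716, 5905580717, 5905580718, 5905580838, 5905580839, 5905580840, 5905580841, 5905580842, 5905580962, 5905580963, 5905580964, 5905580965, 5905580966, 5905581086, 5905581087, 5905581088, 5905581089, 5905581090, 5905581210, 5905581211, 5905581212, 5905581213, 5905581214, 5905581334, 5905581335, 5905581336, 5905581337, 5905581338, 5905581458, 5905581459, 5905581460, 5905581461, 5905581462, 5905581582, 5905581583, 5905581584, 5905581585, 5905581586, 5905581706, 5905581707, 5905581708, 5905581709, 5905581710, 5905581830, 5905581831, 5905581832, 5905581834, 5905581954, 5905581956,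 5905581957, 5905581958, 5905596465, 5905596466, 5905596467, 5905596468, 5905596469, 5905596589, 5905596590, 5905596591, 5905596592, 5905596593, 5905596713, 5905596714, 5905596715, 5905596716, 5905596717, 5905596837, 5905596838, 5905596839, 5905596840, 5905596841, 5905596961, 5905596962, 5905596963, 5905596964, 5905596965, 5905597085, 5905597086, 5905597087, 5905597088, 5905597089, 5905597209, 5905597210, 5905597211, 5905597212, 5905597213, 5905597333, 5905597334, 5905597335, 5905597336, 5905597337, 5905597457, 5905597458, 5905597459, 5905597460, 5905597461, 5905612836, 5905612837, 5905612838, 5905612839, 5905612960, 5905612961, 5905612962, 5905612963, 5905613084, 5905613085, 5905613086, 5905613087, 5905613208, 5905613209, 5905613210, 5905613211, 5905613332, 5905613333, 5905613334, 5905613335, 5905613456, 5905613457, 5905613458, 5905613459, 5905629206, 5905629207, 5905629208, 5905629209, 5905629210, 5905629330, 5905629331, 5905629332, 5905629333, 5905629334, 5905629454, 5905629455, 5905629456, 5905629457, 5905629458, 5905629578, 5905629579, 5905629580, 5905629581, 5905629582, 5905629702, 5905629703, 5905629704, 5905629706, 5905629826, 5905629828, 5905629829,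 5905629830, 5905629954]

theorem c3_2 : rowsF (par Q3 Q4 fm3 zr fe1 zr) r3_2 = true := by decide +kernel


end Vale.Agent.P236K.Cert.K53
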