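import Vale.Agent.P236K.Cert.Fast
import Vale.Agent.P236K.K53.N3
import Vale.Agent.P236K.K53.N4

/-!
# P236K / K53 / R3_20 : rows of degree 3 (generated)
-/

noncomputable section

namespace Vale.Agent.P236K.Cert.K53

/-- rows -/
noncomputable def r3_20 : List ℕ := [6710886459, 6710886460, 6710886461, 6710886583, 6710886584, 6710886585, 6710886707, 6710886708, 6710886709, 6710886831, 6710886832, 6710886833, 6710886955, 6710886956, 6710886957, 6710887079, 6710887080, 6710887081, 6710887203, 6710887204, 6710887205, 6710887327, 6710887328, 6710887329, 6710887451, 6710887452, 6710887453, 6710887576, 6710887577, 6710887823, 6710887824, 6710887825, 6710888071, 6710888072, 6710902830, 6710902831, 6710902832, 6710902954, 6710902955, 6710902956, 6710903078, 6710903079, 6710903080, 6710903202, 6710903203, 6710903204, 6710903326, 6710903327, 6710903328, 6710903450, 6710903451, 6710903452, 6710903576, 6710903697, 6710903823, 6710903824, 6710919200, 6710919201, 6710919202, 6710919203, 6710919324, 6710919325, 6710919326, 6710919327, 6710919448, 6710919449, 6710919450, 6710919696, 6710919697, 6710935695, 6710935696, 6710935697, 6710935943, 6710935944]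

theorem c3_20 : rowsF (par Q3 Q4 fm3 zr fe1 zr) r3_20 = true := by decide +kernel


end Vale.Agent.P236K.Cert.K53
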