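import Vale.Agent.P236K.Cert.Fast
import Vale.Agent.P236K.K53.N3
import Vale.Agent.P236K.K53.N4

/-!
# P236K / K53 / R3_21 : rows of degree 3 (generated)
-/

noncomputable section

namespace Vale.Agent.P236K.Cert.K53

/-- rows -/
noncomputable def r3_21 : List ℕ := [6710886462, 6710886463, 6710886586, 6710886587, 6710886710, 6710886711, 6710886834, 6710886835, 6710886958, 6710886959, 6710887082, 6710887083, 6710887206, 6710887207, 6710887330, 6710887331, 6710887454, 6710887455, 6710887578, 6710887579, 6710887951, 6710888198, 6710888199, 6710902833, 6710902834, 6710902957, 6710902958, 6710903081, 6710903082, 6710903205, 6710903206, 6710903329, 6710903330, 6710903453, 6710903454, 6710903577, 6710903578, 6710903825, 6710919204, 6710919205, 6710919328, 6710919329, 6710919451, 6710919452, 6710919453, 6710919576, 6710919823, 6710919824, 6710935823, 6710936071]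

theorem c3_21 : rowsF (par Q3 Q4 fm3 zr fe1 zr) r3_21 = true := by decide +kernel


end Vale.Agent.P236K.Cert.K53
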