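import Vale.Agent.P236K.Cert.Fast
import Vale.Agent.P236K.K53.N3
import Vale.Agent.P236K.K53.N4

/-!
# P236K / K53 / R3_22 : rows of degree 3 (generated)
-/

noncomputable section

namespace Vale.Agent.P236K.Cert.K53

/-- rows -/
noncomputable def r3_22 : List ℕ := [6710886464, 6710886465, 6710886466, 6710886588, 6710886589, 6710886590, 6710886712, 6710886713, 6710886714, 6710886836, 6710886837, 6710886838, 6710886960, 6710886961, 6710886962, 6710887084, 6710887085, 6710887086, 6710887208, 6710887209, 6710887210, 6710887332, 6710887333, 6710887334, 6710887456, 6710887457, 6710887458, 6710887580, 6710887581, 6710887582, 6710887704, 6710887705, 6710887706, 6710887952, 6710887953, 6710888200, 6710902835, 6710902836, 6710902837, 6710902959, 6710902960, 6710902961, 6710903083, 6710903084, 6710903085, 6710903207, 6710903208, 6710903209, 6710903331, 6710903332, 6710903333, 6710903455, 6710903456, 6710903457, 6710903579, 6710903580, 6710903581, 6710903704, 6710903705, 6710919206, 6710919207, 6710919208, 6710919330, 6710919331, 6710919332, 6710919454, 6710919456, 6710919577, 6710919578, 6710919579, 6710919580, 6710919704, 6710935576, 6710935577,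 6710935578, 6710935824, 6710935825, 6710936072, 6710936198]

theorem c3_22 : rowsF (par Q3 Q4 fm3 zr fe1 zr) r3_22 = true := by decide +kernel


end Vale.Agent.P236K.Cert.K53
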