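import Vale.Agent.P236K.Cert.Fast
import Vale.Agent.P236K.K53.N3
import Vale.Agent.P236K.K53.N4

/-!
# P236K / K53 / R3_24 : rows of degree 3 (generated)
-/

noncomputable section

namespace Vale.Agent.P236K.Cert.K53

/-- rows -/
noncomputable def r3_24 : List ℕ := [6710886475, 6710886476, 6710886477, 6710886478, 6710886599, 6710886600, 6710886601, 6710886723, 6710886724, 6710886725, 6710886847, 6710886848, 6710886849, 6710886850, 6710886971, 6710886972, 6710886973, 6710887095, 6710887096, 6710887097, 6710887219, 6710887220, 6710887222, 6710887343, 6710887344, 6710887467, 6710887591, 6710887592, 6710887593, 6710887715, 6710887716, 6710887717, 6710887839, 6710887840, 6710887963, 6710887964, 6710887965, 6710888088, 6710935587, 6710935588, 6710935589, 6710935590, 6710935591, 6710935711, 6710935712, 6710935835, 6710935836, 6710935837, 6710935960, 6710935961, 6710936207, 6710936208, 6979321874, 6979321875, 6979321876, 6979321877, 6979321878, 6979321879, 6979321880, 6979321881, 6979321882, 6979321885, 6979321887, 6979321888, 6979321890, 6979321891, 6979321892, 6979321893, 6979321894, 6979321895, 6979321896, 6979321897, 6979321898, 6979321899, 6979321900, 6979321901, 6979321902,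 6979321903, 6979321904, 6979321905, 6979321906, 6979321907, 6979321908, 6979322002, 6979322003, 6979322004, 6979322005, 6979322006, 6979322007, 6979322008, 6979322009, 6979322010, 6979322013, 6979322015, 6979322016, 6979322018, 6979322019, 6979322020, 6979322021, 6979322022, 6979322023, 6979322024, 6979322025, 6979322026, 6979322027, 6979322028, 6979322029, 6979322030, 6979322031, 6979322032, 6979322130, 6979322131, 6979322132, 6979322133, 6979322134, 6979322135, 6979322136, 6979322137, 6979322138, 6979322140, 6979322141, 6979322143, 6979322144, 6979322146, 6979322147, 6979322148, 6979322149, 6979322150, 6979322151, 6979322152, 6979322153, 6979322154, 6979322155, 6979322156, 6979322258, 6979322259, 6979322260, 6979322261, 6979322262, 6979322263, 6979322264, 6979322265, 6979322266, 6979322269, 6979322271, 6979322272, 6979322274, 6979322275, 6979322276, 6979322277, 6979322278, 6979322279, 6979322280, 6979322386, 6979322387, 6979322388, 6979322389, 6979322390, 6979322391, 6979322392, 6979322393, 6979322394, 6979322397, 6979322399, 6979322400, 6979322402, 6979322403, 6979322404, 6979322514, 6979322515, 6979322516, 6979322517, 6979322518, 6979322519, 6979322520, 6979322521,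 6979322522, 6979322524, 6979322525, 6979322527, 6979322528, 6979322642, 6979322643, 6979322644, 6979322645, 6979322646, 6979322647, 6979322648, 6979322649, 6979322650, 6979322770, 6979322771, 6979322772, 6979322773, 6979322774, 6979322775, 6979322776, 6979322898, 6979322899, 6979322900, 6979338258, 6979338259, 6979338260, 6979338261, 6979338262, 6979338263, 6979338264, 6979338265, 6979338266, 6979338269, 6979338271, 6979338272, 6979338274, 6979338275, 6979338276, 6979338277, 6979338278, 6979338279, 6979338386, 6979338387, 6979338388, 6979338389, 6979338390, 6979338391, 6979338392, 6979338393, 6979338394, 6979338397, 6979338399, 6979338400, 6979338402, 6979338403, 6979338514, 6979338515, 6979338516, 6979338517, 6979338518, 6979338519, 6979338520, 6979338521, 6979338522, 6979338524, 6979338525, 6979338527, 6979338642, 6979338643, 6979338644, 6979338645, 6979338646, 6979338647, 6979338648, 6979338649, 6979338650, 6979338770, 6979338771, 6979338772, 6979338773, 6979338774, 6979338775, 6979338898, 6979338899, 6979354642, 6979354643, 6979354644, 6979354645, 6979354646, 6979354647, 6979354648, 6979354649, 6979354770, 6979354771, 6979354772, 6979354773]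

theorem c3_24 : rowsF (par Q3 Q4 fm3 zr fe1 zr) r3_24 = true := by decide +kernel


end Vale.Agent.P236K.Cert.K53
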