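import Vale.Agent.P236K.Cert.Fast
import Vale.Agent.P236K.K53.N3
import Vale.Agent.P236K.K53.N4

/-!
# P236K / K53 / R3_25 : rows of degree 3 (generated)
-/

noncomputable section

namespace Vale.Agent.P236K.Cert.K53

/-- rows -/
noncomputable def r3_25 : List ℕ := [6979321909, 6979321910, 6979321911, 6979321912, 6979321913, 6979321914, 6979321915, 6979321916, 6979322033, 6979322034, 6979322035, 6979322036, 6979322037, 6979322038, 6979322039, 6979322040, 6979322157, 6979322158, 6979322159, 6979322160, 6979322161, 6979322162, 6979322163, 6979322164, 6979322281, 6979322282, 6979322283, 6979322284, 6979322285, 6979322286, 6979322287, 6979322288, 6979322405, 6979322406, 6979322407, 6979322408, 6979322409, 6979322410, 6979322411, 6979322412, 6979322530, 6979322531, 6979322532, 6979322533, 6979322534, 6979322535, 6979322536, 6979322653, 6979322655, 6979322656, 6979322658, 6979322659, 6979322660, 6979322777, 6979322778, 6979322781, 6979322783, 6979322784, 6979322901, 6979322902, 6979322903, 6979322904, 6979322905, 6979322906, 6979322908, 6979323026, 6979323027, 6979323028, 6979323029, 6979323030, 6979323031, 6979323032, 6979323154, 6979323155, 6979323156, 6979338280,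 6979338281, 6979338282, 6979338283, 6979338284, 6979338285, 6979338286, 6979338287, 6979338404, 6979338405, 6979338406, 6979338407, 6979338408, 6979338409, 6979338410, 6979338411, 6979338528, 6979338530, 6979338531, 6979338532, 6979338533, 6979338534, 6979338535, 6979338653, 6979338655, 6979338656, 6979338658, 6979338659, 6979338776, 6979338777, 6979338778, 6979338781, 6979338783, 6979338900, 6979338901, 6979338902, 6979338903, 6979338904, 6979338905, 6979338906, 6979339026, 6979339027, 6979339028, 6979339029, 6979339030, 6979339031, 6979339154, 6979339155, 6979354650, 6979354653, 6979354655, 6979354656, 6979354658, 6979354774, 6979354775, 6979354776, 6979354777, 6979354778, 6979354781, 6979354898, 6979354899, 6979354900, 6979354901, 6979354902, 6979354903, 6979354904, 6979354905, 6979355026, 6979355027, 6979355028, 6979355029, 6979371026, 6979371027, 6979371028]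

theorem c3_25 : rowsF (par Q3 Q4 fm3 zr fe1 zr) r3_25 = true := by decide +kernel


end Vale.Agent.P236K.Cert.K53
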