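import Vale.Agent.P236K.Cert.Fast
import Vale.Agent.P236K.K53.N3
import Vale.Agent.P236K.K53.N4

/-!
# P236K / K53 / R3_26 : rows of degree 3 (generated)
-/

noncomputable section

namespace Vale.Agent.P236K.Cert.K53

/-- rows -/
noncomputable def r3_26 : List ℕ := [6979321917, 6979321918, 6979321919, 6979321920, 6979322041, 6979322042, 6979322043, 6979322044, 6979322165, 6979322166, 6979322167, 6979322168, 6979322289, 6979322290, 6979322291, 6979322292, 6979322413, 6979322414, 6979322415, 6979322416, 6979322537, 6979322538, 6979322539, 6979322540, 6979322661, 6979322662, 6979322663, 6979322664, 6979322786, 6979322787, 6979322788, 6979322909, 6979322911, 6979322912, 6979323033, 6979323034, 6979323157, 6979323158, 6979323159, 6979323160, 6979323282, 6979323283, 6979323284, 6979338288, 6979338289, 6979338290, 6979338291, 6979338412, 6979338413, 6979338414, 6979338415, 6979338536, 6979338537, 6979338538, 6979338539, 6979338660, 6979338661, 6979338662, 6979338663, 6979338784, 6979338786, 6979338787, 6979338908, 6979338909, 6979339032, 6979339033, 6979339034, 6979339156, 6979339157, 6979339158, 6979339282, 6979354659, 6979354660, 6979354661,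 6979354783, 6979354784, 6979354908, 6979354909, 6979355030, 6979355031, 6979355032, 6979355033, 6979355154, 6979355155, 6979355156, 6979355157, 6979371029, 6979371030, 6979371031, 6979371032, 6979371154, 6979371155, 6979371156]

theorem c3_26 : rowsF (par Q3 Q4 fm3 zr fe1 zr) r3_26 = true := by decide +kernel


end Vale.Agent.P236K.Cert.K53
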