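import Vale.Agent.P236K.Cert.Fast
import Vale.Agent.P236K.K53.N3
import Vale.Agent.P236K.K53.N4

/-!
# P236K / K53 / R3_27 : rows of degree 3 (generated)
-/

noncomputable section

namespace Vale.Agent.P236K.Cert.K53

/-- rows -/
noncomputable def r3_27 : List ℕ := [6979321921, 6979321922, 6979321923, 6979321924, 6979321925, 6979322045, 6979322046, 6979322047, 6979322048, 6979322049, 6979322169, 6979322170, 6979322171, 6979322172, 6979322173, 6979322293, 6979322294, 6979322295, 6979322296, 6979322297, 6979322417, 6979322418, 6979322419, 6979322420, 6979322421, 6979322541, 6979322542, 6979322543, 6979322544, 6979322665, 6979322666, 6979322667, 6979322668, 6979322789, 6979322790, 6979322791, 6979322792, 6979322914, 6979322915, 6979322916, 6979323037, 6979323039, 6979323040, 6979323161, 6979323162, 6979323285, 6979323286, 6979323287, 6979323288, 6979323410, 6979323411, 6979323412, 6979338292, 6979338293, 6979338416, 6979338417, 6979338540, 6979338541, 6979338664, 6979338788, 6979338911, 6979339283, 6979354662, 6979354663, 6979354664, 6979354786, 6979354787, 6979354788, 6979354911, 6979355034, 6979355158, 6979355282, 6979371033, 6979371034,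 6979371037, 6979371157, 6979371158, 6979371159, 6979371160, 6979371161, 6979371282, 6979371283, 6979371284, 6979371285]

theorem c3_27 : rowsF (par Q3 Q4 fm3 zr fe1 zr) r3_27 = true := by decide +kernel


end Vale.Agent.P236K.Cert.K53
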