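import Vale.Agent.P236K.Cert.Fast
import Vale.Agent.P236K.K53.N3
import Vale.Agent.P236K.K53.N4

/-!
# P236K / K53 / R3_3 : rows of degree 3 (generated)
-/

noncomputable section

namespace Vale.Agent.P236K.Cert.K53

/-- rows -/
noncomputable def r3_3 : List ℕ := [5905580099, 5905580100, 5905580101, 5905580102, 5905580223, 5905580224, 5905580225, 5905580226, 5905580347, 5905580348, 5905580349, 5905580350, 5905580471, 5905580472, 5905580473, 5905580474, 5905580595, 5905580596, 5905580597, 5905580598, 5905580719, 5905580720, 5905580721, 5905580722, 5905580843, 5905580844, 5905580845, 5905580846, 5905580967, 5905580968, 5905580969, 5905580970, 5905581091, 5905581092, 5905581093, 5905581094, 5905581215, 5905581216, 5905581217, 5905581218, 5905581339, 5905581340, 5905581341, 5905581342, 5905581463, 5905581464, 5905581465, 5905581466, 5905581587, 5905581588, 5905581589, 5905581590, 5905581711, 5905581712, 5905581713, 5905581714, 5905581835, 5905581836, 5905581837, 5905581838, 5905581959, 5905581960, 5905581962, 5905596470, 5905596471, 5905596472, 5905596473, 5905596594, 5905596595, 5905596596, 5905596597, 5905596718, 5905596719, 5905596720, 5905596721,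 5905596842, 5905596843, 5905596844, 5905596845, 5905596966, 5905596967, 5905596968, 5905596969, 5905597090, 5905597091, 5905597092, 5905597093, 5905597214, 5905597215, 5905597216, 5905597217, 5905597338, 5905597339, 5905597340, 5905597462, 5905597464, 5905612840, 5905612841, 5905612842, 5905612843, 5905612844, 5905612964, 5905612965, 5905612966, 5905612967, 5905613088, 5905613089, 5905613090, 5905613212, 5905613213, 5905613214, 5905613215, 5905613336, 5905613337, 5905613338, 5905613339, 5905613460, 5905613461, 5905613462, 5905629211, 5905629212, 5905629213, 5905629214, 5905629335, 5905629336, 5905629337, 5905629338, 5905629459, 5905629460, 5905629461, 5905629462, 5905629583, 5905629584, 5905629585, 5905629586, 5905629707, 5905629708, 5905629709, 5905629710, 5905629831, 5905629832, 5905629834, 5905629956, 5905629957, 5905629958]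

theorem c3_3 : rowsF (par Q3 Q4 fm3 zr fe1 zr) r3_3 = true := by decide +kernel


end Vale.Agent.P236K.Cert.K53
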