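import Vale.Agent.P236K.Cert.Fast
import Vale.Agent.P236K.K53.N3
import Vale.Agent.P236K.K53.N4

/-!
# P236K / K53 / R3_30 : rows of degree 3 (generated)
-/

noncomputable section

namespace Vale.Agent.P236K.Cert.K53

/-- rows -/
noncomputable def r3_30 : List ℕ := [7247757366, 7247757367, 7247757368, 7247757369, 7247757370, 7247757371, 7247757490, 7247757491, 7247757492, 7247757493, 7247757494, 7247757495, 7247757614, 7247757615, 7247757616, 7247757617, 7247757618, 7247757619, 7247757738, 7247757739, 7247757740, 7247757741, 7247757742, 7247757743, 7247757862, 7247757863, 7247757864, 7247757865, 7247757866, 7247757867, 7247757986, 7247757987, 7247757988, 7247757989, 7247757990, 7247757991, 7247758110, 7247758111, 7247758112, 7247758113, 7247758114, 7247758115, 7247758234, 7247758235, 7247758236, 7247758237, 7247758238, 7247758239, 7247758358, 7247758359, 7247758360, 7247758361, 7247758362, 7247758363, 7247758482, 7247758483, 7247758484, 7247758485, 7247758486, 7247758487, 7247758606, 7247758607, 7247758608, 7247758609, 7247758610, 7247758611, 7247758730, 7247758731, 7247758732, 7247758733, 7247758734, 7247758735, 7247758854, 7247758855, 7247758856, 7247758857,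 7247758858, 7247758859, 7247758979, 7247758980, 7247758981, 7247758982, 7247758983, 7247759107, 7247773737, 7247773738, 7247773739, 7247773740, 7247773741, 7247773742, 7247773861, 7247773862, 7247773863, 7247773864, 7247773865, 7247773866, 7247773985, 7247773986, 7247773987, 7247773988, 7247773989, 7247773990, 7247774109, 7247774110, 7247774111, 7247774112, 7247774113, 7247774233, 7247774234, 7247774235, 7247774236, 7247774237, 7247774357, 7247774358, 7247774359, 7247774360, 7247774361, 7247774481, 7247774482, 7247774483, 7247774484, 7247774485, 7247774605, 7247774606, 7247774607, 7247774608, 7247774609, 7247774729, 7247774730, 7247774731, 7247774732, 7247774733, 7247790108, 7247790109, 7247790110, 7247790111, 7247790112, 7247790232, 7247790233, 7247790234, 7247790235, 7247790236, 7247790356, 7247790357, 7247790358, 7247790359, 7247790360, 7247790479, 7247790480, 7247790481, 7247790482, 7247790483, 7247790484, 7247790603, 7247790604, 7247790605, 7247790606, 7247790607, 7247790608, 7247790727, 7247790728, 7247790729, 7247790730, 7247790731, 7247790732, 7247806478, 7247806479, 7247806480, 7247806481, 7247806482, 7247806483, 7247806602, 7247806603, 7247806604,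 7247806605, 7247806606, 7247806607, 7247806726, 7247806727, 7247806728, 7247806729, 7247806730, 7247806731, 7247806851, 7247806852, 7247806853, 7247806854, 7247806855, 7247806979]

theorem c3_30 : rowsF (par Q3 Q4 fm3 zr fe1 zr) r3_30 = true := by decide +kernel


end Vale.Agent.P236K.Cert.K53
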