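import Vale.Agent.P236K.Cert.Fast
import Vale.Agent.P236K.K53.N3
import Vale.Agent.P236K.K53.N4

/-!
# P236K / K53 / R3_32 : rows of degree 3 (generated)
-/

noncomputable section

namespace Vale.Agent.P236K.Cert.K53

/-- rows -/
noncomputable def r3_32 : List ℕ := [7516192802, 7516192803, 7516192807, 7516192808, 7516192809, 7516192810, 7516192811, 7516192812, 7516192813, 7516192814, 7516192815, 7516192816, 7516192817, 7516192818, 7516192819, 7516192820, 7516192821, 7516192822, 7516192823, 7516192824, 7516192927, 7516192928, 7516192929, 7516192930, 7516192931, 7516192934, 7516192935, 7516192936, 7516192937, 7516192938, 7516192939, 7516192940, 7516192941, 7516192942, 7516192943, 7516192944, 7516192945, 7516192946, 7516192947, 7516192948, 7516193050, 7516193054, 7516193055, 7516193056, 7516193057, 7516193058, 7516193059, 7516193062, 7516193063, 7516193064, 7516193065, 7516193066, 7516193067, 7516193068, 7516193069, 7516193070, 7516193071, 7516193072, 7516193174, 7516193175, 7516193176, 7516193177, 7516193178, 7516193183, 7516193184, 7516193185, 7516193186, 7516193187, 7516193191, 7516193192, 7516193193, 7516193194, 7516193195, 7516193196, 7516193298, 7516193299,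 7516193300, 7516193301, 7516193302, 7516193303, 7516193304, 7516193305, 7516193306, 7516193311, 7516193312, 7516193313, 7516193314, 7516193315, 7516193318, 7516193319, 7516193320, 7516193426, 7516193427, 7516193428, 7516193429, 7516193430, 7516193431, 7516193432, 7516193433, 7516193434, 7516193438, 7516193439, 7516193440, 7516193441, 7516193442, 7516193443, 7516193554, 7516193555, 7516193556, 7516193557, 7516193558, 7516193559, 7516193560, 7516193561, 7516193562, 7516193567, 7516193568, 7516193682, 7516193683, 7516193684, 7516193685, 7516193686, 7516193687, 7516193688, 7516193689, 7516193690, 7516193810, 7516193811, 7516193812, 7516193813, 7516193814, 7516193815, 7516193816, 7516193938, 7516193939, 7516193940, 7516209173, 7516209174, 7516209175, 7516209176, 7516209177, 7516209178, 7516209183, 7516209184, 7516209185, 7516209186, 7516209187, 7516209191, 7516209192, 7516209193, 7516209194, 7516209195, 7516209298, 7516209299, 7516209300, 7516209301, 7516209302, 7516209303, 7516209304, 7516209305, 7516209306, 7516209311, 7516209312, 7516209313, 7516209314, 7516209315, 7516209318, 7516209319, 7516209426, 7516209427, 7516209428, 7516209429, 7516209430, 7516209431, 7516209432,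 7516209433, 7516209434, 7516209438, 7516209439, 7516209440, 7516209441, 7516209442, 7516209554, 7516209555, 7516209556, 7516209557, 7516209558, 7516209559, 7516209560, 7516209561, 7516209562, 7516209682, 7516209683, 7516209684, 7516209685, 7516209686, 7516209687, 7516209688, 7516209689, 7516209690, 7516209810, 7516209811, 7516209812, 7516209813, 7516209814, 7516209938, 7516225554, 7516225555, 7516225556, 7516225557, 7516225558, 7516225559, 7516225560, 7516225561, 7516225562, 7516225682, 7516225683, 7516225684, 7516225685, 7516225686, 7516225687, 7516225688, 7516225689, 7516225810, 7516225811, 7516225812, 7516225813]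

theorem c3_32 : rowsF (par Q3 Q4 fm3 zr fe1 zr) r3_32 = true := by decide +kernel


end Vale.Agent.P236K.Cert.K53
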