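import Vale.Agent.P236K.Cert.Fast
import Vale.Agent.P236K.K53.N3
import Vale.Agent.P236K.K53.N4

/-!
# P236K / K53 / R3_33 : rows of degree 3 (generated)
-/

noncomputable section

namespace Vale.Agent.P236K.Cert.K53

/-- rows -/
noncomputable def r3_33 : List ℕ := [7516192825, 7516192826, 7516192827, 7516192828, 7516192829, 7516192949, 7516192950, 7516192951, 7516192952, 7516192953, 7516193073, 7516193074, 7516193075, 7516193076, 7516193077, 7516193197, 7516193198, 7516193199, 7516193200, 7516193201, 7516193321, 7516193322, 7516193323, 7516193324, 7516193325, 7516193446, 7516193447, 7516193448, 7516193449, 7516193569, 7516193570, 7516193571, 7516193695, 7516193696, 7516193817, 7516193818, 7516193941, 7516193942, 7516193943, 7516193944, 7516194066, 7516194067, 7516194068, 7516209196, 7516209197, 7516209198, 7516209199, 7516209320, 7516209321, 7516209322, 7516209323, 7516209443, 7516209446, 7516209447, 7516209567, 7516209568, 7516209569, 7516209570, 7516209815, 7516209816, 7516209817, 7516209939, 7516209940, 7516209941, 7516225567, 7516225568, 7516225569, 7516225570, 7516225690, 7516225814, 7516225816, 7516225938, 7516225939, 7516225940,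 7516225941, 7516241938, 7516241939, 7516241940, 7516241941]

theorem c3_33 : rowsF (par Q3 Q4 fm3 zr fe1 zr) r3_33 = true := by decide +kernel


end Vale.Agent.P236K.Cert.K53
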