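import Vale.Agent.P236K.Cert.Fast
import Vale.Agent.P236K.K53.N3
import Vale.Agent.P236K.K53.N4

/-!
# P236K / K53 / R3_35 : rows of degree 3 (generated)
-/

noncomputable section

namespace Vale.Agent.P236K.Cert.K53

/-- rows -/
noncomputable def r3_35 : List ℕ := [7784628264, 7784628265, 7784628266, 7784628267, 7784628268, 7784628269, 7784628270, 7784628271, 7784628272, 7784628273, 7784628274, 7784628388, 7784628389, 7784628390, 7784628391, 7784628392, 7784628393, 7784628394, 7784628395, 7784628396, 7784628397, 7784628398, 7784628512, 7784628513, 7784628514, 7784628515, 7784628516, 7784628517, 7784628518, 7784628519, 7784628520, 7784628521, 7784628522, 7784628639, 7784628640, 7784628641, 7784628642, 7784628643, 7784628644, 7784628645, 7784628646, 7784628760, 7784628761, 7784628762, 7784628766, 7784628767, 7784628768, 7784628769, 7784628770, 7784628884, 7784628885, 7784628886, 7784628887, 7784628888, 7784628889, 7784628890, 7784628894, 7784629008, 7784629009, 7784629010, 7784629011, 7784629012, 7784629013, 7784629014, 7784629015, 7784629016, 7784629017, 7784629018, 7784629132, 7784629133, 7784629134, 7784629135, 7784629136, 7784629137, 7784629138, 7784629139,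 7784629140, 7784629141, 7784629142, 7784629256, 7784629257, 7784629258, 7784629259, 7784629260, 7784629261, 7784629262, 7784629263, 7784629264, 7784629265, 7784629266, 7784629381, 7784629382, 7784629383, 7784629384, 7784629385, 7784629386, 7784629387, 7784629388, 7784629389, 7784629390, 7784629507, 7784629508, 7784629509, 7784629510, 7784629511, 7784629512, 7784629513, 7784629514, 7784629635, 7784629636, 7784629637, 7784629638, 7784644639, 7784644640, 7784644641, 7784644642, 7784644643, 7784644644, 7784644645, 7784644759, 7784644760, 7784644761, 7784644762, 7784644766, 7784644767, 7784644768, 7784644769, 7784644883, 7784644884, 7784644885, 7784644886, 7784644887, 7784644888, 7784644889, 7784644890, 7784645007, 7784645008, 7784645009, 7784645010, 7784645011, 7784645012, 7784645013, 7784645014, 7784645015, 7784645016, 7784645017, 7784645131, 7784645132, 7784645133, 7784645134, 7784645135, 7784645136, 7784645137, 7784645138, 7784645139, 7784645140, 7784645141, 7784645255, 7784645256, 7784645257, 7784645258, 7784645259, 7784645260, 7784645261, 7784645262, 7784645263, 7784645264, 7784645265, 7784645381, 7784645382, 7784645383, 7784645384, 7784645385, 7784645386, 7784645387,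 7784645388, 7784645389, 7784645507, 7784645508, 7784645509, 7784645510, 7784645511, 7784645512, 7784645513, 7784645635, 7784645636, 7784645637, 7784661006, 7784661007, 7784661008, 7784661009, 7784661010, 7784661011, 7784661012, 7784661013, 7784661014, 7784661015, 7784661129, 7784661130, 7784661131, 7784661132, 7784661133, 7784661134, 7784661135, 7784661136, 7784661137, 7784661138, 7784661139, 7784661253, 7784661254, 7784661255, 7784661256, 7784661257, 7784661258, 7784661259, 7784661260, 7784661261, 7784661262, 7784661263, 7784661381, 7784661382, 7784661383, 7784661384, 7784661385, 7784661386, 7784661387, 7784661507, 7784661508, 7784661509, 7784661510, 7784661511, 7784661635, 7784677381, 7784677382, 7784677383, 7784677384, 7784677385, 7784677386, 7784677507, 7784677508, 7784677509, 7784677510]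

theorem c3_35 : rowsF (par Q3 Q4 fm3 zr fe1 zr) r3_35 = true := by decide +kernel


end Vale.Agent.P236K.Cert.K53
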