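import Vale.Agent.P236K.Cert.Fast
import Vale.Agent.P236K.K53.N3
import Vale.Agent.P236K.K53.N4

/-!
# P236K / K53 / R3_37 : rows of degree 3 (generated)
-/

noncomputable section

namespace Vale.Agent.P236K.Cert.K53

/-- rows -/
noncomputable def r3_37 : List ℕ := [7784628279, 7784628280, 7784628281, 7784628282, 7784628283, 7784628284, 7784628285, 7784628286, 7784628287, 7784628288, 7784628289, 7784628403, 7784628404, 7784628405, 7784628406, 7784628407, 7784628408, 7784628409, 7784628410, 7784628411, 7784628412, 7784628413, 7784628527, 7784628528, 7784628529, 7784628530, 7784628531, 7784628532, 7784628533, 7784628534, 7784628535, 7784628536, 7784628537, 7784628651, 7784628652, 7784628653, 7784628654, 7784628655, 7784628656, 7784628657, 7784628658, 7784628659, 7784628660, 7784628661, 7784628775, 7784628776, 7784628777, 7784628778, 7784628779, 7784628780, 7784628781, 7784628782, 7784628783, 7784628784, 7784628785, 7784628899, 7784628900, 7784628901, 7784628902, 7784628903, 7784628904, 7784628905, 7784628906, 7784628907, 7784628908, 7784628909, 7784629023, 7784629024, 7784629025, 7784629026, 7784629027, 7784629028, 7784629029, 7784629030, 7784629031, 7784629032,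 7784629033, 7784629150, 7784629151, 7784629152, 7784629153, 7784629154, 7784629155, 7784629156, 7784629271, 7784629272, 7784629273, 7784629274, 7784629278, 7784629279, 7784629280, 7784629395, 7784629396, 7784629397, 7784629398, 7784629399, 7784629400, 7784629401, 7784629402, 7784629519, 7784629520, 7784629521, 7784629522, 7784629523, 7784629524, 7784629525, 7784629526, 7784629527, 7784629528, 7784629643, 7784629644, 7784629645, 7784629646, 7784629647, 7784629648, 7784629649, 7784629650, 7784629651, 7784629767, 7784629768, 7784629769, 7784629770, 7784629771, 7784629772, 7784629773, 7784629774, 7784629775, 7784629776, 7784629891, 7784629892, 7784629893, 7784629894, 7784629895, 7784629896, 7784629897, 7784629898, 7784629899, 7784629900, 7784630019, 7784630020, 7784630021, 7784630022, 7784644650, 7784644651, 7784644652, 7784644774, 7784644775, 7784644776, 7784644898, 7784644899, 7784645023, 7784661023, 7784661516, 7784677391, 7784677392, 7784677393, 7784677394, 7784677395, 7784677396, 7784677397, 7784677398, 7784677399, 7784677400, 7784677401, 7784677515, 7784677516, 7784677517, 7784677518, 7784677519, 7784677520, 7784677521, 7784677522, 7784677523, 7784677524,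 7784677525, 7784677639, 7784677640, 7784677641, 7784677642, 7784677643, 7784677644, 7784677645, 7784677646, 7784677647, 7784677648, 7784677649, 7784677765, 7784677766, 7784677767, 7784677768, 7784677769, 7784677770, 7784677771, 7784677772, 7784677773, 7784677891, 7784677892, 7784677893, 7784677894, 7784677895, 7784677896, 7784678019, 7784678020, 7784678021]

theorem c3_37 : rowsF (par Q3 Q4 fm3 zr fe1 zr) r3_37 = true := by decide +kernel


end Vale.Agent.P236K.Cert.K53
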