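import Vale.Agent.P236K.Cert.Fast
import Vale.Agent.P236K.K53.N3
import Vale.Agent.P236K.K53.N4

/-!
# P236K / K53 / R3_39 : rows of degree 3 (generated)
-/

noncomputable section

namespace Vale.Agent.P236K.Cert.K53

/-- rows -/
noncomputable def r3_39 : List ℕ := [8053063730, 8053063731, 8053063732, 8053063733, 8053063735, 8053063736, 8053063854, 8053063855, 8053063856, 8053063857, 8053063858, 8053063859, 8053063860, 8053063978, 8053063979, 8053063980, 8053063981, 8053063982, 8053063983, 8053063984, 8053064102, 8053064103, 8053064104, 8053064105, 8053064106, 8053064107, 8053064108, 8053064226, 8053064227, 8053064228, 8053064229, 8053064230, 8053064231, 8053064232, 8053064351, 8053064352, 8053064354, 8053064355, 8053064356, 8053064474, 8053064476, 8053064477, 8053064479, 8053064598, 8053064599, 8053064600, 8053064601, 8053064602, 8053064722, 8053064723, 8053064724, 8053064725, 8053064726, 8053064727, 8053064846, 8053064847, 8053064848, 8053064849, 8053064850, 8053064851, 8053064970, 8053064971, 8053064972, 8053064973, 8053064974, 8053064975, 8053065097, 8053065098, 8053065099, 8053080101, 8053080102, 8053080103, 8053080104, 8053080105, 8053080106,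 8053080226, 8053080227, 8053080228, 8053080229, 8053080230, 8053080349, 8053080351, 8053080352, 8053080473, 8053080474, 8053080476, 8053080477, 8053080596, 8053080597, 8053080598, 8053080599, 8053080600, 8053080720, 8053080721, 8053080722, 8053080723, 8053080724, 8053080844, 8053080845, 8053080846, 8053080847, 8053080969, 8053080970, 8053080971, 8053096471, 8053096472, 8053096473, 8053096474, 8053096476, 8053096477, 8053096595, 8053096596, 8053096597, 8053096598, 8053096599, 8053096719, 8053096720, 8053096722, 8053096723, 8053096843, 8053096844, 8053096845, 8053096846, 8053096847, 8053096969, 8053096970, 8053096971, 8053112842, 8053112843, 8053112844, 8053112845, 8053112846, 8053112847, 8053112848, 8053112969, 8053112970, 8053112971, 8053112972]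

theorem c3_39 : rowsF (par Q3 Q4 fm3 zr fe1 zr) r3_39 = true := by decide +kernel


end Vale.Agent.P236K.Cert.K53
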