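import Vale.Agent.P236K.Cert.Fast
import Vale.Agent.P236K.K53.N3
import Vale.Agent.P236K.K53.N4

/-!
# P236K / K53 / R3_40 : rows of degree 3 (generated)
-/

noncomputable section

namespace Vale.Agent.P236K.Cert.K53

/-- rows -/
noncomputable def r3_40 : List ℕ := [8053063738, 8053063739, 8053063741, 8053063742, 8053063743, 8053063744, 8053063745, 8053063861, 8053063863, 8053063864, 8053063866, 8053063867, 8053063868, 8053063985, 8053063986, 8053063987, 8053063988, 8053063989, 8053063991, 8053063992, 8053063993, 8053064109, 8053064110, 8053064111, 8053064112, 8053064113, 8053064114, 8053064115, 8053064116, 8053064233, 8053064234, 8053064235, 8053064236, 8053064237, 8053064238, 8053064239, 8053064240, 8053064357, 8053064358, 8053064359, 8053064360, 8053064361, 8053064362, 8053064363, 8053064480, 8053064482, 8053064483, 8053064484, 8053064485, 8053064486, 8053064487, 8053064488, 8053064604, 8053064605, 8053064607, 8053064608, 8053064610, 8053064611, 8053064612, 8053064728, 8053064729, 8053064730, 8053064732, 8053064733, 8053064735, 8053064852, 8053064853, 8053064854, 8053064855, 8053064856, 8053064857, 8053064858, 8053064860, 8053064861, 8053064976, 8053064977,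 8053064978, 8053064979, 8053064980, 8053064981, 8053064982, 8053064983, 8053065100, 8053065101, 8053065102, 8053065103, 8053065104, 8053065106, 8053065107, 8053065225, 8053065226, 8053065227, 8053065228, 8053065229, 8053065230, 8053065231, 8053065353, 8053065354, 8053065355, 8053112849, 8053112850, 8053112851, 8053112852, 8053112853, 8053112854, 8053112855, 8053112856, 8053112973, 8053112974, 8053112975, 8053112976, 8053112977, 8053112978, 8053112979, 8053112980, 8053113097, 8053113098, 8053113100, 8053113101, 8053113102, 8053113225, 8053113226, 8053113227, 8053113228, 8321499156, 8321499157, 8321499158, 8321499159, 8321499160, 8321499161, 8321499162, 8321499181, 8321499182, 8321499183, 8321499284, 8321499285, 8321499286, 8321499287, 8321499288, 8321499289, 8321499290, 8321499411, 8321499412, 8321499413, 8321499414, 8321499415, 8321499416, 8321499417, 8321499418, 8321499540, 8321499541, 8321499542, 8321499543, 8321499544, 8321499545, 8321499546, 8321499668, 8321499669, 8321499670, 8321499671, 8321499672, 8321499673, 8321499674, 8321499795, 8321499796, 8321499797, 8321499798, 8321499799, 8321499800, 8321499801, 8321499802, 8321499924, 8321499925, 8321499926,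 8321499927, 8321515540, 8321515541, 8321515542, 8321515543, 8321515544, 8321515545, 8321515546, 8321515668, 8321515669, 8321515670, 8321515671, 8321515672, 8321515673, 8321515674, 8321515795, 8321515796, 8321515797, 8321515798, 8321515799, 8321515800, 8321515801, 8321515802, 8321515924, 8321515925, 8321531924]

theorem c3_40 : rowsF (par Q3 Q4 fm3 zr fe1 zr) r3_40 = true := by decide +kernel


end Vale.Agent.P236K.Cert.K53
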