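import Vale.Agent.P236K.Cert.Fast
import Vale.Agent.P236K.K53.N3
import Vale.Agent.P236K.K53.N4

/-!
# P236K / K53 / R3_41 : rows of degree 3 (generated)
-/

noncomputable section

namespace Vale.Agent.P236K.Cert.K53

/-- rows -/
noncomputable def r3_41 : List ℕ := [8321499184, 8321499185, 8321499186, 8321499187, 8321499188, 8321499189, 8321499309, 8321499310, 8321499311, 8321499312, 8321499313, 8321499314, 8321499315, 8321499316, 8321499317, 8321499437, 8321499438, 8321499439, 8321499440, 8321499928, 8321499929, 8321499930, 8321500052, 8321500053, 8321500054, 8321500055, 8321500056, 8321500057, 8321500058, 8321500179, 8321500180, 8321500181, 8321500182, 8321500183, 8321500184, 8321500308, 8321515926, 8321515927, 8321515928, 8321515929, 8321515930, 8321516052, 8321516053, 8321516054, 8321516055, 8321516056, 8321516179, 8321516180, 8321531925, 8321531926, 8321531927, 8321531928, 8321531929, 8321531930, 8321532052, 8321532053, 8321532054, 8321532055, 8321532179]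

theorem c3_41 : rowsF (par Q3 Q4 fm3 zr fe1 zr) r3_41 = true := by decide +kernel


end Vale.Agent.P236K.Cert.K53
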