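import Vale.Agent.P236K.Cert.Fast
import Vale.Agent.P236K.K53.N3
import Vale.Agent.P236K.K53.N4

/-!
# P236K / K53 / R3_42 : rows of degree 3 (generated)
-/

noncomputable section

namespace Vale.Agent.P236K.Cert.K53

/-- rows -/
noncomputable def r3_42 : List ℕ := [8321499196, 8321499197, 8321499198, 8321499324, 8321499441, 8321499442, 8321499443, 8321499444, 8321499445, 8321499565, 8321499566, 8321499567, 8321499568, 8321499569, 8321499570, 8321499571, 8321499693, 8321499694, 8321499695, 8321500185, 8321500186, 8321500309, 8321500310, 8321500311, 8321500312, 8321500313, 8321500314, 8321500436, 8321500437, 8321500438, 8321500439, 8321500563, 8321548308, 8321548309, 8321548310, 8321548311, 8321548312, 8321548436, 8589934603, 8589934606, 8589934609, 8589934610, 8589934611, 8589934612, 8589934613, 8589934614, 8589934615, 8589934616, 8589934617, 8589934618, 8589934622, 8589934623, 8589934624, 8589934625, 8589934626, 8589934627, 8589934628, 8589934629, 8589934630, 8589934631, 8589934632, 8589934633, 8589934634, 8589934635, 8589934636, 8589934731, 8589934734, 8589934737, 8589934738, 8589934739, 8589934740, 8589934741, 8589934742, 8589934743, 8589934744, 8589934745,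 8589934746, 8589934749, 8589934750, 8589934751, 8589934752, 8589934753, 8589934754, 8589934755, 8589934756, 8589934757, 8589934758, 8589934759, 8589934760, 8589934859, 8589934862, 8589934865, 8589934866, 8589934867, 8589934868, 8589934869, 8589934870, 8589934871, 8589934872, 8589934873, 8589934874, 8589934875, 8589934876, 8589934877, 8589934878, 8589934879, 8589934880, 8589934881, 8589934882, 8589934883, 8589934884, 8589934987, 8589934990, 8589934993, 8589934994, 8589934995, 8589934996, 8589934997, 8589934998, 8589934999, 8589935000, 8589935001, 8589935002, 8589935006, 8589935007, 8589935008, 8589935115, 8589935118, 8589935121, 8589935122, 8589935123, 8589935124, 8589935125, 8589935126, 8589935127, 8589935128, 8589935129, 8589935130, 8589935243, 8589935246, 8589935249, 8589935250, 8589935251, 8589935252, 8589935253, 8589935254, 8589935255, 8589935256, 8589935371, 8589935374, 8589935377, 8589935378, 8589935379, 8589935380, 8589935499, 8589935502, 8589935627, 8589950987, 8589950990, 8589950993, 8589950994, 8589950995, 8589950996, 8589950997, 8589950998, 8589950999, 8589951000, 8589951001, 8589951002, 8589951007, 8589951115, 8589951118, 8589951121, 8589951122,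 8589951123, 8589951124, 8589951125, 8589951126, 8589951127, 8589951128, 8589951129, 8589951130, 8589951243, 8589951246, 8589951249, 8589951250, 8589951251, 8589951252, 8589951253, 8589951254, 8589951371, 8589951374, 8589951377, 8589951378, 8589951499, 8589951502, 8589967371, 8589967374, 8589967377, 8589967499]

theorem c3_42 : rowsF (par Q3 Q4 fm3 zr fe1 zr) r3_42 = true := by decide +kernel


end Vale.Agent.P236K.Cert.K53
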