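import Vale.Agent.P236K.Cert.Fast
import Vale.Agent.P236K.K53.N3
import Vale.Agent.P236K.K53.N4

/-!
# P236K / K53 / R3_43 : rows of degree 3 (generated)
-/

noncomputable section

namespace Vale.Agent.P236K.Cert.K53

/-- rows -/
noncomputable def r3_43 : List ℕ := [8589934637, 8589934638, 8589934639, 8589934640, 8589934641, 8589934642, 8589934643, 8589934644, 8589934645, 8589934761, 8589934762, 8589934763, 8589934764, 8589934765, 8589934766, 8589934767, 8589934768, 8589934769, 8589934885, 8589934886, 8589934887, 8589934888, 8589934889, 8589934890, 8589934891, 8589934892, 8589934893, 8589935009, 8589935010, 8589935011, 8589935012, 8589935013, 8589935014, 8589935015, 8589935016, 8589935017, 8589935133, 8589935134, 8589935135, 8589935136, 8589935137, 8589935138, 8589935139, 8589935140, 8589935141, 8589935257, 8589935258, 8589935259, 8589935260, 8589935261, 8589935262, 8589935263, 8589935264, 8589935265, 8589935381, 8589935382, 8589935383, 8589935384, 8589935385, 8589935386, 8589935505, 8589935506, 8589935507, 8589935508, 8589935509, 8589935510, 8589935511, 8589935512, 8589935630, 8589935633, 8589935634, 8589935635, 8589935636, 8589935755, 8589935758,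 8589935883, 8589951008, 8589951009, 8589951010, 8589951011, 8589951012, 8589951013, 8589951133, 8589951134, 8589951135, 8589951136, 8589951137, 8589951255, 8589951256, 8589951257, 8589951258, 8589951259, 8589951260, 8589951261, 8589951379, 8589951380, 8589951381, 8589951382, 8589951383, 8589951384, 8589951505, 8589951506, 8589951507, 8589951508, 8589951627, 8589951630, 8589951755, 8589967379, 8589967380, 8589967381, 8589967382, 8589967383, 8589967502, 8589967505, 8589967506, 8589967507, 8589967627, 8589967630, 8589967755, 8589983755]

theorem c3_43 : rowsF (par Q3 Q4 fm3 zr fe1 zr) r3_43 = true := by decide +kernel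


end Vale.Agent.P236K.Cert.K53
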