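import Vale.Agent.P236K.Cert.Fast
import Vale.Agent.P236K.K53.N3
import Vale.Agent.P236K.K53.N4

/-!
# P236K / K53 / R3_44 : rows of degree 3 (generated)
-/

noncomputable section

namespace Vale.Agent.P236K.Cert.K53

/-- rows -/
noncomputable def r3_44 : List ℕ := [8589934646, 8589934647, 8589934648, 8589934649, 8589934650, 8589934651, 8589934652, 8589934770, 8589934771, 8589934772, 8589934773, 8589934774, 8589934775, 8589934894, 8589934895, 8589934896, 8589934897, 8589934898, 8589934899, 8589935018, 8589935019, 8589935020, 8589935021, 8589935022, 8589935023, 8589935024, 8589935142, 8589935143, 8589935144, 8589935145, 8589935146, 8589935147, 8589935266, 8589935267, 8589935268, 8589935269, 8589935270, 8589935271, 8589935390, 8589935391, 8589935392, 8589935393, 8589935394, 8589935395, 8589935396, 8589935513, 8589935514, 8589935517, 8589935518, 8589935519, 8589935637, 8589935638, 8589935639, 8589935640, 8589935641, 8589935643, 8589935761, 8589935762, 8589935763, 8589935764, 8589935765, 8589935766, 8589935767, 8589935886, 8589935889, 8589935890, 8589935891, 8589936011, 8589936014, 8589936139, 8589983758, 8589983761, 8589983762, 8589983763, 8589983764, 8589983765,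 8589983883, 8589983886, 8589984011, 8858370102, 8858370103, 8858370104, 8858370105, 8858370106, 8858370230, 9126805524, 9126805527, 9126805528, 9126805529, 9126805530, 9126805550, 9126805650, 9126805651, 9126805652, 9126805653, 9126805654, 9126805655, 9126805656, 9126805657, 9126805658, 9126805778, 9126805779, 9126805780, 9126805781, 9126805782, 9126805783, 9126805784, 9126805785, 9126805786, 9126805907, 9126805908, 9126805910, 9126805911, 9126805912, 9126805913, 9126805914, 9126806034, 9126806035, 9126806036, 9126806037, 9126806038, 9126806039, 9126806040, 9126806041, 9126806042, 9126806162, 9126806163, 9126806164, 9126806165, 9126806166, 9126806167, 9126806168, 9126806169, 9126806170, 9126806290, 9126806291, 9126806292, 9126806293, 9126821908, 9126821911, 9126821912, 9126821913, 9126821914, 9126822034, 9126822035, 9126822036, 9126822037, 9126822038, 9126822039, 9126822040, 9126822041, 9126822042, 9126822162, 9126822163, 9126822164, 9126822165, 9126822166, 9126822167, 9126822168, 9126822291, 9126822292]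

theorem c3_44 : rowsF (par Q3 Q4 fm3 zr fe1 zr) r3_44 = true := by decide +kernel


end Vale.Agent.P236K.Cert.K53
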