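import Vale.Agent.P236K.Cert.Fast
import Vale.Agent.P236K.K53.N3
import Vale.Agent.P236K.K53.N4

/-!
# P236K / K53 / R3_45 : rows of degree 3 (generated)
-/

noncomputable section

namespace Vale.Agent.P236K.Cert.K53

/-- rows -/
noncomputable def r3_45 : List ℕ := [9126805551, 9126805552, 9126805553, 9126805554, 9126805555, 9126805556, 9126805557, 9126805677, 9126805678, 9126805679, 9126805680, 9126805681, 9126805682, 9126805683, 9126805684, 9126805685, 9126805805, 9126805806, 9126805807, 9126805808, 9126805809, 9126805933, 9126805934, 9126806294, 9126806295, 9126806296, 9126806297, 9126806298, 9126806418, 9126806419, 9126806420, 9126806421, 9126806422, 9126806423, 9126806424, 9126806425, 9126806426, 9126806546, 9126806547, 9126806548, 9126806549, 9126806550, 9126806551, 9126806676, 9126806678, 9126806802, 9126822169, 9126822170, 9126822294, 9126822418, 9126838292, 9126838294, 9126838418, 9395241014, 9395241015, 9395241016, 9395241017, 9663676470, 9663676471, 10200547337, 10200547338, 10200547339, 10200547340, 10200547341, 10200547342, 10200547343, 10200547344, 10200547345, 10200547346, 10200547347, 10200547348, 10200547349, 10200547350, 10200547351, 10200547352, 10200547353, 10200547354, 10200547355,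 10200547356, 10200547357, 10200547358, 10200547359, 10200547360, 10200547465, 10200547466, 10200547467, 10200547468, 10200547469, 10200547470, 10200547471, 10200547472, 10200547473, 10200547474, 10200547475, 10200547476, 10200547477, 10200547478, 10200547479, 10200547480, 10200547481, 10200547482, 10200547483, 10200547484, 10200547593, 10200547594, 10200547595, 10200547596, 10200547597, 10200547598, 10200547599, 10200547600, 10200547601, 10200547602, 10200547603, 10200547604, 10200547605, 10200547606, 10200547607, 10200547608, 10200547721, 10200547722, 10200547723, 10200547724, 10200547725, 10200547726, 10200547727, 10200547728, 10200547729, 10200547730, 10200547731, 10200547732, 10200547849, 10200547850, 10200547851, 10200547852, 10200547853, 10200547854, 10200547855, 10200547856, 10200547977, 10200547978, 10200547979, 10200563721, 10200563722, 10200563723, 10200563724, 10200563725, 10200563726, 10200563727, 10200563728, 10200563729, 10200563730, 10200563849, 10200563850, 10200563851, 10200563852, 10200563853, 10200563854, 10200563977, 10200563978]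

theorem c3_45 : rowsF (par Q3 Q4 fm3 zr fe1 zr) r3_45 = true := by decide +kernel


end Vale.Agent.P236K.Cert.K53
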