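import Vale.Agent.P236K.Cert.Fast
import Vale.Agent.P236K.K53.N3
import Vale.Agent.P236K.K53.N4

/-!
# P236K / K53 / R3_6 : rows of degree 3 (generated)
-/

noncomputable section

namespace Vale.Agent.P236K.Cert.K53

/-- rows -/
noncomputable def r3_6 : List ℕ := [6174015543, 6174015544, 6174015545, 6174015546, 6174015547, 6174015667, 6174015668, 6174015669, 6174015670, 6174015671, 6174015791, 6174015792, 6174015793, 6174015794, 6174015795, 6174015915, 6174015916, 6174015917, 6174015918, 6174015919, 6174016039, 6174016040, 6174016041, 6174016042, 6174016043, 6174016163, 6174016164, 6174016165, 6174016166, 6174016167, 6174016287, 6174016288, 6174016289, 6174016290, 6174016291, 6174016411, 6174016412, 6174016413, 6174016414, 6174016415, 6174016535, 6174016536, 6174016537, 6174016538, 6174016539, 6174016659, 6174016660, 6174016661, 6174016662, 6174016663, 6174016783, 6174016784, 6174016785, 6174016786, 6174016787, 6174016907, 6174016909, 6174016910, 6174016911, 6174017031, 6174017032, 6174017035, 6174017158, 6174017159, 6174031914, 6174031915, 6174031916, 6174031917, 6174031918, 6174032038, 6174032039, 6174032040, 6174032041, 6174032042, 6174032162, 6174032163,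 6174032164, 6174032165, 6174032166, 6174032286, 6174032287, 6174032288, 6174032289, 6174032290, 6174032410, 6174032411, 6174032412, 6174032413, 6174032414, 6174032534, 6174032535, 6174032536, 6174032537, 6174032538, 6174032657, 6174032658, 6174032659, 6174032660, 6174032661, 6174032662, 6174032781, 6174032782, 6174032783, 6174032784, 6174032785, 6174032786, 6174032907, 6174032909, 6174032910, 6174048284, 6174048285, 6174048286, 6174048287, 6174048288, 6174048289, 6174048408, 6174048409, 6174048410, 6174048411, 6174048412, 6174048413, 6174048532, 6174048533, 6174048534, 6174048535, 6174048536, 6174048537, 6174048656, 6174048657, 6174048658, 6174048659, 6174048660, 6174048661, 6174048781, 6174048782, 6174048783, 6174048784, 6174048785, 6174048904, 6174048907, 6174048909, 6174064655, 6174064656, 6174064657, 6174064658, 6174064659, 6174064779, 6174064781, 6174064782, 6174064783, 6174064903, 6174064904, 6174064907, 6174065030, 6174065031]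

theorem c3_6 : rowsF (par Q3 Q4 fm3 zr fe1 zr) r3_6 = true := by decide +kernel


end Vale.Agent.P236K.Cert.K53
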