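import Vale.Agent.P236K.Cert.Fast
import Vale.Agent.P236K.K53.N3
import Vale.Agent.P236K.K53.N4

/-!
# P236K / K53 / R3_7 : rows of degree 3 (generated)
-/

noncomputable section

namespace Vale.Agent.P236K.Cert.K53

/-- rows -/
noncomputable def r3_7 : List ℕ := [6174015548, 6174015549, 6174015550, 6174015551, 6174015672, 6174015673, 6174015674, 6174015675, 6174015796, 6174015797, 6174015798, 6174015799, 6174015920, 6174015921, 6174015922, 6174015923, 6174016044, 6174016045, 6174016046, 6174016047, 6174016168, 6174016169, 6174016170, 6174016171, 6174016292, 6174016293, 6174016294, 6174016295, 6174016416, 6174016417, 6174016418, 6174016419, 6174016540, 6174016541, 6174016542, 6174016543, 6174016664, 6174016665, 6174016666, 6174016667, 6174016788, 6174016789, 6174016790, 6174016791, 6174016912, 6174016913, 6174016914, 6174016915, 6174017037, 6174017038, 6174017039, 6174017160, 6174017163, 6174017286, 6174017287, 6174031919, 6174031920, 6174031921, 6174031922, 6174032043, 6174032044, 6174032045, 6174032046, 6174032167, 6174032168, 6174032169, 6174032170, 6174032291, 6174032292, 6174032293, 6174032294, 6174032415, 6174032416, 6174032417, 6174032418,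 6174032539, 6174032540, 6174032541, 6174032542, 6174032663, 6174032664, 6174032665, 6174032666, 6174032787, 6174032788, 6174032789, 6174032790, 6174032911, 6174032912, 6174032913, 6174032914, 6174048290, 6174048291, 6174048292, 6174048293, 6174048414, 6174048415, 6174048416, 6174048417, 6174048538, 6174048539, 6174048540, 6174048541, 6174048662, 6174048663, 6174048664, 6174048665, 6174048786, 6174048787, 6174048788, 6174048789, 6174048910, 6174048911, 6174048912, 6174048913, 6174064660, 6174064661, 6174064662, 6174064663, 6174064784, 6174064785, 6174064786, 6174064787, 6174064909, 6174064910, 6174064911, 6174065032, 6174065035, 6174065158, 6174065159]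

theorem c3_7 : rowsF (par Q3 Q4 fm3 zr fe1 zr) r3_7 = true := by decide +kernel


end Vale.Agent.P236K.Cert.K53
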