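import Vale.Agent.P236K.Cert.Fast
import Vale.Agent.P236K.K53.N3
import Vale.Agent.P236K.K53.N4

/-!
# P236K / K53 / R3_8 : rows of degree 3 (generated)
-/

noncomputable section

namespace Vale.Agent.P236K.Cert.K53

/-- rows -/
noncomputable def r3_8 : List ℕ := [6174015552, 6174015553, 6174015554, 6174015555, 6174015676, 6174015677, 6174015678, 6174015679, 6174015800, 6174015801, 6174015802, 6174015803, 6174015924, 6174015925, 6174015926, 6174015927, 6174016048, 6174016049, 6174016050, 6174016051, 6174016172, 6174016173, 6174016174, 6174016175, 6174016296, 6174016297, 6174016298, 6174016299, 6174016420, 6174016421, 6174016422, 6174016423, 6174016544, 6174016545, 6174016546, 6174016547, 6174016668, 6174016669, 6174016670, 6174016671, 6174016792, 6174016793, 6174016794, 6174016795, 6174016916, 6174016917, 6174016918, 6174016919, 6174017040, 6174017041, 6174017042, 6174017043, 6174017165, 6174017166, 6174017167, 6174017288, 6174017291, 6174017414, 6174017415, 6174031923, 6174031924, 6174031925, 6174031926, 6174032047, 6174032048, 6174032049, 6174032050, 6174032171, 6174032172, 6174032173, 6174032174, 6174032295, 6174032296, 6174032297, 6174032298,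 6174032419, 6174032420, 6174032421, 6174032422, 6174032543, 6174032544, 6174032545, 6174032546, 6174032667, 6174032668, 6174032669, 6174032670, 6174032791, 6174032792, 6174032793, 6174032794, 6174032915, 6174032916, 6174032917, 6174032918, 6174048294, 6174048295, 6174048296, 6174048297, 6174048418, 6174048419, 6174048420, 6174048421, 6174048542, 6174048543, 6174048544, 6174048545, 6174048666, 6174048668, 6174048790, 6174048791, 6174048792, 6174048914, 6174048915, 6174048916, 6174064664, 6174064665, 6174064666, 6174064667, 6174064788, 6174064789, 6174064790, 6174064791, 6174064912, 6174064913, 6174064914, 6174064915, 6174065037, 6174065038, 6174065039, 6174065160, 6174065163, 6174065286, 6174065287]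

theorem c3_8 : rowsF (par Q3 Q4 fm3 zr fe1 zr) r3_8 = true := by decide +kernel


end Vale.Agent.P236K.Cert.K53
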