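import Vale.Agent.P236K.Cert.Fast
import Vale.Agent.P236K.K53.N3
import Vale.Agent.P236K.K53.N4

/-!
# P236K / K53 / R3_9 : rows of degree 3 (generated)
-/

noncomputable section

namespace Vale.Agent.P236K.Cert.K53

/-- rows -/
noncomputable def r3_9 : List ℕ := [6174015556, 6174015557, 6174015558, 6174015559, 6174015560, 6174015680, 6174015681, 6174015682, 6174015683, 6174015684, 6174015804, 6174015805, 6174015806, 6174015807, 6174015808, 6174015928, 6174015929, 6174015930, 6174015931, 6174015932, 6174016052, 6174016053, 6174016054, 6174016055, 6174016056, 6174016176, 6174016177, 6174016178, 6174016179, 6174016180, 6174016300, 6174016301, 6174016302, 6174016303, 6174016304, 6174016424, 6174016425, 6174016426, 6174016427, 6174016428, 6174016548, 6174016549, 6174016550, 6174016551, 6174016552, 6174016672, 6174016673, 6174016674, 6174016675, 6174016676, 6174016796, 6174016797, 6174016798, 6174016799, 6174016800, 6174016920, 6174016921, 6174016922, 6174016923, 6174016924, 6174017044, 6174017045, 6174017046, 6174017047, 6174017048, 6174017168, 6174017169, 6174017170, 6174017171, 6174017172, 6174017293, 6174017294, 6174017295, 6174017296, 6174017416, 6174017419,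 6174017542, 6174017543, 6174017544, 6174031927, 6174031928, 6174031929, 6174031930, 6174031931, 6174032051, 6174032052, 6174032053, 6174032054, 6174032055, 6174032175, 6174032176, 6174032177, 6174032299, 6174032300, 6174032301, 6174032302, 6174032423, 6174032424, 6174032425, 6174032547, 6174032548, 6174032549, 6174032671, 6174048298, 6174048299, 6174048300, 6174048301, 6174048422, 6174048423, 6174048424, 6174048548, 6174048669, 6174048670, 6174048793, 6174048794, 6174048917, 6174064668, 6174064669, 6174064670, 6174064671, 6174064672, 6174064673, 6174064792, 6174064793, 6174064794, 6174064795, 6174064796, 6174064797, 6174064916, 6174064917, 6174064918, 6174064919, 6174064920, 6174064921, 6174065040, 6174065041, 6174065042, 6174065043, 6174065044, 6174065045, 6174065165, 6174065166, 6174065167, 6174065168, 6174065169, 6174065288, 6174065291, 6174065293, 6174065414, 6174065415, 6174065416]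

theorem c3_9 : rowsF (par Q3 Q4 fm3 zr fe1 zr) r3_9 = true := by decide +kernel


end Vale.Agent.P236K.Cert.K53
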