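import Vale.Agent.P236K.Cert.LevF
import Vale.Agent.P236K.Cert.FastEq
import Vale.Agent.P236K.K53.R3_0
import Vale.Agent.P236K.K53.R3_1
import Vale.Agent.P236K.K53.R3_2
import Vale.Agent.P236K.K53.R3_3
import Vale.Agent.P236K.K53.R3_4
import Vale.Agent.P236K.K53.R3_5
import Vale.Agent.P236K.K53.R3_6
import Vale.Agent.P236K.K53.R3_7
import Vale.Agent.P236K.K53.R3_8
import Vale.Agent.P236K.K53.R3_9
import Vale.Agent.P236K.K53.R3_10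
import Vale.Agent.P236K.K53.R3_11
import Vale.Agent.P236K.K53.R3_12
import Vale.Agent.P236K.K53.R3_13
import Vale.Agent.P236K.K53.R3_14
import Vale.Agent.P236K.K53.R3_15
import Vale.Agent.P236K.K53.R3_16
import Vale.Agent.P236K.K53.R3_17
import Vale.Agent.P236K.K53.R3_18
import Vale.Agent.P236K.K53.R3_19
import Vale.Agent.P236K.K53.R3_20
import Vale.Agent.P236K.K53.R3_21
import Vale.Agent.P236K.K53.R3_22
import Vale.Agent.P236K.K53.R3_23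
import Vale.Agent.P236K.K53.R3_24
import Vale.Agent.P236K.K53.R3_25
import Vale.Agent.P236K.K53.R3_26
import Vale.Agent.P236K.K53.R3_27
import Vale.Agent.P236K.K53.R3_28
import Vale.Agent.P236K.K53.R3_29
import Vale.Agent.P236K.K53.R3_30
import Vale.Agent.P236K.K53.R3_31
import Vale.Agent.P236K.K53.R3_32
import Vale.Agent.P236K.K53.R3_33
import Vale.Agent.P236K.K53.R3_34
import Vale.Agent.P236K.K53.R3_35
import Vale.Agent.P236K.K53.R3_36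
import Vale.Agent.P236K.K53.R3_37
import Vale.Agent.P236K.K53.R3_38
import Vale.Agent.P236K.K53.R3_39
import Vale.Agent.P236K.K53.R3_40
import Vale.Agent.P236K.K53.R3_41
import Vale.Agent.P236K.K53.R3_42
import Vale.Agent.P236K.K53.R3_43
import Vale.Agent.P236K.K53.R3_44
import Vale.Agent.P236K.K53.R3_45
import Vale.Agent.P236K.K53.R3_46

/-!
# P236K / K53 / S3 : the step from degree 3 (generated)
-/

noncomputable section

namespace Vale.Agent.P236K.Cert.K53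

/-- rows -/
noncomputable def rows3 : List ℕ := (mrg (mrg (mrg (mrg (mrg r3_0 r3_1) (mrg r3_2 (mrg r3_3 r3_4))) (mrg (mrg r3_5 (mrg r3_6 r3_7)) (mrg r3_8 (mrg r3_9 r3_10)))) (mrg (mrg (mrg r3_11 (mrg r3_12 r3_13)) (mrg r3_14 (mrg r3_15 r3_16))) (mrg (mrg r3_17 (mrg r3_18 r3_19)) (mrg r3_20 (mrg r3_21 r3_22))))) (mrg (mrg (mrg (mrg r3_23 (mrg r3_24 r3_25)) (mrg r3_26 (mrg r3_27 r3_28))) (mrg (mrg r3_29 (mrg r3_30 r3_31)) (mrg r3_32 (mrg r3_33 r3_34)))) (mrg (mrg (mrg r3_35 (mrg r3_36 r3_37)) (mrg r3_38 (mrg r3_39 r3_40))) (mrg (mrg r3_41 (mrg r3_42 r3_43)) (mrg r3_44 (mrg r3_45 r3_46))))))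

theorem lv3 : levF Q3 Q4 ly3.gl rows3 = true := by decide +kernel

theorem stp3 : Stp Q3 Q4 ly3.gl :=
  Stp.ofF (rows := rows3) (RowsAll.mrg (RowsAll.mrg (RowsAll.mrg (RowsAll.mrg (RowsAll.mrg (RowsAll.ofF c3_0) (RowsAll.ofF c3_1)) (RowsAll.mrg (RowsAll.ofF c3_2) (RowsAll.mrg (RowsAll.ofF c3_3) (RowsAll.ofF c3_4)))) (RowsAll.mrg (RowsAll.mrg (RowsAll.ofF c3_5) (RowsAll.mrg (RowsAll.ofF c3_6) (RowsAll.ofF c3_7))) (RowsAll.mrg (RowsAll.ofF c3_8) (RowsAll.mrg (RowsAll.ofF c3_9) (RowsAll.ofF c3_10))))) (RowsAll.mrg (RowsAll.mrg (RowsAll.mrg (RowsAll.ofF c3_11) (RowsAll.mrg (RowsAll.ofF c3_12) (RowsAll.ofF c3_13))) (RowsAll.mrg (RowsAll.ofF c3_14) (RowsAll.mrg (RowsAll.ofF c3_15) (RowsAll.ofF c3_16)))) (RowsAll.mrg (RowsAll.mrg (RowsAll.ofF c3_17) (RowsAll.mrg (RowsAll.ofF c3_18) (RowsAll.ofF c3_19))) (RowsAll.mrg (RowsAll.ofF c3_20) (RowsAll.mrg (RowsAll.ofF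 c3_21) (RowsAll.ofF c3_22)))))) (RowsAll.mrg (RowsAll.mrg (RowsAll.mrg (RowsAll.mrg (RowsAll.ofF c3_23) (RowsAll.mrg (RowsAll.ofF c3_24) (RowsAll.ofF c3_25))) (RowsAll.mrg (RowsAll.ofF c3_26) (RowsAll.mrg (RowsAll.ofF c3_27) (RowsAll.ofF c3_28)))) (RowsAll.mrg (RowsAll.mrg (RowsAll.ofF c3_29) (RowsAll.mrg (RowsAll.ofF c3_30) (RowsAll.ofF c3_31))) (RowsAll.mrg (RowsAll.ofF c3_32) (RowsAll.mrg (RowsAll.ofF c3_33) (RowsAll.ofF c3_34))))) (RowsAll.mrg (RowsAll.mrg (RowsAll.mrg (RowsAll.ofF c3_35) (RowsAll.mrg (RowsAll.ofF c3_36) (RowsAll.ofF c3_37))) (RowsAll.mrg (RowsAll.ofF c3_38) (RowsAll.mrg (RowsAll.ofF c3_39) (RowsAll.ofF c3_40)))) (RowsAll.mrg (RowsAll.mrg (RowsAll.ofF c3_41) (RowsAll.mrg (RowsAll.ofF c3_42) (RowsAll.ofF c3_43))) (RowsAll.mrg (RowsAll.ofF c3_44) (RowsAll.mrg (RowsAll.ofF c3_45) (RowsAll.ofF c3_46))))))) lv3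

end Vale.Agent.P236K.Cert.K53
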