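import Vale.Agent.P236K.Cert.Fast
import Vale.Agent.P236K.K53.N4
import Vale.Agent.P236K.K53.N5

/-!
# P236K / K53 / R4_12 : rows of degree 4 (generated)
-/

noncomputable section

namespace Vale.Agent.P236K.Cert.K53

/-- rows -/
noncomputable def r4_12 : List ℕ := [16642998314, 16642998315, 16642998316, 16642998317, 16642998318, 16642998319, 16642998320, 16642998321, 16642998322, 16642998323, 16642998324, 16642998325, 16642998327, 16642998328, 16642998330, 16642998331, 16642998332, 16642998333, 16642998334, 16642998335, 16642998336, 16642998438, 16642998439, 16642998440, 16642998441, 16642998442, 16642998443, 16642998444, 16642998445, 16642998446, 16642998447, 16642998448, 16642998449, 16642998450, 16642998451, 16642998452, 16642998453, 16642998455, 16642998456, 16642998458, 16642998459, 16642998460, 16642998561, 16642998562, 16642998563, 16642998564, 16642998565, 16642998566, 16642998567, 16642998568, 16642998569, 16642998570, 16642998571, 16642998572, 16642998573, 16642998574, 16642998575, 16642998576, 16642998577, 16642998578, 16642998579, 16642998580, 16642998581, 16642998583, 16642998584, 16642998685, 16642998688, 16642998691, 16642998692, 16642998693, 16642998694, 16642998695, 16642998696, 16642998697, 16642998698, 16642998699, 16642998700, 16642998701,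 16642998702, 16642998703, 16642998704, 16642998705, 16642998706, 16642998707, 16642998708, 16642998809, 16642998810, 16642998813, 16642998816, 16642998818, 16642998819, 16642998820, 16642998821, 16642998822, 16642998823, 16642998824, 16642998825, 16642998826, 16642998827, 16642998828, 16642998829, 16642998830, 16642998831, 16642998832, 16642998933, 16642998934, 16642998935, 16642998936, 16642998937, 16642998938, 16642998941, 16642998944, 16642998945, 16642998946, 16642998947, 16642998948, 16642998949, 16642998950, 16642998951, 16642998952, 16642998953, 16642998954, 16642998955, 16642998956, 16642999057, 16642999058, 16642999059, 16642999060, 16642999061, 16642999062, 16642999063, 16642999064, 16642999065, 16642999066, 16642999069, 16642999072, 16642999075, 16642999076, 16642999077, 16642999078, 16642999079, 16642999080, 16642999181, 16642999182, 16642999183, 16642999184, 16642999185, 16642999186, 16642999187, 16642999188, 16642999189, 16642999190, 16642999191, 16642999192, 16642999193, 16642999194, 16642999197, 16642999200, 16642999202, 16642999203, 16642999204, 16642999305, 16642999306, 16642999307, 16642999308, 16642999309, 16642999310, 16642999311, 16642999312, 16642999313, 16642999314, 16642999315, 16642999316, 16642999317, 16642999318, 16642999319,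 16642999320, 16642999321, 16642999322, 16642999325, 16642999328, 16642999433, 16642999434, 16642999435, 16642999436, 16642999437, 16642999438, 16642999439, 16642999440, 16642999441, 16642999442, 16642999443, 16642999444, 16642999445, 16642999446, 16642999447, 16642999448, 16642999449, 16642999450, 16642999561, 16642999562, 16642999563, 16642999564, 16642999565, 16642999566, 16642999567, 16642999568, 16642999569, 16642999570, 16642999571, 16642999572, 16642999573, 16642999574, 16642999575, 16642999689, 16642999690, 16642999691, 16642999692, 16642999693, 16642999694, 16642999695, 16642999696, 16642999697, 16642999698, 16642999699, 16642999817, 16642999818, 16642999819, 16642999820, 16642999821, 16642999822, 16642999823, 16642999945, 16642999946, 16642999947, 16643047433, 16643047434, 16643047435, 16643047436, 16643047437, 16643047438, 16643047439, 16643047440, 16643047441, 16643047442, 16643047443, 16643047444, 16643047445, 16643047446, 16643047447, 16643047448, 16643047561, 16643047562, 16643047563, 16643047564, 16643047565, 16643047566, 16643047567, 16643047568, 16643047569, 16643047570, 16643047571, 16643047572, 16643047689, 16643047690, 16643047691, 16643047692, 16643047693, 16643047694, 16643047695, 16643047696, 16643047817, 16643047818, 16643047819,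 16643047820]

theorem c4_12 : rowsF (par Q4 Q5 fm3 zr fe1 zr) r4_12 = true := by decide +kernel


end Vale.Agent.P236K.Cert.K53
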