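import Vale.Agent.P236K.Cert.Fast
import Vale.Agent.P236K.K53.N4
import Vale.Agent.P236K.K53.N5

/-!
# P236K / K53 / R4_14 : rows of degree 4 (generated)
-/

noncomputable section

namespace Vale.Agent.P236K.Cert.K53

/-- rows -/
noncomputable def r4_14 : List ℕ := [16911433790, 16911433791, 16911433792, 16911433793, 16911433912, 16911433915, 16911434036, 16911434037, 16911434040, 16911434160, 16911434161, 16911434162, 16911434163, 16911434284, 16911434285, 16911434286, 16911434287, 16911434408, 16911434409, 16911434410, 16911434532, 16911434533, 16911434534, 16911434535, 16911434656, 16911434659, 16911434781, 16911434903, 16911434904, 16911434905, 16911434906, 16911435027, 16911435028, 16911435029, 16911435030, 16911435151, 16911435152, 16911435154, 16911435275, 16911435276, 16911435277, 16911435401, 16911482900, 16911482901, 16911482902, 16911482903, 16911482904, 16911483024, 16911483025, 16911483026, 16911483027, 16911483028, 16911483148, 16911483149, 16911483150, 16911483151, 16911483273, 16911483274, 16911483275, 16911483276, 17179869202, 17179869203, 17179869204, 17179869205, 17179869206, 17179869207, 17179869208, 17179869209, 17179869210, 17179869217, 17179869218, 17179869219, 17179869222, 17179869223, 17179869224, 17179869225, 17179869226,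 17179869227, 17179869228, 17179869229, 17179869230, 17179869231, 17179869232, 17179869233, 17179869234, 17179869235, 17179869236, 17179869237, 17179869238, 17179869239, 17179869240, 17179869241, 17179869330, 17179869331, 17179869332, 17179869333, 17179869334, 17179869335, 17179869336, 17179869337, 17179869338, 17179869345, 17179869346, 17179869347, 17179869350, 17179869351, 17179869352, 17179869353, 17179869354, 17179869355, 17179869356, 17179869357, 17179869358, 17179869359, 17179869360, 17179869361, 17179869362, 17179869363, 17179869364, 17179869365, 17179869458, 17179869459, 17179869460, 17179869461, 17179869462, 17179869463, 17179869464, 17179869465, 17179869466, 17179869473, 17179869474, 17179869475, 17179869476, 17179869477, 17179869478, 17179869479, 17179869480, 17179869481, 17179869482, 17179869483, 17179869484, 17179869485, 17179869486, 17179869487, 17179869488, 17179869586, 17179869587, 17179869588, 17179869589, 17179869590, 17179869591, 17179869592, 17179869593, 17179869594, 17179869601, 17179869602, 17179869603, 17179869606, 17179869607, 17179869608, 17179869609, 17179869610, 17179869611, 17179869612, 17179869714, 17179869715, 17179869716, 17179869717, 17179869718, 17179869719, 17179869720, 17179869721, 17179869722, 17179869729, 17179869730,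 17179869731, 17179869734, 17179869735, 17179869736, 17179869842, 17179869843, 17179869844, 17179869845, 17179869846, 17179869847, 17179869848, 17179869849, 17179869850, 17179869857, 17179869858, 17179869859, 17179869860, 17179869970, 17179869971, 17179869972, 17179869973, 17179869974, 17179869975, 17179869976, 17179869977, 17179869978, 17179870098, 17179870099, 17179870100, 17179870101, 17179870102, 17179870103, 17179870104, 17179870105, 17179870106, 17179870226, 17179870227, 17179870228, 17179870229, 17179870230, 17179870231, 17179870232, 17179870354, 17179870355, 17179870356]

theorem c4_14 : rowsF (par Q4 Q5 fm3 zr fe1 zr) r4_14 = true := by decide +kernel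


end Vale.Agent.P236K.Cert.K53
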