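import Vale.Agent.P236K.Cert.Fast
import Vale.Agent.P236K.K53.N4
import Vale.Agent.P236K.K53.N5

/-!
# P236K / K53 / R4_15 : rows of degree 4 (generated)
-/

noncomputable section

namespace Vale.Agent.P236K.Cert.K53

/-- rows -/
noncomputable def r4_15 : List ℕ := [17179869242, 17179869243, 17179869244, 17179869245, 17179869246, 17179869247, 17179869248, 17179869366, 17179869367, 17179869368, 17179869369, 17179869370, 17179869371, 17179869372, 17179869489, 17179869490, 17179869491, 17179869492, 17179869493, 17179869494, 17179869495, 17179869613, 17179869614, 17179869615, 17179869616, 17179869617, 17179869618, 17179869619, 17179869737, 17179869738, 17179869739, 17179869740, 17179869741, 17179869742, 17179869743, 17179869861, 17179869862, 17179869863, 17179869864, 17179869865, 17179869866, 17179869867, 17179869985, 17179869986, 17179869987, 17179869990, 17179869991, 17179870113, 17179870114, 17179870115, 17179870233, 17179870234, 17179870357, 17179870358, 17179870359, 17179870360, 17179870361, 17179870362, 17179870482, 17179870483, 17179870484, 17179870485, 17179870486, 17179918354, 17179918355, 17179918356, 17179918357, 17179918358, 17179918359, 17179918360, 17179918483, 17448304650, 17448304651, 17448304653, 17448304654, 17448304656, 17448304657,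 17448304658, 17448304659, 17448304660, 17448304661, 17448304662, 17448304663, 17448304664, 17448304665, 17448304666, 17448304675, 17448304676, 17448304677, 17448304678, 17448304679, 17448304680, 17448304681, 17448304682, 17448304683, 17448304684, 17448304685, 17448304686, 17448304687, 17448304688, 17448304778, 17448304779, 17448304781, 17448304782, 17448304784, 17448304785, 17448304786, 17448304787, 17448304788, 17448304789, 17448304790, 17448304791, 17448304792, 17448304793, 17448304794, 17448304801, 17448304802, 17448304803, 17448304804, 17448304805, 17448304806, 17448304807, 17448304808, 17448304809, 17448304810, 17448304811, 17448304812, 17448304906, 17448304907, 17448304909, 17448304910, 17448304912, 17448304913, 17448304914, 17448304915, 17448304916, 17448304917, 17448304918, 17448304919, 17448304920, 17448304921, 17448304922, 17448304929, 17448304930, 17448304931, 17448304932, 17448304933, 17448304934, 17448304935, 17448304936, 17448305034, 17448305035, 17448305037, 17448305038, 17448305040, 17448305041, 17448305042, 17448305043, 17448305044, 17448305045, 17448305046, 17448305047, 17448305048, 17448305049, 17448305050, 17448305059, 17448305060, 17448305162, 17448305163, 17448305165, 17448305166, 17448305168, 17448305169, 17448305170, 17448305171,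 17448305172, 17448305173, 17448305174, 17448305175, 17448305176, 17448305177, 17448305178, 17448305290, 17448305291, 17448305293, 17448305294, 17448305296, 17448305297, 17448305298, 17448305299, 17448305300, 17448305301, 17448305302, 17448305303, 17448305304, 17448305305, 17448305306, 17448305418, 17448305419, 17448305421, 17448305422, 17448305424, 17448305425, 17448305426, 17448305427, 17448305428, 17448305429, 17448305430, 17448305431, 17448305432, 17448305546, 17448305547, 17448305549, 17448305550, 17448305552, 17448305553, 17448305554, 17448305555, 17448305556, 17448305674, 17448305675, 17448305677, 17448305678, 17448305680, 17448305802, 17448305803]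

theorem c4_15 : rowsF (par Q4 Q5 fm3 zr fe1 zr) r4_15 = true := by decide +kernel


end Vale.Agent.P236K.Cert.K53
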