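import Vale.Agent.P236K.Cert.Fast
import Vale.Agent.P236K.K53.N4
import Vale.Agent.P236K.K53.N5

/-!
# P236K / K53 / R4_16 : rows of degree 4 (generated)
-/

noncomputable section

namespace Vale.Agent.P236K.Cert.K53

/-- rows -/
noncomputable def r4_16 : List ℕ := [17448304689, 17448304690, 17448304691, 17448304692, 17448304693, 17448304696, 17448304697, 17448304698, 17448304699, 17448304813, 17448304814, 17448304815, 17448304816, 17448304817, 17448304818, 17448304819, 17448304820, 17448304821, 17448304937, 17448304938, 17448304939, 17448304940, 17448304941, 17448304942, 17448304943, 17448304944, 17448304945, 17448305061, 17448305062, 17448305063, 17448305064, 17448305065, 17448305066, 17448305067, 17448305068, 17448305069, 17448305070, 17448305185, 17448305186, 17448305187, 17448305188, 17448305189, 17448305190, 17448305191, 17448305192, 17448305193, 17448305313, 17448305314, 17448305315, 17448305316, 17448305317, 17448305433, 17448305434, 17448305557, 17448305558, 17448305559, 17448305560, 17448305561, 17448305562, 17448305681, 17448305682, 17448305683, 17448305684, 17448305685, 17448305686, 17448305687, 17448305688, 17448305805, 17448305806, 17448305808, 17448305809, 17448305810, 17448305811, 17448305812, 17448305813, 17448305930, 17448305931,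 17448305933, 17448305934, 17448305936, 17448306058, 17448306059, 17448353802, 17448353803, 17448353805, 17448353806, 17448353808, 17448353809, 17448353810, 17448353811, 17448353930, 17448353931, 17448353933, 17448353934, 17448354058, 17716740115, 17716740116, 17716740117, 17716740118, 17716740119, 17716740120, 17716740121, 17716740122, 17716740132, 17716740133, 17716740134, 17716740135, 17716740136, 17716740137, 17716740138, 17716740139, 17716740140, 17716740141, 17716740142, 17716740143, 17716740144, 17716740145, 17716740146, 17716740242, 17716740243, 17716740244, 17716740245, 17716740246, 17716740247, 17716740248, 17716740249, 17716740250, 17716740260, 17716740261, 17716740262, 17716740263, 17716740264, 17716740265, 17716740266, 17716740267, 17716740268, 17716740269, 17716740270, 17716740370, 17716740371, 17716740372, 17716740373, 17716740374, 17716740375, 17716740376, 17716740377, 17716740378, 17716740388, 17716740389, 17716740390, 17716740391, 17716740392, 17716740393, 17716740394, 17716740499, 17716740500, 17716740501, 17716740502, 17716740503, 17716740504, 17716740505, 17716740506, 17716740516, 17716740517, 17716740626, 17716740627, 17716740628, 17716740629, 17716740630, 17716740631, 17716740632, 17716740633, 17716740634, 17716740754,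 17716740755, 17716740756, 17716740757, 17716740758, 17716740759, 17716740760, 17716740761, 17716740762, 17716740883, 17716740884, 17716740885, 17716740886, 17716740887, 17716740888, 17716740889, 17716741010, 17716741011, 17716741012, 17716741013]

theorem c4_16 : rowsF (par Q4 Q5 fm3 zr fe1 zr) r4_16 = true := by decide +kernel


end Vale.Agent.P236K.Cert.K53
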