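import Vale.Agent.P236K.Cert.Fast
import Vale.Agent.P236K.K53.N4
import Vale.Agent.P236K.K53.N5

/-!
# P236K / K53 / R4_17 : rows of degree 4 (generated)
-/

noncomputable section

namespace Vale.Agent.P236K.Cert.K53

/-- rows -/
noncomputable def r4_17 : List ℕ := [17716740147, 17716740148, 17716740149, 17716740154, 17716740155, 17716740271, 17716740272, 17716740273, 17716740274, 17716740275, 17716740276, 17716740277, 17716740395, 17716740396, 17716740397, 17716740398, 17716740399, 17716740400, 17716740401, 17716740518, 17716740519, 17716740520, 17716740521, 17716740522, 17716740523, 17716740524, 17716740525, 17716740526, 17716740644, 17716740645, 17716740646, 17716740647, 17716740648, 17716740649, 17716740772, 17716740773, 17716740890, 17716741014, 17716741015, 17716741016, 17716741017, 17716741018, 17716741138, 17716741139, 17716741140, 17716741141, 17716741142, 17716741143, 17716741144, 17716741267, 17716741268, 17716789267, 17985175606, 17985175607, 17985175608, 17985175609, 18253611027, 18253611028, 18253611030, 18253611031, 18253611032, 18253611033, 18253611034, 18253611054, 18253611055, 18253611057, 18253611058, 18253611059, 18253611060, 18253611155, 18253611156, 18253611158, 18253611159, 18253611160, 18253611161,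 18253611162, 18253611182, 18253611183, 18253611184, 18253611283, 18253611284, 18253611286, 18253611287, 18253611288, 18253611289, 18253611290, 18253611411, 18253611412, 18253611414, 18253611415, 18253611416, 18253611417, 18253611418, 18253611539, 18253611540, 18253611542, 18253611543, 18253611544, 18253611545, 18253611546, 18253611667, 18253611668, 18253611670, 18253611671, 18253611672, 18253611673, 18253611674, 18253611795, 18253611796, 18253611798, 18253611799, 18253611800, 18253611801, 18253611802, 18253611923, 18253611924, 18253611926, 18253611927, 18253612051]

theorem c4_17 : rowsF (par Q4 Q5 fm3 zr fe1 zr) r4_17 = true := by decide +kernel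


end Vale.Agent.P236K.Cert.K53
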