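import Vale.Agent.P236K.Cert.Fast
import Vale.Agent.P236K.K53.N4
import Vale.Agent.P236K.K53.N5

/-!
# P236K / K53 / R4_18 : rows of degree 4 (generated)
-/

noncomputable section

namespace Vale.Agent.P236K.Cert.K53

/-- rows -/
noncomputable def r4_18 : List ℕ := [18253611061, 18253611185, 18253611186, 18253611187, 18253611310, 18253611311, 18253611312, 18253611928, 18253611929, 18253611930, 18253612052, 18253612054, 18253612179, 18522046520, 18790481974, 19058917392, 19058917393, 19058917397, 19058917398, 19058917399, 19058917400, 19058917401, 19058917402, 19058917412, 19058917413, 19058917414, 19058917415, 19058917416, 19058917417, 19058917418, 19058917419, 19058917420, 19058917421, 19058917422, 19058917423, 19058917424, 19058917425, 19058917519, 19058917520, 19058917521, 19058917525, 19058917526, 19058917527, 19058917528, 19058917529, 19058917530, 19058917540, 19058917541, 19058917542, 19058917543, 19058917544, 19058917545, 19058917546, 19058917547, 19058917548, 19058917647, 19058917648, 19058917649, 19058917653, 19058917654, 19058917655, 19058917656, 19058917657, 19058917658, 19058917668, 19058917669, 19058917670, 19058917671, 19058917672, 19058917776, 19058917777, 19058917781, 19058917782, 19058917783, 19058917784,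 19058917785, 19058917786, 19058917796, 19058917903, 19058917904, 19058917905, 19058917909, 19058917910, 19058917911, 19058917912, 19058917913, 19058917914, 19058918031, 19058918032, 19058918033, 19058918037, 19058918038, 19058918039, 19058918040, 19058918041, 19058918042, 19058918160, 19058918161, 19058918165, 19058918166, 19058918167, 19058918168, 19058918287, 19058918288, 19058918289, 19058918415, 19058918416]

theorem c4_18 : rowsF (par Q4 Q5 fm3 zr fe1 zr) r4_18 = true := by decide +kernel


end Vale.Agent.P236K.Cert.K53
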