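import Vale.Agent.P236K.Cert.Fast
import Vale.Agent.P236K.K53.N4
import Vale.Agent.P236K.K53.N5

/-!
# P236K / K53 / R4_20 : rows of degree 4 (generated)
-/

noncomputable section

namespace Vale.Agent.P236K.Cert.K53

/-- rows -/
noncomputable def r4_20 : List ℕ := [20937965582, 20937965583, 20937965584, 20937965585, 20937965586, 20937965587, 20937965588, 20937965589, 20937965590, 20937965591, 20937965592, 20937965593, 20937965594, 20937965706, 20937965707, 20937965708, 20937965709, 20937965710, 20937965711, 20937965712, 20937965713, 20937965714, 20937965715, 20937965716, 20937965717, 20937965718, 20937965829, 20937965832, 20937965833, 20937965834, 20937965835, 20937965836, 20937965837, 20937965838, 20937965839, 20937965840, 20937965841, 20937965842, 20937965957, 20937965960, 20937965961, 20937965962, 20937965963, 20937965964, 20937965965, 20937965966, 20937966082, 20937966085, 20937966088, 20937966089, 20937966090, 20937966210, 20937966213, 20937966338, 21206401044, 21206401045, 21206401046, 21206401047, 21206401048, 21206401049, 21206401171, 21474836497, 21474836500, 21474836503, 21474836505, 21474836619, 21474836622, 21474836625, 21474836628, 21474836747, 21474836750, 21474836875, 22011707407,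 22011707408, 22011707409, 22011707535, 22280142867]

theorem c4_20 : rowsF (par Q4 Q5 fm3 zr fe1 zr) r4_20 = true := by decide +kernel


end Vale.Agent.P236K.Cert.K53
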