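import Vale.Agent.P236K.Cert.Fast
import Vale.Agent.P236K.K53.N4
import Vale.Agent.P236K.K53.N5

/-!
# P236K / K53 / R4_6 : rows of degree 4 (generated)
-/

noncomputable section

namespace Vale.Agent.P236K.Cert.K53

/-- rows -/
noncomputable def r4_6 : List ℕ := [15837691958, 15837691959, 15837691960, 15837691961, 15837691962, 15837691963, 15837691964, 15837691965, 15837691966, 15837691967, 15837691968, 15837691969, 15837691970, 15837691971, 15837691972, 15837691973, 15837692082, 15837692083, 15837692084, 15837692085, 15837692086, 15837692087, 15837692088, 15837692089, 15837692090, 15837692091, 15837692092, 15837692093, 15837692094, 15837692095, 15837692096, 15837692097, 15837692206, 15837692207, 15837692208, 15837692209, 15837692210, 15837692211, 15837692212, 15837692213, 15837692214, 15837692215, 15837692216, 15837692217, 15837692218, 15837692219, 15837692220, 15837692221, 15837692330, 15837692331, 15837692332, 15837692333, 15837692334, 15837692335, 15837692336, 15837692337, 15837692338, 15837692339, 15837692340, 15837692341, 15837692342, 15837692343, 15837692344, 15837692345, 15837692454, 15837692455, 15837692456, 15837692457, 15837692458, 15837692459, 15837692460, 15837692461, 15837692462, 15837692463, 15837692464, 15837692465, 15837692466,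 15837692467, 15837692468, 15837692469, 15837692578, 15837692579, 15837692580, 15837692581, 15837692582, 15837692583, 15837692584, 15837692585, 15837692586, 15837692587, 15837692588, 15837692589, 15837692590, 15837692591, 15837692592, 15837692593, 15837692703, 15837692704, 15837692705, 15837692706, 15837692707, 15837692708, 15837692709, 15837692710, 15837692711, 15837692712, 15837692713, 15837692714, 15837692715, 15837692716, 15837692717, 15837692826, 15837692828, 15837692829, 15837692831, 15837692832, 15837692833, 15837692834, 15837692835, 15837692836, 15837692837, 15837692838, 15837692839, 15837692840, 15837692841, 15837692950, 15837692951, 15837692952, 15837692953, 15837692954, 15837692956, 15837692957, 15837692959, 15837692960, 15837692961, 15837692962, 15837692963, 15837692964, 15837693073, 15837693077, 15837693078, 15837693079, 15837693080, 15837693081, 15837693082, 15837693084, 15837693085, 15837693087, 15837693088, 15837693197, 15837693198, 15837693199, 15837693200, 15837693201, 15837693205, 15837693206, 15837693207, 15837693208, 15837693209, 15837693210, 15837693212, 15837693325, 15837693326, 15837693327, 15837693328, 15837693329, 15837693333, 15837693334, 15837693335, 15837693336, 15837693445, 15837693446, 15837693447, 15837693448, 15837693453,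 15837693454, 15837693455, 15837693456, 15837693457, 15837693573, 15837693574, 15837693575, 15837693576, 15837693581, 15837693582, 15837693583, 15837693584, 15837693701, 15837693702, 15837693703, 15837693704, 15837693829, 15837693830, 15837693831, 15837693832, 15837741070, 15837741071, 15837741072, 15837741073, 15837741077, 15837741078, 15837741079, 15837741080, 15837741081, 15837741082, 15837741084, 15837741085, 15837741197, 15837741198, 15837741199, 15837741200, 15837741201, 15837741205, 15837741206, 15837741207, 15837741208, 15837741209, 15837741318, 15837741319, 15837741320, 15837741325, 15837741326, 15837741327, 15837741328, 15837741329, 15837741333, 15837741445, 15837741446, 15837741447, 15837741448, 15837741453, 15837741454, 15837741455, 15837741456, 15837741457, 15837741573, 15837741574, 15837741575, 15837741576, 15837741581, 15837741701, 15837741702, 15837741703, 15837741704, 15837741829]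

theorem c4_6 : rowsF (par Q4 Q5 fm3 zr fe1 zr) r4_6 = true := by decide +kernel


end Vale.Agent.P236K.Cert.K53
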