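import Vale.Agent.P236K.Cert.Fast
import Vale.Agent.P236K.K53.N4
import Vale.Agent.P236K.K53.N5

/-!
# P236K / K53 / R4_7 : rows of degree 4 (generated)
-/

noncomputable section

namespace Vale.Agent.P236K.Cert.K53

/-- rows -/
noncomputable def r4_7 : List ℕ := [15837691974, 15837691975, 15837691976, 15837691977, 15837691978, 15837691979, 15837692098, 15837692099, 15837692100, 15837692101, 15837692222, 15837692223, 15837692224, 15837692225, 15837692346, 15837692347, 15837692348, 15837692349, 15837692470, 15837692471, 15837692472, 15837692473, 15837692594, 15837692595, 15837692596, 15837692718, 15837692719, 15837692720, 15837692721, 15837692842, 15837692843, 15837692844, 15837692845, 15837692965, 15837692966, 15837692967, 15837692968, 15837693089, 15837693090, 15837693091, 15837693092, 15837693093, 15837693213, 15837693215, 15837693216, 15837693337, 15837693338, 15837693340, 15837693461, 15837693462, 15837693463, 15837693585, 15837693709, 15837693710, 15837693711, 15837741087, 15837741088, 15837741089, 15837741090, 15837741210, 15837741212, 15837741213, 15837741334, 15837741335, 15837741336, 15837741337, 15837741461, 15837741462, 15837741582, 15837741583, 15837741584, 15837741585, 15837741709, 15837741830, 15837741831, 15837741832, 16106127366,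 16106127367, 16106127368, 16106127374, 16106127375, 16106127376, 16106127377, 16106127382, 16106127383, 16106127384, 16106127385, 16106127386, 16106127389, 16106127392, 16106127393, 16106127394, 16106127395, 16106127397, 16106127398, 16106127399, 16106127400, 16106127401, 16106127402, 16106127403, 16106127404, 16106127494, 16106127495, 16106127496, 16106127502, 16106127503, 16106127504, 16106127505, 16106127509, 16106127510, 16106127511, 16106127512, 16106127513, 16106127514, 16106127517, 16106127520, 16106127521, 16106127522, 16106127523, 16106127525, 16106127526, 16106127527, 16106127528, 16106127529, 16106127622, 16106127623, 16106127624, 16106127628, 16106127629, 16106127630, 16106127631, 16106127632, 16106127633, 16106127637, 16106127638, 16106127639, 16106127640, 16106127641, 16106127642, 16106127645, 16106127648, 16106127649, 16106127650, 16106127651, 16106127652, 16106127653, 16106127750, 16106127751, 16106127752, 16106127758, 16106127759, 16106127760, 16106127761, 16106127766, 16106127767, 16106127768, 16106127769, 16106127770, 16106127773, 16106127776, 16106127777, 16106127878, 16106127879, 16106127880, 16106127886, 16106127887, 16106127888, 16106127889, 16106127893, 16106127894, 16106127895, 16106127896, 16106127897, 16106127898,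 16106127901, 16106128006, 16106128007, 16106128008, 16106128012, 16106128013, 16106128014, 16106128015, 16106128016, 16106128017, 16106128021, 16106128022, 16106128023, 16106128024, 16106128025, 16106128134, 16106128135, 16106128136, 16106128142, 16106128143, 16106128144, 16106128145, 16106128262, 16106128263, 16106128264, 16106128270, 16106128271, 16106128272, 16106128390, 16106128391, 16106128392, 16106128396, 16106128518, 16106128519, 16106128520]

theorem c4_7 : rowsF (par Q4 Q5 fm3 zr fe1 zr) r4_7 = true := by decide +kernel


end Vale.Agent.P236K.Cert.K53
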