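import Vale.Agent.P236K.Cert.Fast
import Vale.Agent.P236K.K53.N4
import Vale.Agent.P236K.K53.N5

/-!
# P236K / K53 / R4_8 : rows of degree 4 (generated)
-/

noncomputable section

namespace Vale.Agent.P236K.Cert.K53

/-- rows -/
noncomputable def r4_8 : List ℕ := [16106127406, 16106127407, 16106127408, 16106127409, 16106127410, 16106127411, 16106127412, 16106127413, 16106127414, 16106127415, 16106127416, 16106127417, 16106127418, 16106127419, 16106127420, 16106127421, 16106127422, 16106127423, 16106127424, 16106127425, 16106127530, 16106127531, 16106127532, 16106127533, 16106127534, 16106127535, 16106127536, 16106127537, 16106127538, 16106127539, 16106127540, 16106127541, 16106127542, 16106127543, 16106127544, 16106127545, 16106127546, 16106127547, 16106127548, 16106127549, 16106127654, 16106127655, 16106127656, 16106127657, 16106127658, 16106127659, 16106127660, 16106127661, 16106127662, 16106127663, 16106127664, 16106127665, 16106127666, 16106127667, 16106127668, 16106127669, 16106127670, 16106127671, 16106127672, 16106127673, 16106127778, 16106127779, 16106127781, 16106127782, 16106127783, 16106127784, 16106127785, 16106127786, 16106127787, 16106127788, 16106127790, 16106127791, 16106127792, 16106127793, 16106127794, 16106127795, 16106127796,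 16106127797, 16106127904, 16106127905, 16106127906, 16106127907, 16106127909, 16106127910, 16106127911, 16106127912, 16106127913, 16106127914, 16106127915, 16106127916, 16106127917, 16106127918, 16106127919, 16106127920, 16106127921, 16106128026, 16106128029, 16106128032, 16106128033, 16106128034, 16106128035, 16106128036, 16106128037, 16106128038, 16106128039, 16106128040, 16106128041, 16106128042, 16106128043, 16106128044, 16106128045, 16106128150, 16106128151, 16106128152, 16106128153, 16106128154, 16106128157, 16106128160, 16106128161, 16106128162, 16106128163, 16106128165, 16106128166, 16106128167, 16106128168, 16106128169, 16106128273, 16106128277, 16106128278, 16106128279, 16106128280, 16106128281, 16106128282, 16106128285, 16106128288, 16106128289, 16106128290, 16106128291, 16106128293, 16106128397, 16106128398, 16106128399, 16106128400, 16106128401, 16106128405, 16106128406, 16106128407, 16106128408, 16106128409, 16106128410, 16106128413, 16106128416, 16106128417, 16106128526, 16106128527, 16106128528, 16106128529, 16106128534, 16106128535, 16106128536, 16106128537, 16106128538, 16106128646, 16106128647, 16106128648, 16106128654, 16106128655, 16106128656, 16106128657, 16106128661, 16106128662, 16106128663, 16106128664, 16106128774, 16106128775,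 16106128776, 16106128780, 16106128781, 16106128782, 16106128783, 16106128784, 16106128785, 16106128902, 16106128903, 16106128904, 16106128910, 16106128911, 16106128912, 16106129030, 16106129031, 16106129032, 16106129158, 16106129159, 16106129160, 16106176518, 16106176519, 16106176520, 16106176526, 16106176527, 16106176528, 16106176529, 16106176534, 16106176535, 16106176536, 16106176537, 16106176646, 16106176647, 16106176648, 16106176654, 16106176655, 16106176656, 16106176657, 16106176661, 16106176774, 16106176775, 16106176776, 16106176780, 16106176781, 16106176782, 16106176783, 16106176784, 16106176785, 16106176902, 16106176903, 16106176904, 16106177030, 16106177031, 16106177032]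

theorem c4_8 : rowsF (par Q4 Q5 fm3 zr fe1 zr) r4_8 = true := by decide +kernel


end Vale.Agent.P236K.Cert.K53
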