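import Vale.Agent.P236K.Cert.Fast
import Vale.Agent.P236K.K53.N4
import Vale.Agent.P236K.K53.N5

/-!
# P236K / K53 / R4_9 : rows of degree 4 (generated)
-/

noncomputable section

namespace Vale.Agent.P236K.Cert.K53

/-- rows -/
noncomputable def r4_9 : List ℕ := [16106127426, 16106127427, 16106127428, 16106127429, 16106127430, 16106127550, 16106127551, 16106127552, 16106127553, 16106127554, 16106127674, 16106127675, 16106127676, 16106127677, 16106127678, 16106127798, 16106127799, 16106127800, 16106127801, 16106127802, 16106127922, 16106127923, 16106127924, 16106127925, 16106127926, 16106128046, 16106128047, 16106128048, 16106128049, 16106128050, 16106128170, 16106128171, 16106128172, 16106128173, 16106128174, 16106128294, 16106128295, 16106128296, 16106128297, 16106128298, 16106128418, 16106128419, 16106128420, 16106128421, 16106128422, 16106128541, 16106128544, 16106128545, 16106128546, 16106128665, 16106128666, 16106128669, 16106128789, 16106128790, 16106128791, 16106128792, 16106128793, 16106128913, 16106129038, 16106129039, 16106129040, 16106129041, 16106129164, 16106129165, 16106129286, 16106129287, 16106129288, 16106176538, 16106176541, 16106176662, 16106176663, 16106176664, 16106176665, 16106176666,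 16106176789, 16106176790, 16106176791, 16106176910, 16106176911, 16106176912, 16106176913, 16106177038, 16106177158, 16106177159, 16106177160, 16106177286]

theorem c4_9 : rowsF (par Q4 Q5 fm3 zr fe1 zr) r4_9 = true := by decide +kernel


end Vale.Agent.P236K.Cert.K53
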