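import Vale.Agent.P236K.Cert.LevF
import Vale.Agent.P236K.Cert.FastEq
import Vale.Agent.P236K.K53.R4_0
import Vale.Agent.P236K.K53.R4_1
import Vale.Agent.P236K.K53.R4_2
import Vale.Agent.P236K.K53.R4_3
import Vale.Agent.P236K.K53.R4_4
import Vale.Agent.P236K.K53.R4_5
import Vale.Agent.P236K.K53.R4_6
import Vale.Agent.P236K.K53.R4_7
import Vale.Agent.P236K.K53.R4_8
import Vale.Agent.P236K.K53.R4_9
import Vale.Agent.P236K.K53.R4_10
import Vale.Agent.P236K.K53.R4_11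
import Vale.Agent.P236K.K53.R4_12
import Vale.Agent.P236K.K53.R4_13
import Vale.Agent.P236K.K53.R4_14
import Vale.Agent.P236K.K53.R4_15
import Vale.Agent.P236K.K53.R4_16
import Vale.Agent.P236K.K53.R4_17
import Vale.Agent.P236K.K53.R4_18
import Vale.Agent.P236K.K53.R4_19
import Vale.Agent.P236K.K53.R4_20

/-!
# P236K / K53 / S4 : the step from degree 4 (generated)
-/

noncomputable section

namespace Vale.Agent.P236K.Cert.K53

/-- rows -/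
noncomputable def rows4 : List ℕ := (mrg (mrg (mrg (mrg r4_0 r4_1) (mrg r4_2 (mrg r4_3 r4_4))) (mrg (mrg r4_5 r4_6) (mrg r4_7 (mrg r4_8 r4_9)))) (mrg (mrg (mrg r4_10 r4_11) (mrg r4_12 (mrg r4_13 r4_14))) (mrg (mrg r4_15 (mrg r4_16 r4_17)) (mrg r4_18 (mrg r4_19 r4_20)))))

theorem lv4 : levF Q4 Q5 ly4.gl rows4 = true := by decide +kernel

theorem stp4 : Stp Q4 Q5 ly4.gl :=
  Stp.ofF (rows := rows4) (RowsAll.mrg (RowsAll.mrg (RowsAll.mrg (RowsAll.mrg (RowsAll.ofF c4_0) (RowsAll.ofF c4_1)) (RowsAll.mrg (RowsAll.ofF c4_2) (RowsAll.mrg (RowsAll.ofF c4_3) (RowsAll.ofF c4_4)))) (RowsAll.mrg (RowsAll.mrg (RowsAll.ofF c4_5) (RowsAll.ofF c4_6)) (RowsAll.mrg (RowsAll.ofF c4_7) (RowsAll.mrg (RowsAll.ofF c4_8) (RowsAll.ofF c4_9))))) (RowsAll.mrg (RowsAll.mrg (RowsAll.mrg (RowsAll.ofF c4_10) (RowsAll.ofF c4_11)) (RowsAll.mrg (RowsAll.ofF c4_12) (RowsAll.mrg (RowsAll.ofF c4_13)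 (RowsAll.ofF c4_14)))) (RowsAll.mrg (RowsAll.mrg (RowsAll.ofF c4_15) (RowsAll.mrg (RowsAll.ofF c4_16) (RowsAll.ofF c4_17))) (RowsAll.mrg (RowsAll.ofF c4_18) (RowsAll.mrg (RowsAll.ofF c4_19) (RowsAll.ofF c4_20)))))) lv4

end Vale.Agent.P236K.Cert.K53
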