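import Vale.Agent.P236K.Cert.Fast
import Vale.Agent.P236K.K53.N5
import Vale.Agent.P236K.K53.N6

/-!
# P236K / K53 / R5_10 : rows of degree 5 (generated)
-/

noncomputable section

namespace Vale.Agent.P236K.Cert.K53

/-- rows -/
noncomputable def r5_10 : List ℕ := [28991029298, 28991029299, 28991029300, 28991029301, 28991029302, 28991029303, 28991029304, 28991029305, 28991029306, 28991029307, 28991029308, 28991029309, 28991029310, 28991029311, 28991029312, 28991029313, 28991029422, 28991029423, 28991029424, 28991029425, 28991029426, 28991029427, 28991029428, 28991029429, 28991029430, 28991029431, 28991029432, 28991029433, 28991029434, 28991029435, 28991029436, 28991029437, 28991029546, 28991029547, 28991029548, 28991029550, 28991029551, 28991029552, 28991029553, 28991029554, 28991029555, 28991029556, 28991029557, 28991029558, 28991029559, 28991029560, 28991029561, 28991029670, 28991029671, 28991029672, 28991029673, 28991029674, 28991029675, 28991029676, 28991029678, 28991029679, 28991029680, 28991029681, 28991029682, 28991029683, 28991029684, 28991029685, 28991029794, 28991029795, 28991029798, 28991029799, 28991029800, 28991029801, 28991029802, 28991029803, 28991029804, 28991029806, 28991029807, 28991029808, 28991029809, 28991029918, 28991029919,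 28991029920, 28991029921, 28991029922, 28991029923, 28991029926, 28991029927, 28991029928, 28991029929, 28991029930, 28991029931, 28991029932, 28991030042, 28991030046, 28991030047, 28991030048, 28991030049, 28991030050, 28991030051, 28991030054, 28991030055, 28991030056, 28991030057, 28991030166, 28991030167, 28991030168, 28991030169, 28991030170, 28991030174, 28991030175, 28991030176, 28991030177, 28991030178, 28991030179, 28991030291, 28991030292, 28991030293, 28991030294, 28991030295, 28991030296, 28991030297, 28991030298, 28991030302, 28991030303, 28991030304, 28991030305, 28991030413, 28991030414, 28991030415, 28991030416, 28991030417, 28991030420, 28991030421, 28991030422, 28991030423, 28991030424, 28991030425, 28991030426, 28991030540, 28991030541, 28991030542, 28991030543, 28991030544, 28991030545, 28991030548, 28991030549, 28991030550, 28991030551, 28991030552, 28991030661, 28991030662, 28991030663, 28991030664, 28991030668, 28991030669, 28991030670, 28991030671, 28991030672, 28991030673, 28991030675, 28991030789, 28991030791, 28991030792, 28991030796, 28991030797, 28991030798, 28991030799, 28991030917, 28991030919, 28991030920, 28991031045, 28991031046, 28991078412, 28991078413, 28991078414, 28991078415, 28991078416, 28991078417,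 28991078420, 28991078421, 28991078422, 28991078423, 28991078424, 28991078425, 28991078535, 28991078536, 28991078540, 28991078541, 28991078542, 28991078543, 28991078544, 28991078545, 28991078548, 28991078549, 28991078661, 28991078662, 28991078663, 28991078664, 28991078668, 28991078669, 28991078670, 28991078671, 28991078672, 28991078673, 28991078789, 28991078791, 28991078792, 28991078796, 28991078797, 28991078917, 28991078919, 28991078920, 28991079045]

theorem c5_10 : rowsF (par Q5 Q6 fm3 zr fe1 zr) r5_10 = true := by decide +kernel


end Vale.Agent.P236K.Cert.K53
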