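import Vale.Agent.P236K.Cert.Fast
import Vale.Agent.P236K.K53.N5
import Vale.Agent.P236K.K53.N6

/-!
# P236K / K53 / R5_12 : rows of degree 5 (generated)
-/

noncomputable section

namespace Vale.Agent.P236K.Cert.K53

/-- rows -/
noncomputable def r5_12 : List ℕ := [29259464764, 29259464765, 29259464766, 29259464767, 29259464768, 29259464769, 29259464888, 29259464889, 29259464890, 29259464891, 29259464892, 29259465012, 29259465013, 29259465014, 29259465015, 29259465016, 29259465136, 29259465137, 29259465138, 29259465139, 29259465140, 29259465260, 29259465261, 29259465262, 29259465263, 29259465264, 29259465384, 29259465385, 29259465386, 29259465387, 29259465508, 29259465509, 29259465510, 29259465511, 29259465632, 29259465634, 29259465635, 29259465756, 29259465757, 29259465759, 29259465880, 29259465881, 29259465882, 29259466004, 29259466005, 29259466006, 29259466128, 29259466130, 29259466376, 29259513877, 29259513878, 29259513879, 29259513880, 29259514001, 29259514002, 29259514003, 29259514004, 29259514128, 29259514376, 29527900177, 29527900179, 29527900180, 29527900182, 29527900183, 29527900184, 29527900185, 29527900186, 29527900189, 29527900192, 29527900195, 29527900198, 29527900200, 29527900201, 29527900203, 29527900204, 29527900205, 29527900206,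 29527900207, 29527900208, 29527900209, 29527900210, 29527900211, 29527900212, 29527900213, 29527900215, 29527900305, 29527900307, 29527900308, 29527900310, 29527900311, 29527900312, 29527900313, 29527900314, 29527900317, 29527900320, 29527900322, 29527900323, 29527900326, 29527900328, 29527900329, 29527900331, 29527900332, 29527900333, 29527900334, 29527900335, 29527900336, 29527900337, 29527900338, 29527900339, 29527900433, 29527900435, 29527900436, 29527900438, 29527900439, 29527900440, 29527900441, 29527900442, 29527900445, 29527900448, 29527900450, 29527900451, 29527900454, 29527900455, 29527900456, 29527900457, 29527900458, 29527900459, 29527900460, 29527900461, 29527900462, 29527900463, 29527900561, 29527900563, 29527900564, 29527900566, 29527900567, 29527900568, 29527900569, 29527900570, 29527900573, 29527900576, 29527900579, 29527900582, 29527900584, 29527900585, 29527900587, 29527900689, 29527900691, 29527900692, 29527900694, 29527900695, 29527900696, 29527900697, 29527900698, 29527900701, 29527900704, 29527900706, 29527900707, 29527900710, 29527900817, 29527900819, 29527900820, 29527900822, 29527900823, 29527900824, 29527900825, 29527900826, 29527900829, 29527900832, 29527900834, 29527900835, 29527900945, 29527900947, 29527900948,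 29527900950, 29527900951, 29527900952, 29527900953, 29527900954, 29527900957, 29527901073, 29527901075, 29527901076, 29527901078, 29527901079, 29527901080, 29527901081, 29527901082, 29527901201, 29527901203, 29527901204, 29527901206, 29527901329]

theorem c5_12 : rowsF (par Q5 Q6 fm3 zr fe1 zr) r5_12 = true := by decide +kernel


end Vale.Agent.P236K.Cert.K53
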