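import Vale.Agent.P236K.Cert.Fast
import Vale.Agent.P236K.K53.N5
import Vale.Agent.P236K.K53.N6

/-!
# P236K / K53 / R5_14 : rows of degree 5 (generated)
-/

noncomputable section

namespace Vale.Agent.P236K.Cert.K53

/-- rows -/
noncomputable def r5_14 : List ℕ := [29796335667, 29796335668, 29796335669, 29796335670, 29796335671, 29796335672, 29796335673, 29796335674, 29796335675, 29796335791, 29796335792, 29796335793, 29796335794, 29796335795, 29796335796, 29796335797, 29796335798, 29796335915, 29796335916, 29796335917, 29796335918, 29796335919, 29796335920, 29796335921, 29796336039, 29796336040, 29796336041, 29796336042, 29796336043, 29796336044, 29796336045, 29796336046, 29796336163, 29796336164, 29796336165, 29796336166, 29796336167, 29796336168, 29796336169, 29796336170, 29796336287, 29796336288, 29796336289, 29796336290, 29796336291, 29796336292, 29796336293, 29796336294, 29796336410, 29796336415, 29796336416, 29796336534, 29796336535, 29796336536, 29796336537, 29796336538, 29796336658, 29796336659, 29796336660, 29796336661, 29796336662, 29796336663, 29796336664, 29796336782, 29796336783, 29796336784, 29796336785, 29796336786, 29796336787, 29796336788, 29796336906, 29796336907, 29796336908, 29796336909, 29796336910, 29796336911, 29796337030,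 29796337031, 29796337032, 29796337033, 29796337034, 29796384779, 29796384780, 29796384781, 29796384782, 29796384783, 29796384784, 29796384785, 29796384786, 29796384903, 29796384904, 29796384905, 29796384906, 29796384907, 29796384908, 29796384909, 29796385030, 29796385031, 29796385032, 30064771092, 30064771095, 30064771097, 30064771098, 30064771109, 30064771110, 30064771112, 30064771113, 30064771114, 30064771115, 30064771116, 30064771117, 30064771118, 30064771119, 30064771120, 30064771121, 30064771122, 30064771123, 30064771124, 30064771125, 30064771128, 30064771220, 30064771223, 30064771225, 30064771226, 30064771237, 30064771238, 30064771240, 30064771241, 30064771242, 30064771243, 30064771244, 30064771245, 30064771246, 30064771247, 30064771248, 30064771249, 30064771250, 30064771251, 30064771252, 30064771348, 30064771351, 30064771352, 30064771353, 30064771354, 30064771365, 30064771366, 30064771368, 30064771369, 30064771370, 30064771371, 30064771372, 30064771373, 30064771374, 30064771375, 30064771476, 30064771479, 30064771481, 30064771482, 30064771493, 30064771494, 30064771496, 30064771497, 30064771498, 30064771499, 30064771604, 30064771607, 30064771609, 30064771610, 30064771621, 30064771622, 30064771732, 30064771735, 30064771736, 30064771737,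 30064771738, 30064771860, 30064771863, 30064771865, 30064771866, 30064771988, 30064771991, 30064771993, 30064771994, 30064772116, 30064772119]

theorem c5_14 : rowsF (par Q5 Q6 fm3 zr fe1 zr) r5_14 = true := by decide +kernel


end Vale.Agent.P236K.Cert.K53
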