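import Vale.Agent.P236K.Cert.Fast
import Vale.Agent.P236K.K53.N5
import Vale.Agent.P236K.K53.N6

/-!
# P236K / K53 / R5_15 : rows of degree 5 (generated)
-/

noncomputable section

namespace Vale.Agent.P236K.Cert.K53

/-- rows -/
noncomputable def r5_15 : List ℕ := [30064771253, 30064771376, 30064771377, 30064771500, 30064771501, 30064771624, 30064771625, 30064771749, 30064772120, 30333206582, 30333206583, 30333206584, 30601642004, 30601642007, 30601642010, 30601642030, 30601642031, 30601642033, 30601642034, 30601642036, 30601642037, 30601642132, 30601642135, 30601642138, 30601642158, 30601642159, 30601642161, 30601642162, 30601642260, 30601642263, 30601642266, 30601642286, 30601642287, 30601642388, 30601642391, 30601642394, 30601642516, 30601642519, 30601642522, 30601642644, 30601642647, 30601642650, 30601642772, 30601642775, 30601642778, 30601642900, 30601642903, 30601642906, 30601643028, 30870077494, 31138512905, 31138512906, 31138512907, 31138512908, 31138512909, 31138512910, 31138512911, 31138512912, 31138512913, 31138512914, 31138512915, 31138512916, 31138512917, 31138512918, 31138512919, 31138512920, 31138512921, 31138512922, 31138512929, 31138512930, 31138512931, 31138512932, 31138512933, 31138512934, 31138512935, 31138512936, 31138512937,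 31138512938, 31138512939, 31138512940, 31138512941, 31138512942, 31138512943, 31138512944, 31138512945, 31138513033, 31138513034, 31138513035, 31138513036, 31138513037, 31138513038, 31138513039, 31138513040, 31138513041, 31138513042, 31138513043, 31138513044, 31138513045, 31138513046, 31138513047, 31138513048, 31138513049, 31138513050, 31138513056, 31138513057, 31138513058, 31138513059, 31138513060, 31138513061, 31138513062, 31138513063, 31138513064, 31138513065, 31138513066, 31138513067, 31138513068, 31138513069, 31138513161, 31138513162, 31138513163, 31138513164, 31138513165, 31138513166, 31138513167, 31138513168, 31138513169, 31138513170, 31138513171, 31138513172, 31138513173, 31138513174, 31138513175, 31138513176, 31138513177, 31138513178, 31138513184, 31138513185, 31138513186, 31138513187, 31138513188, 31138513189, 31138513190, 31138513191, 31138513192, 31138513193, 31138513289, 31138513290, 31138513291, 31138513292, 31138513293, 31138513294, 31138513295, 31138513296, 31138513297, 31138513298, 31138513299, 31138513300, 31138513301, 31138513302, 31138513303, 31138513304, 31138513305, 31138513306, 31138513313, 31138513314, 31138513315, 31138513316, 31138513317, 31138513417, 31138513418, 31138513419, 31138513420, 31138513421, 31138513422, 31138513423,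 31138513424, 31138513425, 31138513426, 31138513427, 31138513428, 31138513429, 31138513430, 31138513431, 31138513432, 31138513433, 31138513434, 31138513440, 31138513441, 31138513545, 31138513546, 31138513547, 31138513548, 31138513549, 31138513550, 31138513551, 31138513552, 31138513553, 31138513554, 31138513555, 31138513556, 31138513557, 31138513558, 31138513559, 31138513560, 31138513561, 31138513562, 31138513673, 31138513674, 31138513675, 31138513676, 31138513677, 31138513678, 31138513679, 31138513680, 31138513681, 31138513682, 31138513683, 31138513684, 31138513685, 31138513686, 31138513687, 31138513688, 31138513689, 31138513801, 31138513802, 31138513803, 31138513804, 31138513805, 31138513806, 31138513807, 31138513808, 31138513809, 31138513810, 31138513811, 31138513812, 31138513813, 31138513929, 31138513930, 31138513931, 31138513932, 31138513933, 31138513934, 31138513935, 31138513936, 31138513937, 31138514057, 31138514058, 31138514059, 31138514060, 31138562057]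

theorem c5_15 : rowsF (par Q5 Q6 fm3 zr fe1 zr) r5_15 = true := by decide +kernel


end Vale.Agent.P236K.Cert.K53
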