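import Vale.Agent.P236K.Cert.Fast
import Vale.Agent.P236K.K53.N5
import Vale.Agent.P236K.K53.N6

/-!
# P236K / K53 / R5_16 : rows of degree 5 (generated)
-/

noncomputable section

namespace Vale.Agent.P236K.Cert.K53

/-- rows -/
noncomputable def r5_16 : List ℕ := [31138512946, 31138512947, 31138512948, 31138513070, 31138513071, 31138513072, 31138513194, 31138513195, 31138513196, 31138513318, 31138513319, 31138513320, 31138513442, 31138513443, 31138513444, 31138513568, 31138513690, 31138513814, 31138513815, 31138513938, 31138513939, 31138514061, 31138514062, 31138514185, 31138514186, 31138562058, 31138562059, 31138562060, 31943819279, 31943819280, 31943819281, 31943819284, 31943819285, 31943819286, 31943819287, 31943819288, 31943819289, 31943819290, 31943819293, 31943819296, 31943819299, 31943819300, 31943819301, 31943819302, 31943819303, 31943819304, 31943819305, 31943819306, 31943819307, 31943819308, 31943819309, 31943819310, 31943819311, 31943819407, 31943819408, 31943819409, 31943819411, 31943819412, 31943819413, 31943819414, 31943819415, 31943819416, 31943819417, 31943819418, 31943819421, 31943819424, 31943819427, 31943819428, 31943819429, 31943819430, 31943819431, 31943819432, 31943819433, 31943819434, 31943819535, 31943819536, 31943819537,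 31943819539, 31943819540, 31943819541, 31943819542, 31943819543, 31943819544, 31943819545, 31943819546, 31943819549, 31943819552, 31943819555, 31943819556, 31943819557, 31943819558, 31943819663, 31943819664, 31943819665, 31943819668, 31943819669, 31943819670, 31943819671, 31943819672, 31943819673, 31943819674, 31943819677, 31943819680, 31943819791, 31943819792, 31943819793, 31943819795, 31943819796, 31943819797, 31943819798, 31943819799, 31943819800, 31943819801, 31943819802, 31943819805, 31943819919, 31943819920, 31943819921, 31943819923, 31943819924, 31943819925, 31943819926, 31943819927, 31943819928, 31943819929, 31943820047, 31943820048, 31943820049, 31943820052, 31943820053, 31943820175, 31943820176, 31943820177, 32480690191, 32480690192, 32480690193, 32480690194, 32480690195, 32480690196, 32480690197, 32480690198, 32480690199, 32480690200, 32480690201, 32480690202, 32480690205, 32480690207, 32480690208, 32480690210, 32480690211, 32480690213, 32480690214, 32480690216, 32480690217, 32480690319, 32480690320, 32480690321, 32480690322, 32480690323, 32480690324, 32480690325, 32480690326, 32480690327, 32480690328, 32480690329, 32480690330, 32480690333, 32480690335, 32480690336, 32480690338, 32480690339, 32480690340, 32480690341, 32480690447, 32480690448,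 32480690449, 32480690450, 32480690451, 32480690452, 32480690453, 32480690454, 32480690455, 32480690456, 32480690457, 32480690458, 32480690460, 32480690461, 32480690463, 32480690464, 32480690575, 32480690576, 32480690577, 32480690578, 32480690579, 32480690580, 32480690581, 32480690582, 32480690583, 32480690584, 32480690585, 32480690586, 32480690703, 32480690704, 32480690705, 32480690706, 32480690707, 32480690708, 32480690709, 32480690710, 32480690711, 32480690831, 32480690832, 32480690833, 32480690834, 32480690835, 32480690959, 32749125652, 32749125655, 32749125656, 32749125657, 32749125658, 32749125670, 32749125780, 32749125783, 32749125784, 32749125785, 32749125786, 32749125908, 32749125911, 32749125912, 32749125913, 32749125914, 32749126036, 32749126039, 32749126040, 32749126041, 32749126042, 32749126164, 33017561104, 33017561105, 33017561109, 33017561110, 33017561111, 33017561112, 33017561113, 33017561232, 33017561233, 33017561237, 33017561360, 33017561361]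

theorem c5_16 : rowsF (par Q5 Q6 fm3 zr fe1 zr) r5_16 = true := by decide +kernel


end Vale.Agent.P236K.Cert.K53
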