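import Vale.Agent.P236K.Cert.Fast
import Vale.Agent.P236K.K53.N5
import Vale.Agent.P236K.K53.N6

/-!
# P236K / K53 / R5_17 : rows of degree 5 (generated)
-/

noncomputable section

namespace Vale.Agent.P236K.Cert.K53

/-- rows -/
noncomputable def r5_17 : List ℕ := [33017561114, 33017561118, 33017561119, 33017561120, 33017561121, 33017561122, 33017561238, 33017561239, 33017561240, 33017561241, 33017561242, 33017561246, 33017561365, 33017561366, 33017561367, 33017561368, 33017561369, 33017561488, 33017561489, 33017561493, 33017561616, 33017561617, 33285996548, 33285996549, 33285996551, 33285996552, 33285996554, 33285996555, 33285996557, 33285996558, 33285996560, 33285996561, 33285996562, 33285996563, 33285996564, 33285996565, 33285996566, 33285996567, 33285996568, 33285996569, 33285996570, 33285996673, 33285996674, 33285996676, 33285996677, 33285996679, 33285996680, 33285996682, 33285996683, 33285996685, 33285996686, 33285996688, 33285996689, 33285996690, 33285996691, 33285996692, 33285996693, 33285996694, 33285996801, 33285996802, 33285996804, 33285996805, 33285996807, 33285996808, 33285996810, 33285996811, 33285996813, 33285996814, 33285996816, 33285996817, 33285996818, 33285996932, 33285996933, 33285996935, 33285996936, 33285996938, 33285996939,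 33285996941, 33285996942, 33285997057, 33285997058, 33285997060, 33285997061, 33285997063, 33285997064, 33285997066, 33285997185, 33285997186, 33285997188, 33285997189, 33554432011, 33554432014, 33554432017, 33554432018, 33554432019, 33554432020, 33554432021, 33554432022, 33554432023, 33554432024, 33554432139, 33554432142, 33554432145, 33554432146, 33554432147, 33554432148, 33554432267, 33554432270, 33554432395, 33822867462, 33822867463, 33822867464, 33822867466, 33822867467, 33822867468, 33822867469, 33822867470, 33822867471, 33822867472, 33822867473, 33822867474, 33822867475, 33822867476, 33822867477, 33822867478, 33822867479, 33822867480, 33822867589, 33822867590, 33822867591, 33822867592, 33822867594, 33822867595, 33822867596, 33822867597, 33822867598, 33822867599, 33822867600, 33822867601, 33822867602, 33822867603, 33822867604, 33822867715, 33822867716, 33822867717, 33822867718, 33822867719, 33822867720, 33822867721, 33822867722, 33822867723, 33822867724, 33822867725, 33822867726, 33822867727, 33822867728, 33822867846, 33822867847, 33822867848, 33822867850, 33822867851, 33822867852, 33822867973, 33822867974, 33822867975, 33822867976, 33822868099, 33822868100, 34091302932, 34091302934, 34091302935, 34091303059, 34359738390, 34359738391,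 35165044743, 35165044744, 35165044746, 35165044747, 35165044749, 35165044750, 35165044751, 35165044752, 35165044753, 35165044755, 35165044870, 35165044871, 35165044872, 35165044874, 35165044875, 35165044877, 35165044878, 35165044998, 35165044999, 35165045000, 35165045001, 35165045002]

theorem c5_17 : rowsF (par Q5 Q6 fm3 zr fe1 zr) r5_17 = true := by decide +kernel


end Vale.Agent.P236K.Cert.K53
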