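import Vale.Agent.P236K.Cert.Fast
import Vale.Agent.P236K.K53.N5
import Vale.Agent.P236K.K53.N6

/-!
# P236K / K53 / R5_3 : rows of degree 5 (generated)
-/

noncomputable section

namespace Vale.Agent.P236K.Cert.K53

/-- rows -/
noncomputable def r5_3 : List ℕ := [27648852026, 27648852027, 27648852028, 27648852029, 27648852030, 27648852031, 27648852032, 27648852033, 27648852034, 27648852035, 27648852036, 27648852037, 27648852038, 27648852039, 27648852040, 27648852041, 27648852042, 27648852150, 27648852151, 27648852152, 27648852153, 27648852154, 27648852155, 27648852156, 27648852157, 27648852158, 27648852159, 27648852160, 27648852161, 27648852162, 27648852163, 27648852164, 27648852165, 27648852166, 27648852274, 27648852275, 27648852276, 27648852277, 27648852278, 27648852279, 27648852280, 27648852281, 27648852282, 27648852283, 27648852284, 27648852285, 27648852286, 27648852287, 27648852288, 27648852289, 27648852290, 27648852398, 27648852399, 27648852400, 27648852401, 27648852402, 27648852403, 27648852404, 27648852405, 27648852406, 27648852407, 27648852408, 27648852409, 27648852410, 27648852411, 27648852412, 27648852413, 27648852414, 27648852522, 27648852523, 27648852524, 27648852525, 27648852526, 27648852527, 27648852528, 27648852529, 27648852530, 27648852531,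 27648852532, 27648852533, 27648852534, 27648852535, 27648852536, 27648852537, 27648852538, 27648852646, 27648852647, 27648852648, 27648852649, 27648852650, 27648852651, 27648852652, 27648852653, 27648852654, 27648852655, 27648852656, 27648852657, 27648852658, 27648852659, 27648852660, 27648852661, 27648852662, 27648852770, 27648852771, 27648852772, 27648852773, 27648852774, 27648852775, 27648852776, 27648852777, 27648852778, 27648852779, 27648852780, 27648852781, 27648852782, 27648852783, 27648852784, 27648852785, 27648852786, 27648852894, 27648852895, 27648852896, 27648852897, 27648852898, 27648852899, 27648852900, 27648852901, 27648852902, 27648852903, 27648852904, 27648852905, 27648852906, 27648852907, 27648852908, 27648852909, 27648852910, 27648853018, 27648853019, 27648853020, 27648853021, 27648853022, 27648853023, 27648853024, 27648853025, 27648853026, 27648853027, 27648853028, 27648853029, 27648853030, 27648853031, 27648853032, 27648853033, 27648853034, 27648853142, 27648853143, 27648853144, 27648853145, 27648853146, 27648853147, 27648853148, 27648853149, 27648853150, 27648853151, 27648853152, 27648853153, 27648853154, 27648853155, 27648853156, 27648853157, 27648853158, 27648853265, 27648853268, 27648853270, 27648853271, 27648853272, 27648853273,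 27648853274, 27648853275, 27648853276, 27648853277, 27648853278, 27648853279, 27648853280, 27648853281, 27648853282, 27648853391, 27648853392, 27648853393, 27648853396, 27648853398, 27648853399, 27648853400, 27648853401, 27648853402, 27648853403, 27648853404, 27648853405, 27648853406, 27648853519, 27648853520, 27648853521, 27648853524, 27648853526, 27648853527, 27648853528, 27648853529, 27648853639, 27648853640, 27648853647, 27648853648, 27648853649, 27648853652, 27648853767, 27648853768, 27648853775, 27648853776, 27648853895, 27648853896, 27648901140, 27648901142, 27648901143, 27648901144, 27648901145, 27648901146, 27648901147, 27648901148, 27648901149, 27648901150, 27648901151, 27648901152, 27648901153, 27648901154, 27648901155, 27648901263, 27648901264, 27648901265, 27648901268, 27648901270, 27648901271, 27648901272, 27648901273, 27648901274, 27648901275, 27648901276, 27648901277, 27648901278, 27648901279, 27648901391, 27648901392, 27648901393, 27648901396, 27648901398, 27648901399, 27648901400, 27648901401, 27648901402, 27648901403, 27648901511, 27648901512, 27648901519, 27648901520, 27648901521, 27648901524, 27648901526, 27648901527, 27648901639, 27648901640, 27648901647, 27648901648, 27648901649, 27648901767, 27648901768, 27648901895, 27648901896]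

theorem c5_3 : rowsF (par Q5 Q6 fm3 zr fe1 zr) r5_3 = true := by decide +kernel


end Vale.Agent.P236K.Cert.K53
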