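import Vale.Agent.P236K.Cert.Fast
import Vale.Agent.P236K.K53.N5
import Vale.Agent.P236K.K53.N6

/-!
# P236K / K53 / R5_5 : rows of degree 5 (generated)
-/

noncomputable section

namespace Vale.Agent.P236K.Cert.K53

/-- rows -/
noncomputable def r5_5 : List ℕ := [27917287488, 27917287489, 27917287490, 27917287491, 27917287492, 27917287493, 27917287494, 27917287495, 27917287496, 27917287497, 27917287612, 27917287613, 27917287614, 27917287615, 27917287616, 27917287617, 27917287618, 27917287619, 27917287620, 27917287621, 27917287736, 27917287737, 27917287738, 27917287739, 27917287740, 27917287741, 27917287742, 27917287743, 27917287744, 27917287745, 27917287860, 27917287861, 27917287862, 27917287863, 27917287864, 27917287865, 27917287866, 27917287867, 27917287868, 27917287869, 27917287984, 27917287985, 27917287986, 27917287987, 27917287988, 27917287989, 27917287990, 27917287991, 27917287992, 27917287993, 27917288108, 27917288109, 27917288110, 27917288111, 27917288112, 27917288113, 27917288114, 27917288115, 27917288116, 27917288117, 27917288232, 27917288233, 27917288234, 27917288235, 27917288236, 27917288237, 27917288238, 27917288239, 27917288240, 27917288241, 27917288356, 27917288357, 27917288358, 27917288359, 27917288360, 27917288361,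 27917288362, 27917288363, 27917288364, 27917288365, 27917288480, 27917288481, 27917288482, 27917288483, 27917288484, 27917288485, 27917288486, 27917288487, 27917288488, 27917288489, 27917288605, 27917288607, 27917288608, 27917288609, 27917288610, 27917288611, 27917288612, 27917288613, 27917288728, 27917288729, 27917288730, 27917288733, 27917288735, 27917288736, 27917288856, 27917288857, 27917288858, 27917288976, 27917288977, 27917288984, 27917289103, 27917289104, 27917289105, 27917289224, 27917289231, 27917289351, 27917289352, 27917336600, 27917336601, 27917336602, 27917336605, 27917336607, 27917336608, 27917336609, 27917336610, 27917336728, 27917336729, 27917336730, 27917336733, 27917336848, 27917336849, 27917336856, 27917336857, 27917336858, 27917336975, 27917336976, 27917336977, 27917337096, 27917337103, 27917337104, 27917337105, 27917337223, 27917337224, 27917337351, 27917337352]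

theorem c5_5 : rowsF (par Q5 Q6 fm3 zr fe1 zr) r5_5 = true := by decide +kernel


end Vale.Agent.P236K.Cert.K53
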