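import Vale.Agent.P236K.Cert.LevF
import Vale.Agent.P236K.Cert.FastEq
import Vale.Agent.P236K.K53.R5_0
import Vale.Agent.P236K.K53.R5_1
import Vale.Agent.P236K.K53.R5_2
import Vale.Agent.P236K.K53.R5_3
import Vale.Agent.P236K.K53.R5_4
import Vale.Agent.P236K.K53.R5_5
import Vale.Agent.P236K.K53.R5_6
import Vale.Agent.P236K.K53.R5_7
import Vale.Agent.P236K.K53.R5_8
import Vale.Agent.P236K.K53.R5_9
import Vale.Agent.P236K.K53.R5_10
import Vale.Agent.P236K.K53.R5_11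
import Vale.Agent.P236K.K53.R5_12
import Vale.Agent.P236K.K53.R5_13
import Vale.Agent.P236K.K53.R5_14
import Vale.Agent.P236K.K53.R5_15
import Vale.Agent.P236K.K53.R5_16
import Vale.Agent.P236K.K53.R5_17

/-!
# P236K / K53 / S5 : the step from degree 5 (generated)
-/

noncomputable section

namespace Vale.Agent.P236K.Cert.K53

/-- rows -/
noncomputable def rows5 : List ℕ := (mrg (mrg (mrg (mrg r5_0 r5_1) (mrg r5_2 r5_3)) (mrg (mrg r5_4 r5_5) (mrg r5_6 (mrg r5_7 r5_8)))) (mrg (mrg (mrg r5_9 r5_10) (mrg r5_11 r5_12)) (mrg (mrg r5_13 r5_14) (mrg r5_15 (mrg r5_16 r5_17)))))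

theorem lv5 : levF Q5 Q6 ly5.gl rows5 = true := by decide +kernel

theorem stp5 : Stp Q5 Q6 ly5.gl :=
  Stp.ofF (rows := rows5) (RowsAll.mrg (RowsAll.mrg (RowsAll.mrg (RowsAll.mrg (RowsAll.ofF c5_0) (RowsAll.ofF c5_1)) (RowsAll.mrg (RowsAll.ofF c5_2) (RowsAll.ofF c5_3))) (RowsAll.mrg (RowsAll.mrg (RowsAll.ofF c5_4) (RowsAll.ofF c5_5)) (RowsAll.mrg (RowsAll.ofF c5_6) (RowsAll.mrg (RowsAll.ofF c5_7) (RowsAll.ofF c5_8))))) (RowsAll.mrg (RowsAll.mrg (RowsAll.mrg (RowsAll.ofF c5_9) (RowsAll.ofF c5_10)) (RowsAll.mrg (RowsAll.ofF c5_11) (RowsAll.ofF c5_12))) (RowsAll.mrg (RowsAll.mrg (RowsAll.ofF c5_13) (RowsAll.ofF c5_14)) (RowsAll.mrg (RowsAll.ofF c5_15) (RowsAll.mrg (RowsAll.ofF c5_16) (RowsAll.ofF c5_17)))))) lv5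

end Vale.Agent.P236K.Cert.K53
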