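import Vale.Agent.P236K.Cert.Fast
import Vale.Agent.P236K.K53.N6
import Vale.Agent.P236K.K53.N7

/-!
# P236K / K53 / R6_4 : rows of degree 6 (generated)
-/

noncomputable section

namespace Vale.Agent.P236K.Cert.K53

/-- rows -/
noncomputable def r6_4 : List ℕ := [42412802108, 42412802109, 42412802110, 42412802111, 42412802112, 42412802113, 42412802114, 42412802115, 42412802116, 42412802117, 42412802232, 42412802233, 42412802234, 42412802235, 42412802236, 42412802237, 42412802238, 42412802239, 42412802240, 42412802356, 42412802357, 42412802358, 42412802359, 42412802360, 42412802361, 42412802362, 42412802363, 42412802364, 42412802480, 42412802481, 42412802482, 42412802483, 42412802484, 42412802485, 42412802486, 42412802487, 42412802488, 42412802489, 42412802604, 42412802606, 42412802607, 42412802608, 42412802609, 42412802610, 42412802611, 42412802612, 42412802728, 42412802729, 42412802730, 42412802731, 42412802732, 42412802733, 42412802734, 42412802735, 42412802736, 42412802851, 42412802853, 42412802854, 42412802855, 42412802856, 42412802857, 42412802858, 42412802859, 42412802976, 42412802977, 42412802978, 42412802979, 42412802981, 42412802982, 42412802983, 42412803104, 42412803105, 42412803106, 42412803223, 42412803224, 42412803225, 42412803226, 42412803350,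 42412803351, 42412803352, 42412803353, 42412803354, 42412803471, 42412803472, 42412803473, 42412803478, 42412803598, 42412803599, 42412803600, 42412851222, 42412851223, 42412851224, 42412851225, 42412851226, 42412851344, 42412851345, 42412851350, 42412851351, 42412851352, 42412851353, 42412851470, 42412851471, 42412851472, 42412851473, 42412851592, 42412851598, 42412851599, 42681237511, 42681237512, 42681237519, 42681237520, 42681237521, 42681237527, 42681237528, 42681237529, 42681237530, 42681237537, 42681237538, 42681237539, 42681237542, 42681237544, 42681237545, 42681237546, 42681237547, 42681237548, 42681237550, 42681237551, 42681237553, 42681237554, 42681237555, 42681237556, 42681237557, 42681237558, 42681237559, 42681237560, 42681237561, 42681237562, 42681237639, 42681237640, 42681237647, 42681237648, 42681237649, 42681237655, 42681237656, 42681237657, 42681237658, 42681237665, 42681237666, 42681237667, 42681237670, 42681237672, 42681237673, 42681237674, 42681237675, 42681237676, 42681237678, 42681237679, 42681237681, 42681237682, 42681237683, 42681237684, 42681237685, 42681237686, 42681237767, 42681237768, 42681237775, 42681237776, 42681237777, 42681237783, 42681237784, 42681237785, 42681237786, 42681237793, 42681237794, 42681237795, 42681237798,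 42681237800, 42681237801, 42681237802, 42681237803, 42681237804, 42681237806, 42681237807, 42681237809, 42681237810, 42681237895, 42681237896, 42681237903, 42681237904, 42681237905, 42681237911, 42681237912, 42681237913, 42681237914, 42681237921, 42681237922, 42681237923, 42681237926, 42681237928, 42681237929, 42681237930, 42681237931, 42681237932, 42681237934, 42681238023, 42681238024, 42681238031, 42681238032, 42681238033, 42681238039, 42681238040, 42681238041, 42681238042, 42681238049, 42681238050, 42681238051, 42681238054, 42681238056, 42681238057, 42681238058, 42681238151, 42681238152, 42681238159, 42681238160, 42681238161, 42681238167, 42681238168, 42681238169, 42681238170, 42681238177, 42681238178, 42681238179, 42681238182, 42681238279, 42681238280, 42681238287, 42681238288, 42681238289, 42681238295, 42681238296, 42681238297, 42681238298, 42681238305, 42681238306, 42681238407, 42681238408, 42681238415, 42681238416, 42681238417, 42681238423, 42681238424, 42681238425, 42681238426, 42681238535, 42681238536, 42681238543, 42681238544, 42681238545, 42681238551, 42681238552, 42681238553, 42681238554, 42681238663, 42681238664, 42681238671, 42681238672, 42681238673, 42681238791, 42681238792, 42681238799, 42681238800, 42681238801, 42681238919, 42681238920,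 42681239047, 42681239048, 42681286663, 42681286664, 42681286671, 42681286672, 42681286673, 42681286791, 42681286792, 42681286919, 42681286920]

theorem c6_4 : rowsF (par Q6 Q7 fm3 zr fe1 zr) r6_4 = true := by decide +kernel


end Vale.Agent.P236K.Cert.K53
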