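import Vale.Agent.P236K.Cert.Fast
import Vale.Agent.P236K.K53.N6
import Vale.Agent.P236K.K53.N7

/-!
# P236K / K53 / R6_5 : rows of degree 6 (generated)
-/

noncomputable section

namespace Vale.Agent.P236K.Cert.K53

/-- rows -/
noncomputable def r6_5 : List ℕ := [42681237563, 42681237564, 42681237565, 42681237566, 42681237567, 42681237568, 42681237569, 42681237570, 42681237571, 42681237687, 42681237688, 42681237689, 42681237690, 42681237691, 42681237692, 42681237693, 42681237694, 42681237695, 42681237811, 42681237812, 42681237813, 42681237814, 42681237815, 42681237816, 42681237817, 42681237818, 42681237935, 42681237937, 42681237938, 42681237939, 42681237940, 42681237941, 42681237942, 42681237943, 42681238059, 42681238060, 42681238062, 42681238063, 42681238065, 42681238066, 42681238184, 42681238185, 42681238186, 42681238187, 42681238188, 42681238190, 42681238307, 42681238310, 42681238312, 42681238313, 42681238314, 42681238433, 42681238434, 42681238435, 42681238561, 42681238679, 42681238680, 42681238681, 42681238682, 42681238807, 42681238808, 42681238927, 42681238928, 42681238929, 42681239055, 42681286679, 42681286680, 42681286681, 42681286682, 42681286799, 42681286800, 42681286801, 42681286807, 42681286927, 42681286928, 42681286929, 42681287047,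 42681287048, 42681287055, 42949672968, 42949672976, 42949672977, 42949672984, 42949672985, 42949672986, 42949672994, 42949672995, 42949673002, 42949673003, 42949673004, 42949673007, 42949673009, 42949673010, 42949673011, 42949673012, 42949673013, 42949673014, 42949673015, 42949673016, 42949673017, 42949673018, 42949673019, 42949673096, 42949673104, 42949673105, 42949673112, 42949673113, 42949673114, 42949673122, 42949673123, 42949673130, 42949673131, 42949673132, 42949673135, 42949673137, 42949673138, 42949673139, 42949673140, 42949673141, 42949673142, 42949673143, 42949673224, 42949673232, 42949673233, 42949673240, 42949673241, 42949673242, 42949673250, 42949673251, 42949673258, 42949673259, 42949673260, 42949673263, 42949673265, 42949673266, 42949673267, 42949673352, 42949673360, 42949673361, 42949673368, 42949673369, 42949673370, 42949673378, 42949673379, 42949673386, 42949673387, 42949673388, 42949673480, 42949673488, 42949673489, 42949673496, 42949673497, 42949673498, 42949673506, 42949673507, 42949673514, 42949673608, 42949673616, 42949673617, 42949673624, 42949673625, 42949673626, 42949673634, 42949673635, 42949673736, 42949673744, 42949673745, 42949673752, 42949673753, 42949673754, 42949673762, 42949673864, 42949673872, 42949673873,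 42949673880, 42949673881, 42949673882, 42949673992, 42949674000, 42949674001, 42949674008, 42949674009, 42949674010, 42949674120, 42949674128, 42949674129, 42949674248, 42949674256, 42949674257, 42949674376, 42949674504, 42949722120, 42949722128, 42949722129, 42949722248, 42949722376]

theorem c6_5 : rowsF (par Q6 Q7 fm3 zr fe1 zr) r6_5 = true := by decide +kernel


end Vale.Agent.P236K.Cert.K53
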