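import Vale.Agent.P236K.Cert.Fast
import Vale.Agent.P236K.K53.N6
import Vale.Agent.P236K.K53.N7

/-!
# P236K / K53 / R6_6 : rows of degree 6 (generated)
-/

noncomputable section

namespace Vale.Agent.P236K.Cert.K53

/-- rows -/
noncomputable def r6_6 : List ℕ := [42949673020, 42949673021, 42949673022, 42949673023, 42949673024, 42949673025, 42949673026, 42949673144, 42949673145, 42949673146, 42949673147, 42949673148, 42949673149, 42949673268, 42949673269, 42949673270, 42949673271, 42949673272, 42949673273, 42949673391, 42949673393, 42949673394, 42949673395, 42949673396, 42949673515, 42949673516, 42949673519, 42949673643, 42949673763, 42949673890, 42949673891, 42949674136, 42949674137, 42949674138, 42949674384, 42949674385, 42949722136, 42949722137, 42949722256, 42949722257, 42949722384, 42949722504, 43218108433, 43218108441, 43218108442, 43218108450, 43218108451, 43218108458, 43218108459, 43218108460, 43218108467, 43218108468, 43218108469, 43218108471, 43218108472, 43218108473, 43218108474, 43218108475, 43218108476, 43218108477, 43218108478, 43218108561, 43218108568, 43218108569, 43218108570, 43218108578, 43218108579, 43218108586, 43218108587, 43218108588, 43218108595, 43218108596, 43218108597, 43218108599, 43218108600, 43218108601,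 43218108602, 43218108687, 43218108688, 43218108689, 43218108696, 43218108697, 43218108698, 43218108706, 43218108707, 43218108714, 43218108715, 43218108716, 43218108723, 43218108724, 43218108725, 43218108817, 43218108825, 43218108826, 43218108834, 43218108835, 43218108842, 43218108843, 43218108844, 43218108945, 43218108952, 43218108953, 43218108954, 43218108962, 43218108963, 43218108970, 43218108971, 43218108972, 43218109071, 43218109072, 43218109073, 43218109080, 43218109081, 43218109082, 43218109090, 43218109091, 43218109098, 43218109201, 43218109209, 43218109210, 43218109218, 43218109219, 43218109329, 43218109336, 43218109337, 43218109338, 43218109455, 43218109456, 43218109457, 43218109464, 43218109465, 43218109466, 43218109585, 43218109713, 43218109839, 43218109840, 43218157585, 43218157713, 43218157839]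

theorem c6_6 : rowsF (par Q6 Q7 fm3 zr fe1 zr) r6_6 = true := by decide +kernel


end Vale.Agent.P236K.Cert.K53
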