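import Vale.Agent.P236K.Cert.LevF
import Vale.Agent.P236K.Cert.FastEq
import Vale.Agent.P236K.K53.R6_0
import Vale.Agent.P236K.K53.R6_1
import Vale.Agent.P236K.K53.R6_2
import Vale.Agent.P236K.K53.R6_3
import Vale.Agent.P236K.K53.R6_4
import Vale.Agent.P236K.K53.R6_5
import Vale.Agent.P236K.K53.R6_6
import Vale.Agent.P236K.K53.R6_7
import Vale.Agent.P236K.K53.R6_8

/-!
# P236K / K53 / S6 : the step from degree 6 (generated)
-/

noncomputable section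

namespace Vale.Agent.P236K.Cert.K53

/-- rows -/
noncomputable def rows6 : List ℕ := (mrg (mrg (mrg r6_0 r6_1) (mrg r6_2 r6_3)) (mrg (mrg r6_4 r6_5) (mrg r6_6 (mrg r6_7 r6_8))))

theorem lv6 : levF Q6 Q7 ly6.gl rows6 = true := by decide +kernel

theorem stp6 : Stp Q6 Q7 ly6.gl :=
  Stp.ofF (rows := rows6) (RowsAll.mrg (RowsAll.mrg (RowsAll.mrg (RowsAll.ofF c6_0) (RowsAll.ofF c6_1)) (RowsAll.mrg (RowsAll.ofF c6_2) (RowsAll.ofF c6_3))) (RowsAll.mrg (RowsAll.mrg (RowsAll.ofF c6_4) (RowsAll.ofF c6_5)) (RowsAll.mrg (RowsAll.ofF c6_6) (RowsAll.mrg (RowsAll.ofF c6_7) (RowsAll.ofF c6_8))))) lv6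

end Vale.Agent.P236K.Cert.K53
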