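import Vale.Agent.P236K.Cert.Fast
import Vale.Agent.P236K.K53.N7
import Vale.Agent.P236K.K53.N8

/-!
# P236K / K53 / R7_7 : rows of degree 7 (generated)
-/

noncomputable section

namespace Vale.Agent.P236K.Cert.K53

/-- rows -/
noncomputable def r7_7 : List ℕ := [60397977621, 60397977622, 60397977744, 60397977745, 60397977992, 60666413070, 60666413072, 60666413073, 60666413076, 60666413078, 60666413198, 60666413200, 60666413201, 60666413325, 61203283987, 62277025805, 62277025806, 62277025808, 62277025928, 62277026054, 62277026055, 63082332168]

theorem c7_7 : rowsF (par Q7 Q8 fm3 zr fe1 zr) r7_7 = true := by decide +kernel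


end Vale.Agent.P236K.Cert.K53
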