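import Vale.Agent.P236K.Cert.LevF
import Vale.Agent.P236K.Cert.FastEq
import Vale.Agent.P236K.K53.R7_0
import Vale.Agent.P236K.K53.R7_1
import Vale.Agent.P236K.K53.R7_2
import Vale.Agent.P236K.K53.R7_3
import Vale.Agent.P236K.K53.R7_4
import Vale.Agent.P236K.K53.R7_5
import Vale.Agent.P236K.K53.R7_6
import Vale.Agent.P236K.K53.R7_7

/-!
# P236K / K53 / S7 : the step from degree 7 (generated)
-/

noncomputable section

namespace Vale.Agent.P236K.Cert.K53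

/-- rows -/
noncomputable def rows7 : List ℕ := (mrg (mrg (mrg r7_0 r7_1) (mrg r7_2 r7_3)) (mrg (mrg r7_4 r7_5) (mrg r7_6 r7_7)))

theorem lv7 : levF Q7 Q8 ly7.gl rows7 = true := by decide +kernel

theorem stp7 : Stp Q7 Q8 ly7.gl :=
  Stp.ofF (rows := rows7) (RowsAll.mrg (RowsAll.mrg (RowsAll.mrg (RowsAll.ofF c7_0) (RowsAll.ofF c7_1)) (RowsAll.mrg (RowsAll.ofF c7_2) (RowsAll.ofF c7_3))) (RowsAll.mrg (RowsAll.mrg (RowsAll.ofF c7_4) (RowsAll.ofF c7_5)) (RowsAll.mrg (RowsAll.ofF c7_6) (RowsAll.ofF c7_7)))) lv7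

end Vale.Agent.P236K.Cert.K53
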