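import Vale.Agent.P236K.Cert.Fast
import Vale.Agent.P236K.K53.N8
import Vale.Agent.P236K.K53.N9

/-!
# P236K / K53 / R8_3 : rows of degree 8 (generated)
-/

noncomputable section

namespace Vale.Agent.P236K.Cert.K53

/-- rows -/
noncomputable def r8_3 : List ℕ := [69793218601, 69793218602, 69793218603, 69793218604, 69793218606, 69793218607, 69793218608, 69793218609, 69793218610, 69793218611, 69793218612, 69793218613, 69793218615, 69793218616, 69793218617, 69793218618, 69793218619, 69793218620, 69793218621, 69793218622, 69793218623, 69793218624, 69793218726, 69793218728, 69793218729, 69793218730, 69793218731, 69793218732, 69793218734, 69793218735, 69793218736, 69793218737, 69793218738, 69793218739, 69793218740, 69793218741, 69793218743, 69793218744, 69793218745, 69793218746, 69793218747, 69793218748, 69793218849, 69793218850, 69793218851, 69793218854, 69793218856, 69793218857, 69793218858, 69793218859, 69793218860, 69793218862, 69793218863, 69793218864, 69793218865, 69793218866, 69793218867, 69793218868, 69793218869, 69793218871, 69793218872, 69793218977, 69793218978, 69793218979, 69793218982, 69793218984, 69793218985, 69793218986, 69793218987, 69793218988, 69793218990, 69793218991, 69793218992, 69793218993, 69793218994, 69793218995, 69793218996, 69793219097,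 69793219098, 69793219105, 69793219106, 69793219107, 69793219110, 69793219112, 69793219113, 69793219114, 69793219115, 69793219116, 69793219118, 69793219119, 69793219120, 69793219222, 69793219223, 69793219224, 69793219225, 69793219226, 69793219233, 69793219234, 69793219235, 69793219238, 69793219240, 69793219241, 69793219242, 69793219345, 69793219350, 69793219351, 69793219352, 69793219353, 69793219354, 69793219361, 69793219362, 69793219363, 69793219366, 69793219471, 69793219472, 69793219473, 69793219478, 69793219479, 69793219480, 69793219481, 69793219482, 69793219489, 69793219490, 69793219599, 69793219600, 69793219601, 69793219606, 69793219607, 69793219608, 69793219609, 69793219610, 69793219719, 69793219720, 69793219727, 69793219728, 69793219729, 69793219734, 69793219735, 69793219736, 69793219737, 69793219738, 69793219847, 69793219848, 69793219855, 69793219856, 69793219857, 69793219975, 69793219976, 69793220103, 69793220104, 69793267719, 69793267720, 69793267727, 69793267728, 69793267729, 69793267734, 69793267735, 69793267736, 69793268103, 69793268104, 70061654024, 70061654032, 70061654033, 70061654040, 70061654041, 70061654042, 70061654050, 70061654051, 70061654058, 70061654059, 70061654060, 70061654063, 70061654065, 70061654066, 70061654067, 70061654068,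 70061654069, 70061654072, 70061654073, 70061654074, 70061654075, 70061654076, 70061654077, 70061654078, 70061654152, 70061654160, 70061654161, 70061654168, 70061654169, 70061654170, 70061654178, 70061654179, 70061654186, 70061654187, 70061654188, 70061654191, 70061654193, 70061654194, 70061654195, 70061654196, 70061654197, 70061654200, 70061654201, 70061654202, 70061654280, 70061654288, 70061654289, 70061654296, 70061654297, 70061654298, 70061654306, 70061654307, 70061654314, 70061654315, 70061654316, 70061654319, 70061654321, 70061654322, 70061654323, 70061654324, 70061654325, 70061654408, 70061654416, 70061654417, 70061654424, 70061654425, 70061654426, 70061654434, 70061654435, 70061654442, 70061654443, 70061654444, 70061654447, 70061654449, 70061654536, 70061654544, 70061654545, 70061654552, 70061654553, 70061654554, 70061654562, 70061654563, 70061654570, 70061654571, 70061654572, 70061654664, 70061654672, 70061654673, 70061654680, 70061654681, 70061654682, 70061654690, 70061654691, 70061654792, 70061654800, 70061654801, 70061654808, 70061654809, 70061654810, 70061654818, 70061654819, 70061654920, 70061654928, 70061654929, 70061654936, 70061654937, 70061654938, 70061655048, 70061655056, 70061655057, 70061655064, 70061655065, 70061655066, 70061655176,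 70061655184, 70061655185, 70061655192, 70061655304, 70061655312, 70061655432, 70061655560, 70061703176, 70061703184, 70061703185, 70061703560]

theorem c8_3 : rowsF (par Q8 Q9 fm3 zr fe1 zr) r8_3 = true := by decide +kernel


end Vale.Agent.P236K.Cert.K53
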