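import Vale.Agent.P236K.Cert.LevF
import Vale.Agent.P236K.Cert.FastEq
import Vale.Agent.P236K.K53.R8_0
import Vale.Agent.P236K.K53.R8_1
import Vale.Agent.P236K.K53.R8_2
import Vale.Agent.P236K.K53.R8_3
import Vale.Agent.P236K.K53.R8_4
import Vale.Agent.P236K.K53.R8_5

/-!
# P236K / K53 / S8 : the step from degree 8 (generated)
-/

noncomputable section

namespace Vale.Agent.P236K.Cert.K53

/-- rows -/
noncomputable def rows8 : List ℕ := (mrg (mrg r8_0 (mrg r8_1 r8_2)) (mrg r8_3 (mrg r8_4 r8_5)))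

theorem lv8 : levF Q8 Q9 ly8.gl rows8 = true := by decide +kernel

theorem stp8 : Stp Q8 Q9 ly8.gl :=
  Stp.ofF (rows := rows8) (RowsAll.mrg (RowsAll.mrg (RowsAll.ofF c8_0) (RowsAll.mrg (RowsAll.ofF c8_1) (RowsAll.ofF c8_2))) (RowsAll.mrg (RowsAll.ofF c8_3) (RowsAll.mrg (RowsAll.ofF c8_4) (RowsAll.ofF c8_5)))) lv8

end Vale.Agent.P236K.Cert.K53
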