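import Vale.Agent.P236K.Cert.LevF
import Vale.Agent.P236K.Cert.FastEq
import Vale.Agent.P236K.K53.R9_0
import Vale.Agent.P236K.K53.R9_1
import Vale.Agent.P236K.K53.R9_2
import Vale.Agent.P236K.K53.R9_3
import Vale.Agent.P236K.K53.R9_4

/-!
# P236K / K53 / S9 : the step from degree 9 (generated)
-/

noncomputable section

namespace Vale.Agent.P236K.Cert.K53

/-- rows -/
noncomputable def rows9 : List ℕ := (mrg (mrg r9_0 r9_1) (mrg r9_2 (mrg r9_3 r9_4)))

theorem lv9 : levF Q9 Q10 ly9.gl rows9 = true := by decide +kernel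

theorem stp9 : Stp Q9 Q10 ly9.gl :=
  Stp.ofF (rows := rows9) (RowsAll.mrg (RowsAll.mrg (RowsAll.ofF c9_0) (RowsAll.ofF c9_1)) (RowsAll.mrg (RowsAll.ofF c9_2) (RowsAll.mrg (RowsAll.ofF c9_3) (RowsAll.ofF c9_4)))) lv9

end Vale.Agent.P236K.Cert.K53
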