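import Vale.Agent.P236K.K53.Q
import Vale.Agent.P236K.K53.S0
import Vale.Agent.P236K.K53.S1
import Vale.Agent.P236K.K53.S2
import Vale.Agent.P236K.K53.S3
import Vale.Agent.P236K.K53.S4
import Vale.Agent.P236K.K53.S5
import Vale.Agent.P236K.K53.S6
import Vale.Agent.P236K.K53.S7
import Vale.Agent.P236K.K53.S8
import Vale.Agent.P236K.K53.S9
import Vale.Agent.P236K.K53.S10
import Vale.Agent.P236K.K53.S11
import Vale.Agent.P236K.K53.S12
import Vale.Agent.P236K.K53.S13
import Vale.Agent.P236K.K53.S14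
import Vale.Agent.P236K.K53.S15
import Vale.Agent.P236K.K53.S16
import Vale.Agent.P236K.K53.S17
import Vale.Agent.P236K.K53.S18
import Vale.Agent.P236K.K53.S19
import Vale.Agent.P236K.K53.S20
import Vale.Agent.P236K.K53.S21
import Vale.Agent.P236K.K53.S22

/-!
# P236K / K53 / All : all steps
-/

noncomputable section

namespace Vale.Agent.P236K.Cert.K53

theorem stp : ∀ s, s + 1 < 24 → Stp (QS s) (QS (s + 1)) (lyS s).gl
  | 0, _ => stp0
  | 1, _ => stp1
  | 2, _ => stp2
  | 3, _ => stp3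
  | 4, _ => stp4
  | 5, _ => stp5
  | 6, _ => stp6
  | 7, _ => stp7
  | 8, _ => stp8
  | 9, _ => stp9
  | 10, _ => stp10
  | 11, _ => stp11
  | 12, _ => stp12
  | 13, _ => stp13
  | 14, _ => stp14
  | 15, _ => stp15
  | 16, _ => stp16
  | 17, _ => stp17
  | 18, _ => stp18
  | 19, _ => stp19
  | 20, _ => stp20
  | 21, _ => stp21
  | 22, _ => stp22
  | _ + 23, h => absurd h (by omega)

end Vale.Agent.P236K.Cert.K53
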