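import Vale.Agent.P236K.K53.N0
import Vale.Agent.P236K.K53.N1
import Vale.Agent.P236K.K53.N2
import Vale.Agent.P236K.K53.N3
import Vale.Agent.P236K.K53.N4
import Vale.Agent.P236K.K53.N5
import Vale.Agent.P236K.K53.N6
import Vale.Agent.P236K.K53.N7
import Vale.Agent.P236K.K53.N8
import Vale.Agent.P236K.K53.N9
import Vale.Agent.P236K.K53.N10
import Vale.Agent.P236K.K53.N11
import Vale.Agent.P236K.K53.N12
import Vale.Agent.P236K.K53.N13
import Vale.Agent.P236K.K53.N14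
import Vale.Agent.P236K.K53.N15
import Vale.Agent.P236K.K53.N16
import Vale.Agent.P236K.K53.N17
import Vale.Agent.P236K.K53.N18
import Vale.Agent.P236K.K53.N19
import Vale.Agent.P236K.K53.N20
import Vale.Agent.P236K.K53.N21
import Vale.Agent.P236K.K53.N22
import Vale.Agent.P236K.K53.N23

/-!
# P236K / K53 / Q : the families of the stored values
-/

noncomputable section

namespace Vale.Agent.P236K.Cert.K53

/-- the trees -/
def twS : ℕ → ℕ → BT := pik tw0 [tw0, tw1, tw2, tw3, tw4, tw5, tw6, tw7, tw8, tw9, tw10, tw11, tw12, tw13, tw14, tw15, tw16, tw17, tw18, tw19, tw20, tw21, tw22, tw23]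

/-- the decompressions -/
def unS : ℕ → ℕ → ℕ := pik un0 [un0, un1, un2, un3, un4, un5, un6, un7, un8, un9, un10, un11, un12, un13, un14, un15, un16, un17, un18, un19, un20, un21, un22, un23]

/-- the nodes -/
def QS (s : ℕ) : NP := Pl.D96.np s (lyS (s + 1)) (twS s) (unS s)

/-- the values -/
def nvS : ℕ → ℕ → ℕ := pik Q0.nv [Q0.nv, Q1.nv, Q2.nv, Q3.nv, Q4.nv, Q5.nv, Q6.nv, Q7.nv, Q8.nv, Q9.nv, Q10.nv, Q11.nv, Q12.nv, Q13.nv, Q14.nv, Q15.nv, Q16.nv, Q17.nv, Q18.nv, Q19.nv, Q20.nv, Q21.nv, Q22.nv, Q23.nv]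

theorem QS_0 : QS 0 = Q0 := rfl
theorem QS_1 : QS 1 = Q1 := rfl
theorem QS_2 : QS 2 = Q2 := rfl
theorem QS_3 : QS 3 = Q3 := rfl
theorem QS_4 : QS 4 = Q4 := rfl
theorem QS_5 : QS 5 = Q5 := rfl
theorem QS_6 : QS 6 = Q6 := rfl
theorem QS_7 : QS 7 = Q7 := rfl
theorem QS_8 : QS 8 = Q8 := rfl
theorem QS_9 : QS 9 = Q9 := rfl
theorem QS_10 : QS 10 = Q10 := rfl
theorem QS_11 : QS 11 = Q11 := rfl
theorem QS_12 : QS 12 = Q12 := rfl
theorem QS_13 : QS 13 = Q13 := rfl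
theorem QS_14 : QS 14 = Q14 := rfl
theorem QS_15 : QS 15 = Q15 := rfl
theorem QS_16 : QS 16 = Q16 := rfl
theorem QS_17 : QS 17 = Q17 := rfl
theorem QS_18 : QS 18 = Q18 := rfl
theorem QS_19 : QS 19 = Q19 := rfl
theorem QS_20 : QS 20 = Q20 := rfl
theorem QS_21 : QS 21 = Q21 := rfl
theorem QS_22 : QS 22 = Q22 := rfl
theorem QS_23 : QS 23 = Q23 := rfl

theorem nvS_eq : ∀ s < 24, nvS s = (QS s).nv := by
  intro s hs
  interval_cases s <;> rfl

theorem bot : (QS 0).sv 0 = 0 := by decide +kernel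

end Vale.Agent.P236K.Cert.K53
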