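import Vale.Agent.P236K.Cert.Fast
import Vale.Agent.P236K.K53.N2
import Vale.Agent.P236K.K53.N3

/-!
# P236K / K53 / R2_11 : rows of degree 2 (generated)
-/

noncomputable section

namespace Vale.Agent.P236K.Cert.K53

/-- rows -/
noncomputable def r2_11 : List ℕ := [2147483695, 2147483696, 2147483697, 2147483698, 2147483699, 2147483700, 2147483701, 2147483702, 2147483703, 2147483704, 2147483819, 2147483820, 2147483821, 2147483822, 2147483823, 2147483824, 2147483825, 2147483826, 2147483827, 2147483828, 2147483943, 2147483944, 2147483945, 2147483946, 2147483947, 2147483948, 2147483949, 2147483950, 2147483951, 2147483952, 2147484067, 2147484068, 2147484069, 2147484070, 2147484071, 2147484072, 2147484073, 2147484074, 2147484075, 2147484076, 2147484191, 2147484192, 2147484193, 2147484194, 2147484195, 2147484196, 2147484197, 2147484198, 2147484199, 2147484200, 2147484315, 2147484316, 2147484317, 2147484318, 2147484319, 2147484320, 2147484321, 2147484322, 2147484323, 2147484324, 2147484439, 2147484440, 2147484441, 2147484442, 2147484443, 2147484444, 2147484445, 2147484446, 2147484447, 2147484448, 2147484563, 2147484564, 2147484565, 2147484566, 2147484567, 2147484568, 2147484569,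 2147484570, 2147484571, 2147484572, 2147484687, 2147484688, 2147484689, 2147484690, 2147484691, 2147484692, 2147484693, 2147484694, 2147484695, 2147484696, 2147484811, 2147484812, 2147484813, 2147484814, 2147484815, 2147484816, 2147484817, 2147484819, 2147484820, 2147484935, 2147484936, 2147484939, 2147484940, 2147484941, 2147484942, 2147484943, 2147484944, 2147485059, 2147485060, 2147485061, 2147485062, 2147485063, 2147485064, 2147485065, 2147485066, 2147485067, 2147485068, 2147485187, 2147485188, 2147485189, 2147485190, 2147485191, 2147485192, 2147485315, 2147485316, 2147500066, 2147500067, 2147500068, 2147500069, 2147500070, 2147500071, 2147500072, 2147500073, 2147500074, 2147500075, 2147500190, 2147500191, 2147500192, 2147500193, 2147500194, 2147500195, 2147500196, 2147500197, 2147500198, 2147500199, 2147500314, 2147500315, 2147500316, 2147500317, 2147500318, 2147500319, 2147500320, 2147500321, 2147500322, 2147500323, 2147500438, 2147500439, 2147500440, 2147500441, 2147500442, 2147500443, 2147500444, 2147500445, 2147500446, 2147500447, 2147500562, 2147500563, 2147500564, 2147500565, 2147500566, 2147500567, 2147500568, 2147500569, 2147500570, 2147500571, 2147500686,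 2147500687, 2147500688, 2147500689, 2147500690, 2147500691, 2147500692, 2147500693, 2147500694, 2147500695, 2147500811, 2147500812, 2147500813, 2147500814, 2147500815, 2147500816, 2147500817, 2147500818, 2147500934, 2147500935, 2147500936, 2147500939, 2147500940, 2147500941, 2147500942, 2147501059, 2147501060, 2147501061, 2147501062, 2147501063, 2147501064, 2147501065, 2147501066, 2147501187, 2147501188, 2147501189, 2147501190, 2147516437, 2147516438, 2147516439, 2147516440, 2147516441, 2147516442, 2147516443, 2147516444, 2147516445, 2147516560, 2147516561, 2147516562, 2147516563, 2147516564, 2147516565, 2147516566, 2147516567, 2147516568, 2147516569, 2147516684, 2147516685, 2147516686, 2147516687, 2147516688, 2147516689, 2147516690, 2147516691, 2147516692, 2147516693, 2147516808, 2147516811, 2147516812, 2147516813, 2147516814, 2147516815, 2147516816, 2147516817, 2147516932, 2147516933, 2147516934, 2147516935, 2147516936, 2147516939, 2147516940, 2147516941, 2147517059, 2147517060, 2147517061, 2147517062, 2147517063, 2147517064, 2147517065, 2147517187, 2147517188, 2147517189, 2147532807, 2147532808, 2147532811, 2147532812, 2147532813, 2147532814, 2147532815, 2147532816,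 2147532931, 2147532932, 2147532933, 2147532934, 2147532935, 2147532936, 2147532939, 2147532940, 2147533059, 2147533060, 2147533061, 2147533062, 2147533063, 2147533064, 2147533187, 2147533188]

theorem c2_11 : rowsF (par Q2 Q3 fm3 zr fe1 zr) r2_11 = true := by decide +kernel


end Vale.Agent.P236K.Cert.K53
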