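import Vale.Agent.P236K.Cert.Fast
import Vale.Agent.P236K.K53.N2
import Vale.Agent.P236K.K53.N3

/-!
# P236K / K53 / R2_24 : rows of degree 2 (generated)
-/

noncomputable section

namespace Vale.Agent.P236K.Cert.K53

/-- rows -/
noncomputable def r2_24 : List ℕ := [2952790067, 2952790068, 2952790069, 2952790070, 2952790071, 2952790072, 2952790073, 2952790074, 2952790191, 2952790192, 2952790193, 2952790194, 2952790195, 2952790196, 2952790197, 2952790198, 2952790315, 2952790316, 2952790317, 2952790318, 2952790319, 2952790320, 2952790321, 2952790322, 2952790439, 2952790440, 2952790441, 2952790442, 2952790443, 2952790444, 2952790445, 2952790446, 2952790563, 2952790564, 2952790565, 2952790566, 2952790567, 2952790568, 2952790569, 2952790570, 2952790687, 2952790688, 2952790689, 2952790690, 2952790691, 2952790692, 2952790693, 2952790694, 2952790814, 2952790815, 2952790816, 2952790817, 2952790818, 2952790935, 2952790936, 2952790937, 2952790938, 2952790942, 2952791059, 2952791060, 2952791061, 2952791062, 2952791063, 2952791064, 2952791065, 2952791066, 2952791183, 2952791184, 2952791185, 2952791186, 2952791187, 2952791188, 2952791189, 2952791190, 2952791307, 2952791308,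 2952791309, 2952791310, 2952791311, 2952791312, 2952791313, 2952791314, 2952791431, 2952791432, 2952791433, 2952791434, 2952791435, 2952791436, 2952791437, 2952791438, 2952791558, 2952791559, 2952791560, 2952791561, 2952791562, 2952791686, 2952806438, 2952806439, 2952806440, 2952806441, 2952806442, 2952806443, 2952806444, 2952806445, 2952806562, 2952806563, 2952806564, 2952806565, 2952806566, 2952806567, 2952806568, 2952806569, 2952806686, 2952806687, 2952806688, 2952806689, 2952806690, 2952806691, 2952806692, 2952806693, 2952806810, 2952806814, 2952806815, 2952806816, 2952806817, 2952806934, 2952806935, 2952806936, 2952806937, 2952806938, 2952807058, 2952807059, 2952807060, 2952807061, 2952807062, 2952807063, 2952807064, 2952807065, 2952807181, 2952807182, 2952807183, 2952807184, 2952807185, 2952807186, 2952807187, 2952807188, 2952807305, 2952807306, 2952807307, 2952807308, 2952807309, 2952807310, 2952807311, 2952807312, 2952807430, 2952807431, 2952807432, 2952807433, 2952807434, 2952807435, 2952807436, 2952807558, 2952807559, 2952807560, 2952822808, 2952822809, 2952822810, 2952822814, 2952822815, 2952822932, 2952822933, 2952822934, 2952822935, 2952822936, 2952822937,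 2952822938, 2952823056, 2952823057, 2952823058, 2952823059, 2952823060, 2952823061, 2952823062, 2952823063, 2952823180, 2952823181, 2952823182, 2952823183, 2952823184, 2952823185, 2952823186, 2952823187, 2952823304, 2952823305, 2952823306, 2952823307, 2952823308, 2952823430, 2952823431, 2952823432, 2952823558, 2952823559, 2952839179, 2952839180, 2952839181, 2952839182, 2952839183, 2952839184, 2952839185, 2952839186, 2952839303, 2952839304, 2952839305, 2952839306, 2952839307, 2952839308, 2952839309, 2952839310, 2952839430, 2952839431, 2952839432, 2952839433, 2952839434, 2952839558]

theorem c2_24 : rowsF (par Q2 Q3 fm3 zr fe1 zr) r2_24 = true := by decide +kernel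


end Vale.Agent.P236K.Cert.K53
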