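import Vale.Agent.P236K.Cert.Fast
import Vale.Agent.P236K.K53.N3
import Vale.Agent.P236K.K53.N4

/-!
# P236K / K53 / R3_23 : rows of degree 3 (generated)
-/

noncomputable section

namespace Vale.Agent.P236K.Cert.K53

/-- rows -/
noncomputable def r3_23 : List ℕ := [6710886467, 6710886468, 6710886469, 6710886470, 6710886471, 6710886472, 6710886473, 6710886474, 6710886591, 6710886592, 6710886593, 6710886594, 6710886595, 6710886596, 6710886597, 6710886598, 6710886715, 6710886716, 6710886717, 6710886718, 6710886719, 6710886720, 6710886721, 6710886722, 6710886839, 6710886840, 6710886841, 6710886842, 6710886843, 6710886844, 6710886845, 6710886846, 6710886963, 6710886964, 6710886965, 6710886966, 6710886967, 6710886968, 6710886969, 6710886970, 6710887087, 6710887088, 6710887089, 6710887090, 6710887091, 6710887092, 6710887093, 6710887094, 6710887211, 6710887212, 6710887213, 6710887214, 6710887215, 6710887216, 6710887217, 6710887218, 6710887335, 6710887336, 6710887337, 6710887338, 6710887339, 6710887340, 6710887341, 6710887342, 6710887459, 6710887460, 6710887461, 6710887462, 6710887463, 6710887464, 6710887465, 6710887466, 6710887583, 6710887584, 6710887585, 6710887586,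 6710887587, 6710887588, 6710887589, 6710887590, 6710887707, 6710887708, 6710887709, 6710887710, 6710887711, 6710887712, 6710887713, 6710887714, 6710887832, 6710887833, 6710887834, 6710887835, 6710887836, 6710887837, 6710887838, 6710887960, 6710887961, 6710887962, 6710888079, 6710888080, 6710888081, 6710888207, 6710888208, 6710888209, 6710888327, 6710888328, 6710888455, 6710888456, 6710888582, 6710902838, 6710902839, 6710902962, 6710903086, 6710903210, 6710903334, 6710919209, 6710919333, 6710919581, 6710935579, 6710935580, 6710935581, 6710935582, 6710935583, 6710935584, 6710935585, 6710935586, 6710935704, 6710935705, 6710935706, 6710935707, 6710935708, 6710935709, 6710935710, 6710935832, 6710935833, 6710935834, 6710935951, 6710935952, 6710935953, 6710936079, 6710936080, 6710936081, 6710936199, 6710936200, 6710936327, 6710936328]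

theorem c3_23 : rowsF (par Q3 Q4 fm3 zr fe1 zr) r3_23 = true := by decide +kernel


end Vale.Agent.P236K.Cert.K53
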