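import Vale.Agent.P236K.Cert.Fast
import Vale.Agent.P236K.K53.N3
import Vale.Agent.P236K.K53.N4

/-!
# P236K / K53 / R3_36 : rows of degree 3 (generated)
-/

noncomputable section

namespace Vale.Agent.P236K.Cert.K53

/-- rows -/
noncomputable def r3_36 : List ℕ := [7784628275, 7784628276, 7784628277, 7784628278, 7784628399, 7784628400, 7784628401, 7784628402, 7784628523, 7784628524, 7784628525, 7784628526, 7784628647, 7784628648, 7784628649, 7784628650, 7784628771, 7784628772, 7784628773, 7784628774, 7784628895, 7784628896, 7784628897, 7784628898, 7784629143, 7784629144, 7784629145, 7784629146, 7784629267, 7784629268, 7784629269, 7784629270, 7784629391, 7784629392, 7784629393, 7784629394, 7784629515, 7784629516, 7784629517, 7784629518, 7784629639, 7784629640, 7784629641, 7784629642, 7784629765, 7784629766, 7784644646, 7784644647, 7784644648, 7784644649, 7784644770, 7784644771, 7784644772, 7784644773, 7784644894, 7784644895, 7784644896, 7784644897, 7784645018, 7784645142, 7784645143, 7784645144, 7784645145, 7784645266, 7784645267, 7784645268, 7784645269, 7784645390, 7784645391, 7784645392, 7784645393, 7784645514, 7784645515, 7784645516, 7784645517,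 7784645638, 7784645639, 7784661016, 7784661017, 7784661018, 7784661140, 7784661141, 7784661142, 7784661143, 7784661144, 7784661264, 7784661265, 7784661266, 7784661267, 7784661388, 7784661389, 7784661390, 7784661391, 7784661392, 7784661512, 7784661513, 7784661514, 7784661515, 7784661636, 7784661637, 7784661638, 7784677387, 7784677388, 7784677389, 7784677390, 7784677511, 7784677512, 7784677513, 7784677514, 7784677635, 7784677636, 7784677637, 7784677638]

theorem c3_36 : rowsF (par Q3 Q4 fm3 zr fe1 zr) r3_36 = true := by decide +kernel


end Vale.Agent.P236K.Cert.K53
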