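import Vale.Agent.P236K.Cert.Fast
import Vale.Agent.P236K.K53.N5
import Vale.Agent.P236K.K53.N6

/-!
# P236K / K53 / R5_11 : rows of degree 5 (generated)
-/

noncomputable section

namespace Vale.Agent.P236K.Cert.K53

/-- rows -/
noncomputable def r5_11 : List ℕ := [28991029314, 28991029315, 28991029438, 28991029439, 28991029562, 28991029686, 28991029810, 28991029934, 28991078426, 28991078550, 28991078798, 28991079046, 29259464712, 29259464720, 29259464721, 29259464722, 29259464723, 29259464724, 29259464725, 29259464726, 29259464727, 29259464728, 29259464729, 29259464730, 29259464733, 29259464735, 29259464736, 29259464738, 29259464739, 29259464740, 29259464741, 29259464742, 29259464743, 29259464744, 29259464745, 29259464746, 29259464747, 29259464748, 29259464749, 29259464750, 29259464751, 29259464752, 29259464753, 29259464754, 29259464755, 29259464756, 29259464757, 29259464758, 29259464759, 29259464760, 29259464761, 29259464762, 29259464763, 29259464840, 29259464848, 29259464849, 29259464850, 29259464851, 29259464852, 29259464853, 29259464854, 29259464855, 29259464856, 29259464857, 29259464858, 29259464861, 29259464863, 29259464864, 29259464866, 29259464867, 29259464868, 29259464869, 29259464870, 29259464871, 29259464872, 29259464873, 29259464874, 29259464875,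 29259464876, 29259464877, 29259464878, 29259464879, 29259464880, 29259464881, 29259464882, 29259464883, 29259464884, 29259464885, 29259464886, 29259464887, 29259464968, 29259464976, 29259464977, 29259464978, 29259464979, 29259464980, 29259464981, 29259464982, 29259464983, 29259464984, 29259464985, 29259464986, 29259464988, 29259464989, 29259464991, 29259464992, 29259464994, 29259464995, 29259464996, 29259464997, 29259464998, 29259464999, 29259465000, 29259465001, 29259465002, 29259465003, 29259465004, 29259465005, 29259465006, 29259465007, 29259465008, 29259465009, 29259465010, 29259465011, 29259465096, 29259465104, 29259465105, 29259465106, 29259465107, 29259465108, 29259465109, 29259465110, 29259465111, 29259465112, 29259465113, 29259465114, 29259465117, 29259465119, 29259465120, 29259465122, 29259465123, 29259465124, 29259465125, 29259465126, 29259465127, 29259465128, 29259465129, 29259465130, 29259465131, 29259465132, 29259465133, 29259465134, 29259465135, 29259465224, 29259465232, 29259465233, 29259465234, 29259465235, 29259465236, 29259465237, 29259465238, 29259465239, 29259465240, 29259465241, 29259465242, 29259465245, 29259465247, 29259465248, 29259465250, 29259465251, 29259465252, 29259465253, 29259465254, 29259465255, 29259465256, 29259465257,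 29259465258, 29259465259, 29259465352, 29259465360, 29259465361, 29259465362, 29259465363, 29259465364, 29259465365, 29259465366, 29259465367, 29259465368, 29259465369, 29259465370, 29259465372, 29259465373, 29259465375, 29259465376, 29259465378, 29259465379, 29259465380, 29259465381, 29259465382, 29259465383, 29259465480, 29259465488, 29259465489, 29259465490, 29259465491, 29259465492, 29259465493, 29259465494, 29259465495, 29259465496, 29259465497, 29259465498, 29259465501, 29259465503, 29259465504, 29259465506, 29259465507, 29259465608, 29259465616, 29259465617, 29259465618, 29259465619, 29259465620, 29259465621, 29259465622, 29259465623, 29259465624, 29259465625, 29259465626, 29259465629, 29259465631, 29259465736, 29259465744, 29259465745, 29259465746, 29259465747, 29259465748, 29259465749, 29259465750, 29259465751, 29259465752, 29259465753, 29259465754, 29259465864, 29259465872, 29259465873, 29259465874, 29259465875, 29259465876, 29259465877, 29259465878, 29259465879, 29259465992, 29259466000, 29259466001, 29259466002, 29259466003, 29259466120, 29259466248, 29259513864, 29259513872, 29259513873, 29259513874, 29259513875, 29259513876, 29259513992, 29259514000, 29259514120, 29259514248]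

theorem c5_11 : rowsF (par Q5 Q6 fm3 zr fe1 zr) r5_11 = true := by decide +kernel


end Vale.Agent.P236K.Cert.K53
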