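import Vale.Agent.P236K.Cert.LevF
import Vale.Agent.P236K.Cert.FastEq
import Vale.Agent.P236K.K53.R14_0

/-!
# P236K / K53 / S14 : the step from degree 14 (generated)
-/

noncomputable section

namespace Vale.Agent.P236K.Cert.K53

/-- rows -/
noncomputable def rows14 : List ℕ := r14_0

theorem lv14 : levF Q14 Q15 ly14.gl rows14 = true := by decide +kernel

theorem stp14 : Stp Q14 Q15 ly14.gl :=
  Stp.ofF (rows := rows14) (RowsAll.ofF c14_0) lv14

end Vale.Agent.P236K.Cert.K53
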